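import Vale.Agent.P073.H236.Fam
import Vale.Agent.P073.H339.Arcs2

/-!
# P073, H236, STAGE 3 of a round: what `S ∘ g` does, `g` from (INS)

`h : ConHomeo Ω Λ` (old), `κ` insertion map, `g : ConHomeo Ω Λ` with `g '' X = Pre κ Λ h X` for the
sets `X` of the family, `S` the staircase of the boxes. In the band `k` of the box `b` (full zone)
the set `S (g X)` is the product of the trace of `h X` on the level `a k` with the band.
-/

open Set Metric Topology Filter

namespace P073.H236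

open P073

variable {E : Type*} [NormedAddCommGroup E] [NormedSpace ℝ E] {ι : Type*}
  {Ω : Set E} {Λ : Set (Fin 3 → ℝ)}

/-- the insertion map is flat on the flats of the full zones -/
def FlatK (F : BFam 3 ι Λ) (κ : (Fin 3 → ℝ) → Fin 3 → ℝ) : Prop :=
  ∀ b y, F.FullK b y → ∀ k < (F.B b).N, |y (F.B b).j - (F.B b).a k| ≤ (F.B b).c →
    κ y = Function.update y (F.B b).j ((F.B b).a k)

variable {F : BFam 3 ι Λ} {κ : (Fin 3 → ℝ) → Fin 3 → ℝ} {h g : ConHomeo Ω Λ} {S : ConHomeo Λ Λ}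
  {b : ι} {k : ℕ} {X : Set E} {y : Fin 3 → ℝ} {x : E} {t : ℝ}

/-- the band `k` of the box `b` -/
def BFam.bd (F : BFam 3 ι Λ) (b : ι) (k : ℕ) : Set ℝ :=
  bnd (F.B b).N (F.B b).al (F.B b).be (F.e b) k

theorem BFam.bd_sub (F : BFam 3 ι Λ) (b : ι) {k : ℕ} (hk : k < (F.B b).N) :
    F.bd b k ⊆ Icc (F.B b).al (F.B b).be := by
  intro t ht
  have hN : (0:ℝ) < (F.B b).N := by exact_mod_cast (F.B b).lvs.pos
  have he := F.he b
  have h1 : ((F.B b).N : ℝ) * stp (F.B b).N (F.B b).al (F.B b).be = (F.B b).be - (F.B b).al := by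
    unfold stp; rw [mul_div_cancel₀ _ hN.ne']
  have h2 : 0 < stp (F.B b).N (F.B b).al (F.B b).be :=
    div_pos (sub_pos.2 (F.B b).al_lt_be) hN
  have h3 : ((k : ℝ) + 1) ≤ (F.B b).N := by exact_mod_cast hk
  have h4 : ((k : ℝ) + 1) * stp (F.B b).N (F.B b).al (F.B b).be ≤
      (F.B b).N * stp (F.B b).N (F.B b).al (F.B b).be := mul_le_mul_of_nonneg_right h3 h2.le
  have h5 : 0 ≤ (k : ℝ) * stp (F.B b).N (F.B b).al (F.B b).be := by positivity
  obtain ⟨h6, h7⟩ := ht
  constructor <;> linarith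

theorem BFam.abs_σi (F : BFam 3 ι Λ) (b : ι) (hk : k < (F.B b).N) :
    |F.σi b t - (F.B b).a k| ≤ (F.B b).c ↔ t ∈ F.bd b k :=
  smi_bnd (F.B b).lvs (F.he b) (F.heo b) hk

theorem BFam.σ_mem_bd (F : BFam 3 ι Λ) (b : ι) (hk : k < (F.B b).N) :
    F.σ b t ∈ F.bd b k ↔ |t - (F.B b).a k| ≤ (F.B b).c :=
  sm_bnd (F.B b).lvs (F.he b) (F.heo b) hk

/-- levels and flats lie in the window -/
theorem BX.flat_win (B : BX 3) (hk : k < B.N) (ht : |t - B.a k| ≤ B.c) : t ∈ Icc B.al B.be := by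
  have h1 := B.lvs.first_le hk
  have h2 := B.lvs.le_last hk
  have h3 := B.lvs.c0
  obtain ⟨h4, h5⟩ := abs_le.1 ht
  constructor <;> linarith

/-- **key lemma**: product structure in the bands -/
theorem mem_image_iff (hκ : FlatK F κ) (hS : F.IsS S)
    (hX : g.toFun '' X = H579.Pre κ Λ h X) (hXΩ : X ⊆ Ω)
    (hy : F.FullK b y) (hk : k < (F.B b).N) (hyk : y (F.B b).j ∈ F.bd b k) :
    y ∈ (g.trans S).toFun '' X ↔
      Function.update y (F.B b).j ((F.B b).a k) ∈ h.toFun '' X := by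
  have hyΛ : y ∈ Λ := F.sub b hy.mem
  -- `z = S⁻¹ y`
  set z := S.invFun y with hz
  have hz1 : z = Function.update y (F.B b).j (F.σi b (y (F.B b).j)) := hS.full' hy
  have hzΛ : z ∈ Λ := S.mapsTo_inv hyΛ
  have hSz : S.toFun z = y := S.right_inv hyΛ
  have hzF : F.FullK b z := by rw [hz1]; exact hy.update (F.σi_win hy.1)
  have hzj : |z (F.B b).j - (F.B b).a k| ≤ (F.B b).c := by
    rw [hz1, Function.update_self]; exact (F.abs_σi b hk).2 hyk
  have hκz : κ z = Function.update y (F.B b).j ((F.B b).a k) := by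
    rw [hκ b z hzF k hk hzj, hz1, Function.update_idem]
  have h1 : y ∈ (g.trans S).toFun '' X ↔ z ∈ g.toFun '' X := by
    constructor
    · rintro ⟨x, hx, hxy⟩
      have h2 : S.toFun (g.toFun x) = y := hxy
      refine ⟨x, hx, ?_⟩
      rw [hz, ← h2, S.left_inv (g.mapsTo (hXΩ hx))]
    · rintro ⟨x, hx, hxz⟩
      exact ⟨x, hx, by show S.toFun (g.toFun x) = y; rw [hxz, hSz]⟩
  rw [h1, hX]
  constructor
  · rintro ⟨-, h2⟩
    rwa [mem_preimage, hκz] at h2
  · intro h2
    exact ⟨hzΛ, by rwa [mem_preimage, hκz]⟩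

/-- **[VI]**: `S (g X)` is invariant under moves in the direction of the box, inside a band -/
theorem image_update (hκ : FlatK F κ) (hS : F.IsS S)
    (hX : g.toFun '' X = H579.Pre κ Λ h X) (hXΩ : X ⊆ Ω)
    (hy : F.FullK b y) (hk : k < (F.B b).N) (hyk : y (F.B b).j ∈ F.bd b k) (ht : t ∈ F.bd b k)
    (hm : y ∈ (g.trans S).toFun '' X) :
    Function.update y (F.B b).j t ∈ (g.trans S).toFun '' X := by
  have hy' := hy.update (F.bd_sub b hk ht)
  rw [mem_image_iff hκ hS hX hXΩ hy' hk (by rwa [Function.update_self]), Function.update_idem]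
  exact (mem_image_iff hκ hS hX hXΩ hy hk hyk).1 hm

/-- the same for points: if no gap separates `y j` and `t` -/
theorem image_update_of_gap (hκ : FlatK F κ) (hS : F.IsS S)
    (hX : g.toFun '' X = H579.Pre κ Λ h X) (hXΩ : X ⊆ Ω)
    (hy : F.FullK b y) (ht : t ∈ Icc (F.B b).al (F.B b).be)
    (hgap : ∀ i ≤ (F.B b).N, ∀ r ∈ uIcc (y (F.B b).j) t, F.e b ≤ |r - ((F.B b).al + i * F.om b)|)
    (hm : y ∈ (g.trans S).toFun '' X) :
    Function.update y (F.B b).j t ∈ (g.trans S).toFun '' X := by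
  have h1 : ∀ r ∈ uIcc (y (F.B b).j) t, ∃ k < (F.B b).N, r ∈ F.bd b k := by
    intro r hr
    have hw : r ∈ Icc (F.B b).al (F.B b).be :=
      (uIcc_subset_Icc (a₁ := y (F.B b).j) (b₁ := t) hy.1 ht) hr
    rcases bnd_or_gap (e := F.e b) (F.B b).lvs.pos (F.B b).al_lt_be hw.1 hw.2 with h2 | ⟨k, hk, h3⟩
    · exact h2
    · exact absurd h3 (not_lt.2 (hgap k hk r hr))
  obtain ⟨k, hk, hyk⟩ := h1 _ left_mem_uIcc
  obtain ⟨l, hl, htl⟩ := h1 _ right_mem_uIcc
  have hkl : k = l := by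
    by_contra hne
    have hom : F.om b = stp (F.B b).N (F.B b).al (F.B b).be := rfl
    -- the division point between the two bands
    obtain ⟨h2, h3⟩ := hyk
    obtain ⟨h4, h5⟩ := htl
    have hst : 0 < stp (F.B b).N (F.B b).al (F.B b).be := by
      have := F.heo b; have := F.he b; linarith
    have he := F.he b
    rcases lt_or_gt_of_ne hne with hlt | hlt
    · have hc : ((k:ℝ) + 1) ≤ l := by exact_mod_cast hlt
      have hc' : ((k:ℝ) + 1) * stp (F.B b).N (F.B b).al (F.B b).be ≤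
          l * stp (F.B b).N (F.B b).al (F.B b).be := mul_le_mul_of_nonneg_right hc hst.le
      have h6 := hgap (k + 1) (by omega)
        ((F.B b).al + ((k + 1 : ℕ) : ℝ) * F.om b) (by
          rw [hom]; push_cast
          rw [uIcc_of_le (by linarith)]
          constructor <;> linarith)
      rw [sub_self, abs_zero] at h6
      linarith
    · have hc : ((l:ℝ) + 1) ≤ k := by exact_mod_cast hlt
      have hc' : ((l:ℝ) + 1) * stp (F.B b).N (F.B b).al (F.B b).be ≤
          k * stp (F.B b).N (F.B b).al (F.B b).be := mul_le_mul_of_nonneg_right hc hst.le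
      have h6 := hgap (l + 1) (by omega)
        ((F.B b).al + ((l + 1 : ℕ) : ℝ) * F.om b) (by
          rw [hom]; push_cast
          rw [uIcc_of_ge (by linarith)]
          constructor <;> linarith)
      rw [sub_self, abs_zero] at h6
      linarith
  subst hkl
  exact image_update hκ hS hX hXΩ hy hk hyk htl hm

/-- **circles**: a circle of the new level sets gives a circle of the old ones -/
theorem exists_circle (hκ : FlatK F κ) (hS : F.IsS S)
    (hX : g.toFun '' X = H579.Pre κ Λ h X) (hXΩ : X ⊆ Ω) (hk : k < (F.B b).N)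
    (ht : t ∈ F.bd b k) {σ : Set E} (hσ : IsCircle σ) (hσX : σ ⊆ X)
    (hσt : ∀ x ∈ σ, (g.trans S).toFun x (F.B b).j = t ∧ F.FullK b ((g.trans S).toFun x)) :
    ∃ σ' : Set E, IsCircle σ' ∧ σ' ⊆ X ∧
      ∀ x ∈ σ', h.toFun x (F.B b).j = (F.B b).a k ∧ F.FullK b (h.toFun x) := by
  have h1 : IsCircle ((g.trans S).toFun '' σ) :=
    H339.IsCircle.image hσ (g.trans S) (hσX.trans hXΩ)
  let w : Fin 3 → ℝ := Function.update 0 (F.B b).j ((F.B b).a k - t)
  have h2 : IsCircle ((fun y => y + w) '' ((g.trans S).toFun '' σ)) :=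
    H339.IsCircle.image h1 (ConHomeo.translate w (X := (univ : Set (Fin 3 → ℝ)))
      isOpen_univ.conicalSet) (subset_univ _)
  have hw : ∀ x ∈ σ, (g.trans S).toFun x + w =
      Function.update ((g.trans S).toFun x) (F.B b).j ((F.B b).a k) := by
    intro x hx
    ext i
    by_cases hi : i = (F.B b).j
    · rw [hi, Pi.add_apply, Function.update_self, (hσt x hx).1]
      simp [w]
    · rw [Pi.add_apply, Function.update_of_ne hi]
      simp [w, hi]
  have hsub : (fun y => y + w) '' ((g.trans S).toFun '' σ) ⊆ h.toFun '' X := by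
    rintro _ ⟨_, ⟨x, hx, rfl⟩, rfl⟩
    show (g.trans S).toFun x + w ∈ h.toFun '' X
    rw [hw x hx]
    exact (mem_image_iff hκ hS hX hXΩ (hσt x hx).2 hk (by rw [(hσt x hx).1]; exact ht)).1
      (mem_image_of_mem _ (hσX hx))
  have hsubΛ : h.toFun '' X ⊆ Λ := by
    rintro _ ⟨x, hx, rfl⟩; exact h.mapsTo (hXΩ hx)
  refine ⟨_, H339.IsCircle.image h2 h.symm (hsub.trans hsubΛ), ?_, ?_⟩
  · rintro _ ⟨y, hy, rfl⟩
    obtain ⟨x', hx', hxy⟩ := hsub hy
    rw [← hxy]
    show h.invFun (h.toFun x') ∈ X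
    rwa [h.left_inv (hXΩ hx')]
  · rintro _ ⟨y, hy, rfl⟩
    have h3 : h.toFun (h.symm.toFun y) = y := h.right_inv (hsubΛ (hsub hy))
    rw [h3]
    obtain ⟨_, ⟨x, hx, rfl⟩, rfl⟩ := hy
    show ((g.trans S).toFun x + w) _ = _ ∧ F.FullK b ((g.trans S).toFun x + w)
    rw [hw x hx, Function.update_self]
    exact ⟨rfl, (hσt x hx).2.update ((F.B b).flat_win hk (by
      rw [sub_self, abs_zero]; exact (F.B b).lvs.c0.le))⟩

end P073.H236
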