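import Vale.Agent.P073.H236.StairBox
import Vale.Agent.P073.H579.Ins

/-!
# P073, H236, STAGE 3: the staircase map of a locally finite family of boxes

The targets fill the windows: uniform steps `om = (be - al) / N`, gaps of length `2 e` around the
points `al + k * om`.
-/

open Set Metric Topology Filter

namespace P073.H236

open P073

section tgt
variable {N : ℕ} {a : ℕ → ℝ} {c al be e : ℝ}

/-- uniform step -/
noncomputable def stp (N : ℕ) (al be : ℝ) : ℝ := (be - al) / N

theorem Tgt.full (hN : 0 < N) (he : 0 < e) (heo : 2 * e < stp N al be) :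
    Tgt N al be al (stp N al be) e where
  first := by linarith
  e0 := he
  eo := heo
  last := by
    have hN' : (N : ℝ) ≠ 0 := by positivity
    unfold stp
    rw [mul_div_cancel₀ _ hN']
    linarith

/-- the band of the level `a k` -/
def bnd (N : ℕ) (al be e : ℝ) (k : ℕ) : Set ℝ :=
  Icc (al + k * stp N al be + e) (al + (k + 1) * stp N al be - e)

/-- the inverse of the staircase maps the bands onto the flats -/
theorem smi_bnd (h : Lvs N a c al be) (he : 0 < e) (heo : 2 * e < stp N al be) {k : ℕ} (hk : k < N)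
    {t : ℝ} : |smi N a c al be al (stp N al be) e t - a k| ≤ c ↔ t ∈ bnd N al be e k := by
  have hT := Tgt.full h.pos he heo
  have hc := h.c0
  set s := smi N a c al be al (stp N al be) e t with hs
  have h1 : sm N a c al be al (stp N al be) e s = t := sm_smi h hT t
  have hm := sm_strictMono h hT
  have e1 : sm N a c al be al (stp N al be) e (a k - c) = al + k * stp N al be + e := by
    rw [sm_flat h hk (by rw [abs_le]; constructor <;> linarith)]
    ring
  have e2 : sm N a c al be al (stp N al be) e (a k + c) = al + (k + 1) * stp N al be - e := by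
    rw [sm_flat h hk (by rw [abs_le]; constructor <;> linarith)]
    field_simp
    ring
  unfold bnd
  rw [abs_le, mem_Icc, ← e1, ← e2, ← h1, hm.le_iff_le, hm.le_iff_le]
  constructor <;> rintro ⟨h2, h3⟩ <;> constructor <;> linarith

/-- the staircase on a flat -/
theorem sm_bnd (h : Lvs N a c al be) (he : 0 < e) (heo : 2 * e < stp N al be) {k : ℕ} (hk : k < N)
    {s : ℝ} : sm N a c al be al (stp N al be) e s ∈ bnd N al be e k ↔ |s - a k| ≤ c := by
  have hT := Tgt.full h.pos he heo
  rw [← smi_bnd h he heo hk, smi_sm h hT]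

/-- **every point of the window is in a band or in a gap** -/
theorem bnd_or_gap (hN : 0 < N) (hab : al < be) {t : ℝ} (h1 : al ≤ t) (h2 : t ≤ be) :
    (∃ k < N, t ∈ bnd N al be e k) ∨ ∃ k ≤ N, |t - (al + k * stp N al be)| < e := by
  by_cases hcase : ∃ k ≤ N, |t - (al + k * stp N al be)| < e
  · exact Or.inr hcase
  · left
    push Not at hcase
    have hN' : (0:ℝ) < N := by exact_mod_cast hN
    have hst : 0 < stp N al be := div_pos (sub_pos.2 hab) hN'
    have hNs : (N : ℝ) * stp N al be = be - al := by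
      unfold stp; rw [mul_div_cancel₀ _ hN'.ne']
    -- `k := ⌊(t - al) / stp⌋`
    set x := (t - al) / stp N al be with hx
    have hx0 : 0 ≤ x := div_nonneg (by linarith) hst.le
    have hxt : x * stp N al be = t - al := by rw [hx, div_mul_cancel₀ _ hst.ne']
    rcases h2.lt_or_eq with h2 | h2
    · have hk : ⌊x⌋₊ < N := by
        rw [Nat.floor_lt hx0, hx, div_lt_iff₀ hst]
        linarith
      refine ⟨⌊x⌋₊, hk, ?_⟩
      have f1 := Nat.floor_le hx0
      have f2 := Nat.lt_floor_add_one x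
      have g1 := hcase ⌊x⌋₊ hk.le
      have g2 := hcase (⌊x⌋₊ + 1) hk
      have k1 : (⌊x⌋₊ : ℝ) * stp N al be ≤ t - al := by
        rw [← hxt]; exact mul_le_mul_of_nonneg_right f1 hst.le
      have k2 : t - al ≤ ((⌊x⌋₊ : ℝ) + 1) * stp N al be := by
        rw [← hxt]; exact mul_le_mul_of_nonneg_right f2.le hst.le
      push_cast at g2
      rw [abs_of_nonneg (by linarith)] at g1
      rw [abs_of_nonpos (by linarith)] at g2
      unfold bnd
      constructor <;> linarith
    · have g := hcase N le_rfl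
      rw [hNs, h2] at g
      have : |be - (al + (be - al))| = 0 := by
        rw [show be - (al + (be - al)) = 0 by ring, abs_zero]
      have g0 := hcase 0 (Nat.zero_le _)
      -- `e ≤ 0`, everything is in the band
      refine ⟨N - 1, Nat.sub_lt hN one_pos, ?_⟩
      have hcast : ((N - 1 : ℕ) : ℝ) + 1 = N := by
        rw [Nat.cast_sub hN]; simp
      have hcast' : ((N - 1 : ℕ) : ℝ) = N - 1 := by linarith
      unfold bnd
      rw [hcast', h2]
      constructor
      · have : (N - 1 : ℝ) * stp N al be = (be - al) - stp N al be := by rw [sub_mul, hNs, one_mul]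
        linarith
      · have : (N - 1 + 1 : ℝ) * stp N al be = be - al := by rw [sub_add_cancel, hNs]
        linarith

end tgt

/-- a locally finite family of boxes in `Λ`, with the parameters of the staircases -/
structure BFam (n : ℕ) (ι : Type*) (Λ : Set (Fin n → ℝ)) where
  B : ι → BX n
  e : ι → ℝ
  D : ι → ℝ
  he : ∀ b, 0 < e b
  heo : ∀ b, 2 * e b < stp (B b).N (B b).al (B b).be
  hD : ∀ b t, |sm (B b).N (B b).a (B b).c (B b).al (B b).be (B b).al
    (stp (B b).N (B b).al (B b).be) (e b) t - t| ≤ D b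
  sub : ∀ b, (B b).K ⊆ Λ
  lf : ∀ z ∈ Λ, ∃ U ∈ 𝓝 z, {b | ((B b).K ∩ U).Nonempty}.Finite
  dis : ∀ b b', b ≠ b' → Disjoint (interior (B b).K) (B b').K

namespace BFam

variable {n : ℕ} {ι : Type*} {Λ : Set (Fin n → ℝ)} (F : BFam n ι Λ)

/-- the step -/
noncomputable def om (b : ι) : ℝ := stp (F.B b).N (F.B b).al (F.B b).be

theorem tgt (b : ι) : Tgt (F.B b).N (F.B b).al (F.B b).be (F.B b).al (F.om b) (F.e b) :=
  Tgt.full (F.B b).lvs.pos (F.he b) (F.heo b)

theorem D0 (b : ι) : 0 ≤ F.D b := (abs_nonneg _).trans (F.hD b 0)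

/-- one staircase -/
noncomputable def Sb (b : ι) : ConHomeo (univ : Set (Fin n → ℝ)) (univ : Set (Fin n → ℝ)) :=
  (F.B b).S (F.tgt b) (F.D0 b)

/-- the function of one variable -/
noncomputable def σ (b : ι) : ℝ → ℝ :=
  sm (F.B b).N (F.B b).a (F.B b).c (F.B b).al (F.B b).be (F.B b).al (F.om b) (F.e b)

/-- its inverse -/
noncomputable def σi (b : ι) : ℝ → ℝ :=
  smi (F.B b).N (F.B b).a (F.B b).c (F.B b).al (F.B b).be (F.B b).al (F.om b) (F.e b)

theorem σi_σ (b : ι) (t : ℝ) : F.σi b (F.σ b t) = t := smi_sm (F.B b).lvs (F.tgt b) t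

theorem σ_σi (b : ι) (t : ℝ) : F.σ b (F.σi b t) = t := sm_smi (F.B b).lvs (F.tgt b) t

theorem σ_strictMono (b : ι) : StrictMono (F.σ b) := sm_strictMono (F.B b).lvs (F.tgt b)

theorem σi_strictMono (b : ι) : StrictMono (F.σi b) := smi_strictMono (F.B b).lvs (F.tgt b)

theorem σ_out {b : ι} {t : ℝ} (ht : t ≤ (F.B b).al ∨ (F.B b).be ≤ t) : F.σ b t = t :=
  sm_out (F.B b).lvs ht

theorem σi_out {b : ι} {t : ℝ} (ht : t ≤ (F.B b).al ∨ (F.B b).be ≤ t) : F.σi b t = t :=
  smi_out (F.B b).lvs (F.tgt b) ht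

/-- the window is mapped to itself -/
theorem σ_win {b : ι} {t : ℝ} (ht : t ∈ Icc (F.B b).al (F.B b).be) :
    F.σ b t ∈ Icc (F.B b).al (F.B b).be := by
  have h1 := (F.σ_strictMono b).monotone ht.1
  have h2 := (F.σ_strictMono b).monotone ht.2
  rw [F.σ_out (Or.inl le_rfl)] at h1
  rw [F.σ_out (Or.inr le_rfl)] at h2
  exact ⟨h1, h2⟩

theorem σi_win {b : ι} {t : ℝ} (ht : t ∈ Icc (F.B b).al (F.B b).be) :
    F.σi b t ∈ Icc (F.B b).al (F.B b).be := by
  have h1 := (F.σi_strictMono b).monotone ht.1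
  have h2 := (F.σi_strictMono b).monotone ht.2
  rw [F.σi_out (Or.inl le_rfl)] at h1
  rw [F.σi_out (Or.inr le_rfl)] at h2
  exact ⟨h1, h2⟩

/-- **the staircase map of the family** -/
structure IsS (S : ConHomeo Λ Λ) : Prop where
  on : ∀ b, ∀ y ∈ (F.B b).K, S.toFun y = (F.Sb b).toFun y
  off : ∀ y, (∀ b, y ∉ (F.B b).K) → S.toFun y = y
  on' : ∀ b, ∀ y ∈ (F.B b).K, S.invFun y = (F.Sb b).invFun y
  off' : ∀ y, (∀ b, y ∉ (F.B b).K) → S.invFun y = y

theorem supp (b : ι) : Supp (F.Sb b).toFun (F.B b).K := (F.B b).suppS (F.tgt b) (F.D0 b)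

theorem supp' (b : ι) : Supp (F.Sb b).invFun (F.B b).K := (F.B b).suppS' (F.tgt b) (F.D0 b)

/-- a supported map fixes the boundary points of its support -/
theorem _root_.P073.H236.Supp.bdry {f : (Fin n → ℝ) → Fin n → ℝ} {K : Set (Fin n → ℝ)}
    (h : Supp f K) {x : Fin n → ℝ} (hx : x ∉ interior K) : f x = x := by
  have h1 : x ∈ closure Kᶜ := by rwa [closure_compl]
  have h2 : IsClosed {y | f y = y} := isClosed_eq h.cont continuous_id
  exact h2.closure_subset_iff.2 (fun y hy => h.id y hy) h1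

theorem exists_isS (hΛ : IsOpen Λ) : ∃ S, F.IsS S := by
  obtain ⟨S, h1, h2, h3, h4⟩ := exists_glue_homeo hΛ F.Sb (fun b => (F.B b).K) F.supp F.sub F.lf
    (fun b b' hbb x hx hx' => (F.supp b).bdry fun hi =>
      Set.disjoint_left.1 (F.dis b b' hbb) hi hx')
  exact ⟨S, h1, h2, h3, h4⟩

variable {F} {S : ConHomeo Λ Λ} {b : ι} {y : Fin n → ℝ}

/-- `Full` and in the window -/
def FullK (F : BFam n ι Λ) (b : ι) (y : Fin n → ℝ) : Prop :=
  ((F.B b).al ≤ y (F.B b).j ∧ y (F.B b).j ≤ (F.B b).be) ∧ (F.B b).Full y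

theorem FullK.mem (h : F.FullK b y) : y ∈ (F.B b).K := by
  refine ⟨h.1, fun i hi => ?_⟩
  obtain ⟨h1, h2⟩ := h.2 i hi
  have h3 := (F.B b).hr i
  constructor <;> linarith

theorem FullK.update (h : F.FullK b y) {t : ℝ} (ht : t ∈ Icc (F.B b).al (F.B b).be) :
    F.FullK b (Function.update y (F.B b).j t) := by
  refine ⟨by simpa using ht, fun i hi => ?_⟩
  rw [Function.update_of_ne hi]
  exact h.2 i hi

theorem IsS.full (hS : F.IsS S) (h : F.FullK b y) :
    S.toFun y = Function.update y (F.B b).j (F.σ b (y (F.B b).j)) := by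
  rw [hS.on b y h.mem]
  exact (F.B b).S_full (F.tgt b) (F.D0 b) (F.hD b) h.2

theorem IsS.full' (hS : F.IsS S) (h : F.FullK b y) :
    S.invFun y = Function.update y (F.B b).j (F.σi b (y (F.B b).j)) := by
  have h1 := h.update (F.σi_win h.1)
  have h2 := hS.full h1
  rw [Function.update_self, F.σ_σi, Function.update_idem, Function.update_eq_self] at h2
  have h3 := S.left_inv (F.sub b h1.mem)
  rwa [h2] at h3

/-- the full zone is invariant -/
theorem IsS.fullK_iff (hS : F.IsS S) (hy : y ∈ Λ) : F.FullK b (S.toFun y) ↔ F.FullK b y := by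
  constructor
  · intro h
    have h1 := hS.full' h
    rw [S.left_inv hy] at h1
    rw [h1]
    exact h.update (F.σi_win h.1)
  · intro h
    rw [hS.full h]
    exact h.update (F.σ_win h.1)

/-- displacement -/
theorem IsS.norm_sub_le (hS : F.IsS S) (hy : y ∈ (F.B b).K) : ‖S.toFun y - y‖ ≤ F.D b := by
  rw [hS.on b y hy]
  exact (F.B b).norm_S_sub_le (F.tgt b) (F.D0 b) y

/-- only the coordinate `j` of the box moves -/
theorem IsS.ne (hS : F.IsS S) (hy : y ∈ (F.B b).K) {i : Fin n} (hi : i ≠ (F.B b).j) :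
    S.toFun y i = y i := by
  rw [hS.on b y hy]
  exact (F.B b).S_ne (F.tgt b) (F.D0 b) hi y

theorem IsS.mem (hS : F.IsS S) (hy : y ∈ (F.B b).K) : S.toFun y ∈ (F.B b).K := by
  rw [hS.on b y hy]; exact (F.supp b).maps hy

theorem IsS.mem' (hS : F.IsS S) (hy : y ∈ (F.B b).K) : S.invFun y ∈ (F.B b).K := by
  rw [hS.on' b y hy]; exact (F.supp' b).maps hy

theorem IsS.mem_iff (hS : F.IsS S) (hy : y ∈ Λ) : S.toFun y ∈ (F.B b).K ↔ y ∈ (F.B b).K := by
  refine ⟨fun h => ?_, hS.mem⟩
  have := hS.mem' h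
  rwa [S.left_inv hy] at this

end BFam

end P073.H236
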