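import Vale.Agent.P073.H236.StairBox
import Vale.Agent.P073.H236.Fam
import Vale.Agent.P073.H579.HFaceM

/-!
# P073, H236: the data of a box in the form of H579 (`EdgeNum`, `bandD`, `prodK`)
-/

open Set Metric Topology Filter

namespace P073.H236

open P073 P073.H579

variable (B : BX 3)

/-- the map of one variable of the coordinate `j` -/
noncomputable def kQ (j : Fin 3) : ℝ → ℝ := if j = B.j then qm B.lvs.L B.c else id

/-- the levels of the coordinate `j` -/
noncomputable def LQ (j : Fin 3) : Finset ℝ := if j = B.j then B.lvs.L else ∅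

/-- lower end of the flat -/
noncomputable def loQ : Fin 3 → ℝ → ℝ := fun _ a => a - B.c

/-- upper end of the flat -/
noncomputable def hiQ : Fin 3 → ℝ → ℝ := fun _ a => a + B.c

/-- weight -/
noncomputable def omQ : Fin 3 → ℝ → ℝ := fun _ _ => stp B.N B.al B.be

theorem kQ_self : kQ B B.j = qm B.lvs.L B.c := if_pos rfl

theorem kQ_ne {j : Fin 3} (h : j ≠ B.j) : kQ B j = id := if_neg h

theorem LQ_self : LQ B B.j = B.lvs.L := if_pos rfl

theorem LQ_ne {j : Fin 3} (h : j ≠ B.j) : LQ B j = ∅ := if_neg h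

variable {B}

theorem mem_LQ {j : Fin 3} {t : ℝ} : t ∈ LQ B j ↔ j = B.j ∧ ∃ k < B.N, B.a k = t := by
  by_cases h : j = B.j
  · subst h
    rw [LQ_self, B.lvs.mem_L]
    simp
  · rw [LQ_ne B h]
    simp [h]

theorem stp_pos (B : BX 3) : 0 < stp B.N B.al B.be :=
  div_pos (sub_pos.2 B.al_lt_be) (by exact_mod_cast B.lvs.pos)

theorem omQ_pos (j : Fin 3) (t : ℝ) : 0 < omQ B j t := stp_pos B

theorem hiQ_sub_loQ (j : Fin 3) (t : ℝ) : hiQ B j t - loQ B j t = 2 * B.c := by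
  unfold hiQ loQ; ring

theorem ins1_id (lo hi : ℝ → ℝ) : Ins1 id (((∅ : Finset ℝ) : Set ℝ)) lo hi where
  mono := monotone_id
  cont := continuous_id
  con := conicalOn_id (IsOpen.conicalSet isOpen_univ)
  surj := Function.surjective_id
  bdd := ⟨0, fun t => by simp⟩
  lt := fun a ha => by simp at ha
  flat := fun a ha => by simp at ha
  inj := fun t t' h _ => h

theorem ins1_Q (B : BX 3) (j : Fin 3) : Ins1 (kQ B j) (LQ B j : Set ℝ) (loQ B j) (hiQ B j) := by
  by_cases h : j = B.j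
  · subst h
    rw [kQ_self, LQ_self]
    exact ins1_qm B.lvs.c0 B.lvs.sepd
  · rw [kQ_ne B h, LQ_ne B h]
    exact ins1_id _ _

theorem prodK_Q (y : Fin 3 → ℝ) :
    prodK (kQ B) y = Function.update y B.j (qm B.lvs.L B.c (y B.j)) := by
  ext j
  by_cases h : j = B.j
  · subst h
    rw [Function.update_self]
    show kQ B B.j _ = _
    rw [kQ_self]
  · rw [Function.update_of_ne h]
    show kQ B j _ = _
    rw [kQ_ne B h]; rfl

/-- in the full zone the insertion map is the product map -/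
theorem Q_eq_prodK {y : Fin 3 → ℝ} (hy : B.Full y) : B.Q y = prodK (kQ B) y := by
  rw [B.Q_full hy, prodK_Q]

theorem crsPt_Q {E : Type*} [NormedAddCommGroup E] [NormedSpace ℝ E] {a b : E}
    {h : E → Fin 3 → ℝ} {x : E} :
    CrsPt a b h (LQ B) x ↔ x ∈ segment ℝ a b ∧ ∃ k < B.N, B.a k = h x B.j := by
  unfold CrsPt
  constructor
  · rintro ⟨h1, j, hj⟩
    obtain ⟨rfl, h2⟩ := mem_LQ.1 hj
    exact ⟨h1, h2⟩
  · rintro ⟨h1, h2⟩
    exact ⟨h1, B.j, mem_LQ.2 ⟨rfl, h2⟩⟩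

theorem omX_Q {E : Type*} [NormedAddCommGroup E] [NormedSpace ℝ E] {h : E → Fin 3 → ℝ} {x : E} {k : ℕ} (hk : k < B.N)
    (hx : h x B.j = B.a k) : omX h (LQ B) (omQ B) x = stp B.N B.al B.be := by
  rw [omX_eq (j := B.j) (mem_LQ.2 ⟨rfl, k, hk, hx.symm⟩) fun j' hj' h1 => hj' (mem_LQ.1 h1).1]
  rfl

theorem omX_Q_of_crs {E : Type*} [NormedAddCommGroup E] [NormedSpace ℝ E] {a b : E}
    {h : E → Fin 3 → ℝ} {x : E} (hx : CrsPt a b h (LQ B) x) :
    omX h (LQ B) (omQ B) x = stp B.N B.al B.be := by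
  obtain ⟨-, k, hk, h1⟩ := crsPt_Q.1 hx
  exact omX_Q hk h1.symm

/-- the distance of H579 for the box -/
theorem bandD_Q (y y' : Fin 3 → ℝ) : bandD (LQ B) (loQ B) (hiQ B) (omQ B) y y' =
    stp B.N B.al B.be / (2 * B.c) *
      ∑ k ∈ Finset.range B.N, |fl B.c (B.a k) (y B.j) - fl B.c (B.a k) (y' B.j)| := by
  unfold bandD
  rw [Finset.sum_eq_single B.j]
  · rw [LQ_self, B.lvs.sum_L, Finset.mul_sum]
    refine Finset.sum_congr rfl fun k _ => ?_
    rw [hiQ_sub_loQ]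
    rfl
  · intro j _ hj
    rw [LQ_ne B hj, Finset.sum_empty]
  · intro h; exact absurd (Finset.mem_univ _) h

/-- thinner boxes have the same levels and weights -/
theorem mem_LQ_thin (B' : BX 3) (hj : B'.j = B.j)
    (hN : B'.N = B.N) (ha : B'.a = B.a) (j : Fin 3) (t : ℝ) : t ∈ LQ B' j ↔ t ∈ LQ B j := by
  rw [mem_LQ, mem_LQ, hj, hN, ha]

end P073.H236
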