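import Vale.Agent.P073.H236.Fam

/-!
# P073, H236: locally finite families of box maps, general one-variable homeomorphisms

`L1 al be k k'`: `k` is a conical homeomorphism of the line, inverse `k'`, identity off `(al, be)`.
`HX`: box and direction. `HFam`, `IsH`: the glued conical homeomorphism of `Λ`.
-/

open Set Metric Topology Filter

namespace P073.H236

open P073

/-- one-variable homeomorphisms, identity off `(al, be)` -/
structure L1 (al be : ℝ) (k k' : ℝ → ℝ) : Prop where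
  kc : Continuous k
  kk : ConicalOn k univ
  km : StrictMono k
  kc' : Continuous k'
  kk' : ConicalOn k' univ
  km' : StrictMono k'
  left : ∀ t, k' (k t) = t
  right : ∀ t, k (k' t) = t
  out : ∀ t, t ≤ al ∨ be ≤ t → k t = t

namespace L1

variable {al be : ℝ} {k k' : ℝ → ℝ}

theorem out' (h : L1 al be k k') {t : ℝ} (ht : t ≤ al ∨ be ≤ t) : k' t = t := by
  have := h.left t
  rwa [h.out t ht] at this

theorem symm (h : L1 al be k k') : L1 al be k' k :=
  ⟨h.kc', h.kk', h.km', h.kc, h.kk, h.km, h.right, h.left, fun _ ht => h.out' ht⟩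

theorem win (h : L1 al be k k') {t : ℝ} (ht : t ∈ Icc al be) : k t ∈ Icc al be := by
  have h1 := h.km.monotone ht.1
  have h2 := h.km.monotone ht.2
  rw [h.out _ (Or.inl le_rfl)] at h1
  rw [h.out _ (Or.inr le_rfl)] at h2
  exact ⟨h1, h2⟩

theorem win_iff (h : L1 al be k k') {t : ℝ} : k t ∈ Icc al be ↔ t ∈ Icc al be := by
  refine ⟨fun ht => ?_, h.win⟩
  have := h.symm.win ht
  rwa [h.left] at this

theorem refl (al be : ℝ) : L1 al be (fun t => t) fun t => t :=
  ⟨continuous_id, conicalOn_id isOpen_univ.conicalSet, strictMono_id, continuous_id,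
    conicalOn_id isOpen_univ.conicalSet, strictMono_id, fun _ => rfl, fun _ => rfl, fun _ _ => rfl⟩

theorem trans {k₁ k₁' : ℝ → ℝ} (h : L1 al be k k') (h1 : L1 al be k₁ k₁') :
    L1 al be (k₁ ∘ k) (k' ∘ k₁') where
  kc := h1.kc.comp h.kc
  kk := h1.kk.comp h.kk (mapsTo_univ _ _) h.kc.continuousOn
  km := h1.km.comp h.km
  kc' := h.kc'.comp h1.kc'
  kk' := h.kk'.comp h1.kk' (mapsTo_univ _ _) h1.kc'.continuousOn
  km' := h.km'.comp h1.km'
  left := fun t => by
    show k' (k₁' (k₁ (k t))) = t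
    rw [h1.left, h.left]
  right := fun t => by
    show k₁ (k (k' (k₁' t))) = t
    rw [h.right, h1.right]
  out := fun t ht => by
    show k₁ (k t) = t
    rw [h.out t ht, h1.out t ht]

theorem displ (h : L1 al be k k') (t : ℝ) (hab : al ≤ be) : |k t - t| ≤ be - al := by
  rcases le_total t al with h1 | h1
  · rw [h.out t (Or.inl h1), sub_self, abs_zero]; linarith
  · rcases le_total be t with h2 | h2
    · rw [h.out t (Or.inr h2), sub_self, abs_zero]; linarith
    · have := h.win ⟨h1, h2⟩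
      rw [abs_le]
      constructor <;> linarith [this.1, this.2]

/-- every staircase -/
theorem of_stair {N : ℕ} {lo hi T T' : ℕ → ℝ} (h : Arr N al be lo hi) (h' : Arr N al be T T') :
    L1 al be (stair N al be lo hi T T') (stair N al be T T' lo hi) where
  kc := stair_continuous
  kk := stair_conicalOn
  km := stair_strictMono h h'
  kc' := stair_continuous
  kk' := stair_conicalOn
  km' := stair_strictMono h' h
  left := stair_stair h h'
  right := stair_stair h' h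
  out := fun t ht => by
    rcases ht with h1 | h1
    · exact stair_of_le h h1
    · exact stair_of_ge h h1

theorem of_sm {N : ℕ} {a : ℕ → ℝ} {c t₀ om e : ℝ} (h : Lvs N a c al be)
    (h' : Tgt N al be t₀ om e) : L1 al be (sm N a c al be t₀ om e) (smi N a c al be t₀ om e) :=
  ⟨sm_continuous, sm_conicalOn, sm_strictMono h h', smi_continuous, smi_conicalOn,
    smi_strictMono h h', smi_sm h h', sm_smi h h', fun _ ht => sm_out h ht⟩

end L1

/-- a box, a direction, a one-variable homeomorphism -/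
structure HX (n : ℕ) where
  j : Fin n
  al : ℝ
  be : ℝ
  k : ℝ → ℝ
  k' : ℝ → ℝ
  l1 : L1 al be k k'
  hab : al ≤ be
  lo : Fin n → ℝ
  hi : Fin n → ℝ
  r : Fin n → ℝ
  hr : ∀ i, 0 < r i
  D : ℝ
  hD : ∀ t, |k t - t| ≤ D

namespace HX

variable {n : ℕ} (B : HX n)

/-- the support -/
def K : Set (Fin n → ℝ) := kbox B.j B.al B.be B.lo B.hi B.r

/-- the full zone -/
def Full (y : Fin n → ℝ) : Prop :=
  (B.al ≤ y B.j ∧ y B.j ≤ B.be) ∧ ∀ i, i ≠ B.j → B.lo i ≤ y i ∧ y i ≤ B.hi i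

theorem isCompact_K : IsCompact B.K := isCompact_kbox _ _ _ _ _ _

theorem D0 : 0 ≤ B.D := (abs_nonneg _).trans (B.hD 0)

theorem Full.mem {B : HX n} {y : Fin n → ℝ} (h : B.Full y) : y ∈ B.K := by
  refine ⟨h.1, fun i hi => ?_⟩
  obtain ⟨h1, h2⟩ := h.2 i hi
  have h3 := B.hr i
  constructor <;> linarith

theorem Full.update {B : HX n} {y : Fin n → ℝ} (h : B.Full y) {t : ℝ} (ht : t ∈ Icc B.al B.be) :
    B.Full (Function.update y B.j t) := by
  refine ⟨by simpa using ht, fun i hi => ?_⟩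
  rw [Function.update_of_ne hi]
  exact h.2 i hi

/-- the bump of the box -/
noncomputable def m : (Fin n → ℝ) → ℝ := bmp B.j B.lo B.hi B.r B.D

theorem vd : VD B.j B.k B.m := vd_bmp B.D0 B.l1.kc B.l1.kk B.l1.km.monotone

theorem vd' : VD B.j B.k' B.m := vd_bmp B.D0 B.l1.kc' B.l1.kk' B.l1.km'.monotone

/-- the box map -/
noncomputable def H : ConHomeo (univ : Set (Fin n → ℝ)) (univ : Set (Fin n → ℝ)) :=
  B.vd.homeo B.vd' B.l1.km B.l1.km' B.l1.left B.l1.right isOpen_univ (fun _ _ _ _ => mem_univ _)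

theorem H_toFun : B.H.toFun = vc B.j B.k B.m := rfl

theorem H_invFun : B.H.invFun = vc B.j B.k' B.m := rfl

theorem supp : Supp B.H.toFun B.K :=
  supp_vc B.D0 B.hr B.l1.kc B.l1.kk B.l1.km.monotone B.l1.out B.hab

theorem supp' : Supp B.H.invFun B.K :=
  supp_vc B.D0 B.hr B.l1.kc' B.l1.kk' B.l1.km'.monotone (fun _ ht => B.l1.out' ht) B.hab

theorem full {y : Fin n → ℝ} (hy : ∀ i, i ≠ B.j → B.lo i ≤ y i ∧ y i ≤ B.hi i) :
    B.H.toFun y = Function.update y B.j (B.k (y B.j)) := by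
  refine VD.eq_full ?_
  show _ ≤ bmp B.j B.lo B.hi B.r B.D y
  rw [bmp_full B.hr hy]
  exact B.hD _

theorem ne {i : Fin n} (hi : i ≠ B.j) (y : Fin n → ℝ) : B.H.toFun y i = y i := vc_ne hi y

theorem norm_sub_le (y : Fin n → ℝ) : ‖B.H.toFun y - y‖ ≤ B.D :=
  (B.vd.norm_sub_le y).trans (bmp_le B.D0 y)

/-- Lipschitz bound everywhere, the fade-out costs `D / ρ` -/
theorem abs_sub_le {A : ℝ} (hA : 1 ≤ A) (hs : ∀ s t, |B.k s - B.k t| ≤ A * |s - t|) {ρ d : ℝ}
    (hρ : 0 < ρ) (hr : ∀ i, ρ ≤ B.r i) {y y' : Fin n → ℝ}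
    (hd : ∀ i, i ≠ B.j → |y i - y' i| ≤ d) (hd0 : 0 ≤ d) :
    |B.H.toFun y B.j - B.H.toFun y' B.j| ≤ A * |y B.j - y' B.j| + B.D * (d / ρ) := by
  refine (VD.abs_vc_sub_vc_le hA (hs _ _)).trans ?_
  exact add_le_add_right (abs_bmp_sub_le B.D0 hρ hr hd hd0) _

end HX

/-- a box of a `BFam` -/
noncomputable def BFam.hx {n : ℕ} {ι : Type*} {Λ : Set (Fin n → ℝ)} (F : BFam n ι Λ) (b : ι) :
    HX n where
  j := (F.B b).j
  al := (F.B b).al
  be := (F.B b).be
  k := F.σ b
  k' := F.σi b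
  l1 := L1.of_sm (F.B b).lvs (F.tgt b)
  hab := (F.B b).al_lt_be.le
  lo := (F.B b).lo
  hi := (F.B b).hi
  r := (F.B b).r
  hr := (F.B b).hr
  D := F.D b
  hD := F.hD b

/-- a locally finite family in `Λ`, disjoint interiors of the supports -/
structure HFam (n : ℕ) (ι : Type*) (Λ : Set (Fin n → ℝ)) where
  X : ι → HX n
  sub : ∀ b, (X b).K ⊆ Λ
  lf : ∀ z ∈ Λ, ∃ U ∈ 𝓝 z, {b | ((X b).K ∩ U).Nonempty}.Finite
  dis : ∀ b b', b ≠ b' → Disjoint (interior (X b).K) (X b').K

/-- the family of a `BFam` -/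
noncomputable def BFam.hfam {n : ℕ} {ι : Type*} {Λ : Set (Fin n → ℝ)} (F : BFam n ι Λ) :
    HFam n ι Λ where
  X := F.hx
  sub := F.sub
  lf := F.lf
  dis := F.dis

namespace HFam

variable {n : ℕ} {ι : Type*} {Λ : Set (Fin n → ℝ)} (F : HFam n ι Λ)

/-- **the glued homeomorphism** -/
structure IsH (S : ConHomeo Λ Λ) : Prop where
  on : ∀ b, ∀ y ∈ (F.X b).K, S.toFun y = (F.X b).H.toFun y
  off : ∀ y, (∀ b, y ∉ (F.X b).K) → S.toFun y = y
  on' : ∀ b, ∀ y ∈ (F.X b).K, S.invFun y = (F.X b).H.invFun y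
  off' : ∀ y, (∀ b, y ∉ (F.X b).K) → S.invFun y = y

theorem exists_isH (hΛ : IsOpen Λ) : ∃ S, F.IsH S := by
  obtain ⟨S, h1, h2, h3, h4⟩ := exists_glue_homeo hΛ (fun b => (F.X b).H) (fun b => (F.X b).K)
    (fun b => (F.X b).supp) F.sub F.lf
    (fun b b' hbb x hx hx' => (F.X b).supp.bdry fun hi =>
      Set.disjoint_left.1 (F.dis b b' hbb) hi hx')
  exact ⟨S, h1, h2, h3, h4⟩

variable {F} {S : ConHomeo Λ Λ} {b : ι} {y y' : Fin n → ℝ}

theorem _root_.P073.H236.BFam.isH {F : BFam n ι Λ} (hS : F.IsS S) : F.hfam.IsH S :=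
  ⟨hS.on, hS.off, hS.on', hS.off'⟩

theorem IsH.full (hS : F.IsH S) (h : (F.X b).Full y) :
    S.toFun y = Function.update y (F.X b).j ((F.X b).k (y (F.X b).j)) := by
  rw [hS.on b y h.mem]
  exact (F.X b).full h.2

theorem IsH.full' (hS : F.IsH S) (h : (F.X b).Full y) :
    S.invFun y = Function.update y (F.X b).j ((F.X b).k' (y (F.X b).j)) := by
  have h1 := h.update ((F.X b).l1.symm.win h.1)
  have h2 := hS.full h1
  rw [Function.update_self, (F.X b).l1.right, Function.update_idem, Function.update_eq_self] at h2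
  have h3 := S.left_inv (F.sub b h1.mem)
  rwa [h2] at h3

theorem IsH.full_iff (hS : F.IsH S) (hy : y ∈ Λ) : (F.X b).Full (S.toFun y) ↔ (F.X b).Full y := by
  constructor
  · intro h
    have h1 := hS.full' h
    rw [S.left_inv hy] at h1
    rw [h1]
    exact h.update ((F.X b).l1.symm.win h.1)
  · intro h
    rw [hS.full h]
    exact h.update ((F.X b).l1.win h.1)

theorem IsH.norm_sub_le (hS : F.IsH S) (hy : y ∈ (F.X b).K) : ‖S.toFun y - y‖ ≤ (F.X b).D := by
  rw [hS.on b y hy]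
  exact (F.X b).norm_sub_le y

theorem IsH.ne (hS : F.IsH S) (hy : y ∈ (F.X b).K) {i : Fin n} (hi : i ≠ (F.X b).j) :
    S.toFun y i = y i := by
  rw [hS.on b y hy]
  exact (F.X b).ne hi y

theorem IsH.mem (hS : F.IsH S) (hy : y ∈ (F.X b).K) : S.toFun y ∈ (F.X b).K := by
  rw [hS.on b y hy]; exact (F.X b).supp.maps hy

theorem IsH.mem' (hS : F.IsH S) (hy : y ∈ (F.X b).K) : S.invFun y ∈ (F.X b).K := by
  rw [hS.on' b y hy]; exact (F.X b).supp'.maps hy

theorem IsH.mem_iff (hS : F.IsH S) (hy : y ∈ Λ) : S.toFun y ∈ (F.X b).K ↔ y ∈ (F.X b).K := by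
  refine ⟨fun h => ?_, hS.mem⟩
  have := hS.mem' h
  rwa [S.left_inv hy] at this

/-- at every point of `Λ` the map is, near this point, one of the box maps or a map which agrees
with the identity: pointwise form -/
theorem IsH.cases (hS : F.IsH S) (y : Fin n → ℝ) :
    (∃ b, y ∈ (F.X b).K ∧ S.toFun y = (F.X b).H.toFun y) ∨
      ((∀ b, y ∉ (F.X b).K) ∧ S.toFun y = y) := by
  by_cases h : ∃ b, y ∈ (F.X b).K
  · obtain ⟨b, hb⟩ := h
    exact Or.inl ⟨b, hb, hS.on b y hb⟩
  · push Not at h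
    exact Or.inr ⟨h, hS.off y h⟩

/-- **Lipschitz bound along segments in `Λ`**: coordinate `i` -/
theorem IsH.local_eq (hS : F.IsH S) (hy : y ∈ interior (F.X b).K) :
    S.toFun =ᶠ[𝓝 y] (F.X b).H.toFun := by
  filter_upwards [isOpen_interior.mem_nhds hy] with z hz
  exact hS.on b z (interior_subset hz)

end HFam

end P073.H236
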