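import Vale.Agent.P073.H236.Clip
import Vale.Agent.P073.Net.GlueFam

/-!
# P073, H236, STAIR (B): bump functions of boxes, supports, locally finite families of maps
-/

open Set Metric Topology Filter

namespace P073.H236

open P073

variable {n : ℕ}

/-- finite infima of conical functions are conical -/
theorem conicalOn_finf {E : Type*} [NormedAddCommGroup E] [NormedSpace ℝ E] {ι : Type*}
    {s : Finset ι} (hs : s.Nonempty) {f : ι → E → ℝ} {X : Set E}
    (h : ∀ i ∈ s, ConicalOn (f i) X ∧ ContinuousOn (f i) X) :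
    ConicalOn (fun y => s.inf' hs fun i => f i y) X ∧
      ContinuousOn (fun y => s.inf' hs fun i => f i y) X := by
  classical
  induction hs using Finset.Nonempty.cons_induction with
  | singleton a => simpa using h a (Finset.mem_singleton_self a)
  | cons a s ha hs ih =>
    have h1 := h a (Finset.mem_cons_self a s)
    have h2 := ih fun i hi => h i (Finset.mem_cons_of_mem hi)
    simp only [Finset.inf'_cons hs]
    exact ⟨h1.1.rmin h2.1 h1.2 h2.2, ContinuousOn.inf h1.2 h2.2⟩

/-- one side of the bump -/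
noncomputable def gi (j : Fin n) (lo hi r : Fin n → ℝ) (i : Fin n) (y : Fin n → ℝ) : ℝ :=
  if i = j then 1 else min 1 (min (1 + (y i - lo i) / r i) (1 + (hi i - y i) / r i))

/-- the bump function: `C` on the box in the coordinates `≠ j`, `0` off its `r`-neighbourhood -/
noncomputable def bmp (j : Fin n) (lo hi r : Fin n → ℝ) (C : ℝ) (y : Fin n → ℝ) : ℝ :=
  C * max 0 (Finset.univ.inf' ⟨j, Finset.mem_univ j⟩ fun i => gi j lo hi r i y)

section
variable {j : Fin n} {lo hi r : Fin n → ℝ} {C : ℝ}

theorem gi_le_one (i : Fin n) (y : Fin n → ℝ) : gi j lo hi r i y ≤ 1 := by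
  unfold gi; split_ifs
  · exact le_rfl
  · exact min_le_left _ _

theorem gi_con (i : Fin n) : ConicalOn (gi j lo hi r i) univ ∧ ContinuousOn (gi j lo hi r i) univ := by
  have hu : ConicalSet (univ : Set (Fin n → ℝ)) := isOpen_univ.conicalSet
  unfold gi
  split_ifs with h
  · exact ⟨conicalOn_const 1 hu, by fun_prop⟩
  · have hi' : ConicalOn (fun y : Fin n → ℝ => y i) univ :=
      conicalOn_linear (LinearMap.proj i : (Fin n → ℝ) →ₗ[ℝ] ℝ) hu
    have h1 : ConicalOn (fun y : Fin n → ℝ => 1 + (y i - lo i) / r i) univ := by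
      have := (conicalOn_const (1:ℝ) hu).add ((hi'.sub (conicalOn_const (lo i) hu)).const_smul (r i)⁻¹)
      refine this.congr fun y _ => ?_
      simp only [smul_eq_mul]; ring
    have h2 : ConicalOn (fun y : Fin n → ℝ => 1 + (hi i - y i) / r i) univ := by
      have := (conicalOn_const (1:ℝ) hu).add (((conicalOn_const (hi i) hu).sub hi').const_smul (r i)⁻¹)
      refine this.congr fun y _ => ?_
      simp only [smul_eq_mul]; ring
    have c1 : ContinuousOn (fun y : Fin n → ℝ => 1 + (y i - lo i) / r i) univ := by fun_prop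
    have c2 : ContinuousOn (fun y : Fin n → ℝ => 1 + (hi i - y i) / r i) univ := by fun_prop
    have c3 : ContinuousOn (fun y : Fin n → ℝ =>
        min (1 + (y i - lo i) / r i) (1 + (hi i - y i) / r i)) univ := by fun_prop
    exact ⟨(conicalOn_const (1:ℝ) hu).rmin (h1.rmin h2 c1 c2) (by fun_prop) c3, by fun_prop⟩

theorem bmp_con : ConicalOn (bmp j lo hi r C) univ ∧ ContinuousOn (bmp j lo hi r C) univ := by
  have hu : ConicalSet (univ : Set (Fin n → ℝ)) := isOpen_univ.conicalSet
  have h1 := conicalOn_finf (X := (univ : Set (Fin n → ℝ)))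
    (⟨j, Finset.mem_univ j⟩ : (Finset.univ : Finset (Fin n)).Nonempty)
    (f := fun i => gi j lo hi r i) fun i _ => gi_con i
  have h0 : ContinuousOn (fun _ : Fin n → ℝ => (0:ℝ)) univ := by fun_prop
  constructor
  · exact ((conicalOn_const (0:ℝ) hu).rmax h1.1 h0 h1.2).const_smul C
  · exact (ContinuousOn.sup h0 h1.2).const_mul C

theorem bmp_nonneg (hC : 0 ≤ C) (y : Fin n → ℝ) : 0 ≤ bmp j lo hi r C y :=
  mul_nonneg hC (le_max_left _ _)

theorem bmp_le (hC : 0 ≤ C) (y : Fin n → ℝ) : bmp j lo hi r C y ≤ C := by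
  unfold bmp
  have h1 : max 0 (Finset.univ.inf' ⟨j, Finset.mem_univ j⟩ fun i => gi j lo hi r i y) ≤ 1 :=
    max_le zero_le_one ((Finset.inf'_le _ (Finset.mem_univ j)).trans (gi_le_one j y))
  nlinarith

theorem bmp_update (y : Fin n → ℝ) (t : ℝ) :
    bmp j lo hi r C (Function.update y j t) = bmp j lo hi r C y := by
  unfold bmp
  congr 2
  refine Finset.inf'_congr _ rfl fun i _ => ?_
  unfold gi
  split_ifs with h
  · rfl
  · rw [Function.update_of_ne h]

/-- full on the box -/
theorem bmp_full (hr : ∀ i, 0 < r i) {y : Fin n → ℝ} (hy : ∀ i, i ≠ j → lo i ≤ y i ∧ y i ≤ hi i) :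
    bmp j lo hi r C y = C := by
  unfold bmp
  have h1 : Finset.univ.inf' ⟨j, Finset.mem_univ j⟩ (fun i => gi j lo hi r i y) = 1 := by
    apply le_antisymm ((Finset.inf'_le _ (Finset.mem_univ j)).trans (gi_le_one j y))
    refine Finset.le_inf' _ _ fun i _ => ?_
    unfold gi
    split_ifs with h
    · exact le_rfl
    · obtain ⟨a, b⟩ := hy i h
      have h3 : 0 ≤ (y i - lo i) / r i := div_nonneg (by linarith) (hr i).le
      have h4 : 0 ≤ (hi i - y i) / r i := div_nonneg (by linarith) (hr i).le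
      exact le_min le_rfl (le_min (by linarith) (by linarith))
  rw [h1, max_eq_right zero_le_one, mul_one]

/-- zero off the neighbourhood -/
theorem bmp_zero (hr : ∀ i, 0 < r i) {y : Fin n → ℝ} {i : Fin n} (hij : i ≠ j)
    (hy : y i ≤ lo i - r i ∨ hi i + r i ≤ y i) : bmp j lo hi r C y = 0 := by
  unfold bmp
  have h1 : Finset.univ.inf' ⟨j, Finset.mem_univ j⟩ (fun i => gi j lo hi r i y) ≤ 0 := by
    refine (Finset.inf'_le _ (Finset.mem_univ i)).trans ?_
    unfold gi
    rw [if_neg hij]
    refine min_le_of_right_le ?_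
    have hri := hr i
    rcases hy with h | h
    · refine min_le_of_left_le ?_
      have : (y i - lo i) / r i ≤ -1 := by rw [div_le_iff₀ hri]; linarith
      linarith
    · refine min_le_of_right_le ?_
      have : (hi i - y i) / r i ≤ -1 := by rw [div_le_iff₀ hri]; linarith
      linarith
  rw [max_eq_left h1, mul_zero]

/-- Lipschitz estimate -/
theorem abs_bmp_sub_le (hC : 0 ≤ C) {d δ : ℝ} (hδ : 0 < δ) (hr : ∀ i, δ ≤ r i)
    {y y' : Fin n → ℝ} (hd : ∀ i, i ≠ j → |y i - y' i| ≤ d) (hd0 : 0 ≤ d) :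
    |bmp j lo hi r C y - bmp j lo hi r C y'| ≤ C * (d / δ) := by
  have key : ∀ y y' : Fin n → ℝ, (∀ i, i ≠ j → |y i - y' i| ≤ d) →
      bmp j lo hi r C y ≤ bmp j lo hi r C y' + C * (d / δ) := by
    intro y y' hd
    unfold bmp
    rw [← mul_add]
    apply mul_le_mul_of_nonneg_left _ hC
    have hdδ : 0 ≤ d / δ := by positivity
    refine max_le (add_nonneg (le_max_left _ _) hdδ) ?_
    refine le_trans ?_ (add_le_add_left (le_max_right _ _) _)
    rw [← sub_le_iff_le_add]
    refine Finset.le_inf' _ _ fun i _ => ?_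
    rw [sub_le_iff_le_add]
    refine (Finset.inf'_le _ (Finset.mem_univ i)).trans ?_
    unfold gi
    split_ifs with h
    · linarith
    · have hri : 0 < r i := hδ.trans_le (hr i)
      obtain ⟨a1, a2⟩ := abs_le.1 (hd i h)
      have e1 : (y i - lo i) / r i ≤ (y' i - lo i) / r i + d / δ := by
        have : (y i - lo i) / r i = (y' i - lo i) / r i + (y i - y' i) / r i := by ring
        rw [this]
        have : (y i - y' i) / r i ≤ d / δ := by
          calc (y i - y' i) / r i ≤ d / r i := by gcongr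
            _ ≤ d / δ := by gcongr; exact hr i
        linarith
      have e2 : (hi i - y i) / r i ≤ (hi i - y' i) / r i + d / δ := by
        have : (hi i - y i) / r i = (hi i - y' i) / r i + (y' i - y i) / r i := by ring
        rw [this]
        have : (y' i - y i) / r i ≤ d / δ := by
          calc (y' i - y i) / r i ≤ d / r i := by gcongr; linarith
            _ ≤ d / δ := by gcongr; exact hr i
        linarith
      rw [← min_add_add_right, ← min_add_add_right]
      exact min_le_min (by linarith) (min_le_min (by linarith) (by linarith))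
  have h1 := key y y' hd
  have h2 := key y' y fun i hi => by rw [abs_sub_comm]; exact hd i hi
  rw [abs_le]
  constructor <;> linarith

/-- **a box gives the data of a vertical clip map** -/
theorem vd_bmp {k : ℝ → ℝ} (hC : 0 ≤ C) (kc : Continuous k) (kk : ConicalOn k univ)
    (km : Monotone k) : VD j k (bmp j lo hi r C) where
  kc := kc
  kk := kk
  km := km
  mc := continuousOn_univ.1 bmp_con.2
  mcon := bmp_con.1
  m0 := bmp_nonneg hC
  mj := bmp_update

end

/-- `f` is supported in `K`, and maps `K` onto itself -/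
structure Supp (f : (Fin n → ℝ) → Fin n → ℝ) (K : Set (Fin n → ℝ)) : Prop where
  cont : Continuous f
  con : ConicalOn f univ
  id : ∀ x, x ∉ K → f x = x
  maps : MapsTo f K K
  surj : SurjOn f K K

/-- the support of a clip map: the product box -/
def kbox (j : Fin n) (al be : ℝ) (lo hi r : Fin n → ℝ) : Set (Fin n → ℝ) :=
  {y | (al ≤ y j ∧ y j ≤ be) ∧ ∀ i, i ≠ j → lo i - r i ≤ y i ∧ y i ≤ hi i + r i}

theorem kbox_eq (j : Fin n) (al be : ℝ) (lo hi r : Fin n → ℝ) : kbox j al be lo hi r =
    Icc (Function.update (fun i => lo i - r i) j al) (Function.update (fun i => hi i + r i) j be) := by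
  ext y
  simp only [kbox, mem_ofPred_eq, mem_Icc, Pi.le_def]
  constructor
  · rintro ⟨⟨h1, h2⟩, h3⟩
    constructor
    · intro i
      by_cases hi' : i = j
      · subst hi'; simpa using h1
      · rw [Function.update_of_ne hi']; exact (h3 i hi').1
    · intro i
      by_cases hi' : i = j
      · subst hi'; simpa using h2
      · rw [Function.update_of_ne hi']; exact (h3 i hi').2
  · rintro ⟨h1, h2⟩
    refine ⟨⟨by simpa using h1 j, by simpa using h2 j⟩, fun i hi' => ⟨?_, ?_⟩⟩
    · have := h1 i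
      rwa [Function.update_of_ne hi'] at this
    · have := h2 i
      rwa [Function.update_of_ne hi'] at this

theorem isCompact_kbox (j : Fin n) (al be : ℝ) (lo hi r : Fin n → ℝ) :
    IsCompact (kbox j al be lo hi r) := by
  rw [kbox_eq]; exact isCompact_Icc

/-- **the support of a clip map** -/
theorem supp_vc {j : Fin n} {lo hi r : Fin n → ℝ} {C : ℝ} {k : ℝ → ℝ} {al be : ℝ} (hC : 0 ≤ C)
    (hr : ∀ i, 0 < r i) (kc : Continuous k) (kk : ConicalOn k univ) (km : Monotone k)
    (hout : ∀ t, t ≤ al ∨ be ≤ t → k t = t) (hab : al ≤ be) :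
    Supp (vc j k (bmp j lo hi r C)) (kbox j al be lo hi r) := by
  have hV : VD j k (bmp j lo hi r C) := vd_bmp hC kc kk km
  have hid : ∀ x, x ∉ kbox j al be lo hi r → vc j k (bmp j lo hi r C) x = x := by
    intro x hx
    apply hV.eq_self
    simp only [kbox, mem_ofPred_eq, not_and_or, not_le, not_forall] at hx
    rcases hx with (h1 | h1) | ⟨i, hi', h1⟩
    · exact Or.inr (hout _ (Or.inl h1.le))
    · exact Or.inr (hout _ (Or.inr h1.le))
    · left
      refine bmp_zero hr hi' ?_
      rcases h1 with h1 | h1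
      · exact Or.inl h1.le
      · exact Or.inr h1.le
  have hkal : k al = al := hout _ (Or.inl le_rfl)
  have hkbe : k be = be := hout _ (Or.inr le_rfl)
  have hcl : ∀ m t, 0 ≤ m → al ≤ t → t ≤ be → al ≤ cl k m t ∧ cl k m t ≤ be := by
    intro m t hm h1 h2
    have e1 := cl_mono km m h1
    have e2 := cl_mono km m h2
    rw [cl_fix hm hkal] at e1
    rw [cl_fix hm hkbe] at e2
    exact ⟨e1, e2⟩
  refine ⟨hV.continuous, hV.conicalOn, hid, ?_, ?_⟩
  · rintro x ⟨⟨h1, h2⟩, h3⟩
    refine ⟨?_, fun i hi' => by rw [vc_ne hi']; exact h3 i hi'⟩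
    rw [vc_same]
    exact hcl _ _ (hV.m0 x) h1 h2
  · rintro x ⟨⟨h1, h2⟩, h3⟩
    obtain ⟨t, -, ht⟩ := hV.exists_eq x
    have ht2 : cl k (bmp j lo hi r C x) t = x j := by
      have := congrFun ht j
      rwa [vc_same, hV.mj, Function.update_self] at this
    -- move `t` into `[al, be]`
    refine ⟨Function.update x j (max al (min be t)), ⟨?_, fun i hi' => ?_⟩, ?_⟩
    · rw [Function.update_self]
      exact ⟨le_max_left _ _, max_le hab (min_le_left _ _)⟩
    · rw [Function.update_of_ne hi']; exact h3 i hi'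
    · ext i
      by_cases hi' : i = j
      · subst hi'
        rw [vc_same, hV.mj, Function.update_self]
        have e1 : cl k (bmp i lo hi r C x) al = al := cl_fix (hV.m0 x) hkal
        have e2 : cl k (bmp i lo hi r C x) be = be := cl_fix (hV.m0 x) hkbe
        rcases le_total t al with h4 | h4
        · rw [min_eq_right (h4.trans hab), max_eq_left h4, e1]
          have := cl_mono km (bmp i lo hi r C x) h4
          rw [ht2, e1] at this
          linarith
        · rcases le_total t be with h5 | h5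
          · rw [min_eq_right h5, max_eq_right h4, ht2]
          · rw [min_eq_left h5, max_eq_right hab, e2]
            have := cl_mono km (bmp i lo hi r C x) h5
            rw [ht2, e2] at this
            linarith
      · rw [vc_ne hi', Function.update_of_ne hi']

theorem Supp.comp {f g : (Fin n → ℝ) → Fin n → ℝ} {A B : Set (Fin n → ℝ)} (hf : Supp f A)
    (hg : Supp g B) : Supp (f ∘ g) (A ∪ B) where
  cont := hf.cont.comp hg.cont
  con := hf.con.comp hg.con (mapsTo_univ _ _) hg.cont.continuousOn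
  id := fun x hx => by
    rw [mem_union, not_or] at hx
    show f (g x) = x
    rw [hg.id x hx.2, hf.id x hx.1]
  maps := by
    have h1 : MapsTo g (A ∪ B) (A ∪ B) := by
      intro x hx
      by_cases hB : x ∈ B
      · exact Or.inr (hg.maps hB)
      · rw [hg.id x hB]; exact hx
    have h2 : MapsTo f (A ∪ B) (A ∪ B) := by
      intro x hx
      by_cases hA : x ∈ A
      · exact Or.inl (hf.maps hA)
      · rw [hf.id x hA]; exact hx
    exact h2.comp h1
  surj := by
    have h1 : SurjOn g (A ∪ B) (A ∪ B) := by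
      intro x hx
      by_cases hB : x ∈ B
      · obtain ⟨z, hz, hzx⟩ := hg.surj hB
        exact ⟨z, Or.inr hz, hzx⟩
      · exact ⟨x, hx, hg.id x hB⟩
    have h2 : SurjOn f (A ∪ B) (A ∪ B) := by
      intro x hx
      by_cases hA : x ∈ A
      · obtain ⟨z, hz, hzx⟩ := hf.surj hA
        exact ⟨z, Or.inl hz, hzx⟩
      · exact ⟨x, hx, hf.id x hA⟩
    exact h2.comp h1

/-- **[GLUEMAP]** a locally finite family of maps with supports in `Λ`, which fix the common points
of two supports, glues to one insertion map of `Λ` -/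
theorem exists_glue_maps {ι : Type*} {Λ : Set (Fin n → ℝ)} (hΛ : IsOpen Λ)
    (f : ι → (Fin n → ℝ) → Fin n → ℝ) (K : ι → Set (Fin n → ℝ)) (hS : ∀ b, Supp (f b) (K b))
    (hKc : ∀ b, IsCompact (K b)) (hK : ∀ b, K b ⊆ Λ)
    (hfin : ∀ z ∈ Λ, ∃ U ∈ 𝓝 z, {b | (K b ∩ U).Nonempty}.Finite)
    (hmeet : ∀ b c, b ≠ c → ∀ x ∈ K b, x ∈ K c → f b x = x) :
    ∃ κ : (Fin n → ℝ) → Fin n → ℝ, (∀ b, ∀ x ∈ K b, κ x = f b x) ∧
      (∀ x, (∀ b, x ∉ K b) → κ x = x) ∧ H579.InsMap κ Λ Λ ∧ ConicalOn κ Λ ∧
      (∀ x, κ x = x ∨ ∃ b, x ∈ K b ∧ κ x ∈ K b ∧ κ x = f b x) := by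
  classical
  let κ : (Fin n → ℝ) → Fin n → ℝ := fun x =>
    if h : ∃ b, f b x ≠ x then f h.choose x else x
  have hmv : ∀ b x, f b x ≠ x → x ∈ K b := fun b x h => by
    by_contra h2; exact h ((hS b).id x h2)
  have huniq : ∀ b c x, f b x ≠ x → f c x ≠ x → b = c := by
    intro b c x h1 h2
    by_contra h3
    exact h1 (hmeet b c h3 x (hmv b x h1) (hmv c x h2))
  have hκ1 : ∀ b, ∀ x ∈ K b, κ x = f b x := by
    intro b x hx
    by_cases h : ∃ b, f b x ≠ x
    · have e : κ x = f h.choose x := dif_pos h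
      rw [e]
      by_cases hb : f b x = x
      · have h2 : h.choose ≠ b := fun h3 => h.choose_spec (by rw [h3]; exact hb)
        exact absurd (hmeet _ _ h2 x (hmv _ x h.choose_spec) hx) h.choose_spec
      · rw [huniq _ _ x h.choose_spec hb]
    · have e : κ x = x := dif_neg h
      push Not at h
      rw [e, h b]
  have hκ2 : ∀ x, (∀ b, x ∉ K b) → κ x = x := by
    intro x hx
    refine dif_neg ?_
    rintro ⟨b, hb⟩
    exact hx b (hmv b x hb)
  have hκ3 : ∀ x, κ x = x ∨ ∃ b, x ∈ K b ∧ κ x ∈ K b ∧ κ x = f b x := by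
    intro x
    by_cases h : ∃ b, x ∈ K b
    · obtain ⟨b, hb⟩ := h
      refine Or.inr ⟨b, hb, ?_, hκ1 b x hb⟩
      rw [hκ1 b x hb]
      exact (hS b).maps hb
    · push Not at h
      exact Or.inl (hκ2 x h)
  -- local formula
  have hloc : ∀ z ∈ Λ, ∃ U ∈ 𝓝 z, ∃ s : Finset ι, ∀ x ∈ U, κ x = x + ∑ b ∈ s, (f b x - x) := by
    intro z hz
    obtain ⟨U, hU, hUf⟩ := hfin z hz
    refine ⟨U, hU, hUf.toFinset, fun x hx => ?_⟩
    by_cases h : ∃ b, f b x ≠ x
    · obtain ⟨b, hb⟩ := h
      have hbU : b ∈ hUf.toFinset := by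
        rw [Finite.mem_toFinset]
        exact ⟨x, hmv b x hb, hx⟩
      rw [Finset.sum_eq_single_of_mem b hbU, hκ1 b x (hmv b x hb)]
      · abel
      · intro c _ hcb
        by_contra h2
        exact hcb (huniq c b x (sub_ne_zero.1 h2) hb)
    · have e : κ x = x := dif_neg h
      push Not at h
      rw [e, Finset.sum_eq_zero, add_zero]
      intro b _
      rw [h b, sub_self]
  have hcont : ContinuousOn κ Λ := by
    intro z hz
    obtain ⟨U, hU, s, hs⟩ := hloc z hz
    have h1 : Continuous fun x : Fin n → ℝ => x + ∑ b ∈ s, (f b x - x) := by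
      have := fun b => (hS b).cont
      fun_prop
    have h2 : ContinuousAt κ z := by
      refine h1.continuousAt.congr ?_
      filter_upwards [hU] with x hx
      exact (hs x hx).symm
    exact h2.continuousWithinAt
  have hcon : ConicalOn κ Λ := by
    intro z hz
    obtain ⟨U, hU, s, hs⟩ := hloc z hz
    have hu : ConicalSet (univ : Set (Fin n → ℝ)) := isOpen_univ.conicalSet
    have hid : ConicalOn (fun x : Fin n → ℝ => x) univ := conicalOn_id hu
    have h2 : ∀ s : Finset ι, ConicalOn (fun x : Fin n → ℝ => ∑ b ∈ s, (f b x - x)) univ := by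
      intro s
      induction s using Finset.induction_on with
      | empty => simpa using conicalOn_const (0 : Fin n → ℝ) hu
      | insert a s ha ih =>
        simp only [Finset.sum_insert ha]
        exact ((hS a).con.sub hid).add ih
    have h3 : ConicalOn (fun x : Fin n → ℝ => x + ∑ b ∈ s, (f b x - x)) Λ :=
      (hid.add (h2 s)).mono hΛ.conicalSet (subset_univ _)
    refine (h3 z hz).congr_nhds (Filter.Eventually.of_forall fun _ => Iff.rfl) ?_
      (hs z (mem_of_mem_nhds hU))
    filter_upwards [hU] with x hx _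
    exact hs x hx
  have hmaps : MapsTo κ Λ Λ := by
    intro x hx
    rcases hκ3 x with h | ⟨b, h1, h2, -⟩
    · rw [h]; exact hx
    · exact hK b h2
  refine ⟨κ, hκ1, hκ2, ⟨hΛ, hcont, hmaps, ?_, ?_⟩, hcon, hκ3⟩
  · intro y hy
    by_cases h : ∃ b, y ∈ K b
    · obtain ⟨b, hb⟩ := h
      obtain ⟨x, hx, hxy⟩ := (hS b).surj hb
      exact ⟨x, hK b hx, by rw [hκ1 b x hx, hxy]⟩
    · push Not at h
      exact ⟨y, hy, hκ2 y h⟩
  · intro C hC hCΛ
    -- finitely many supports meet `C`
    have hfinC : {b | (K b ∩ C).Nonempty}.Finite := by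
      refine hC.induction_on (p := fun s => {b | (K b ∩ s).Nonempty}.Finite) ?_ ?_ ?_ ?_
      · simp
      · intro s t hst ht
        exact ht.subset fun b ⟨x, hx, hxs⟩ => ⟨x, hx, hst hxs⟩
      · intro s t hs ht
        refine (hs.union ht).subset ?_
        rintro b ⟨x, hx, hxs | hxt⟩
        · exact Or.inl ⟨x, hx, hxs⟩
        · exact Or.inr ⟨x, hx, hxt⟩
      · intro z hz
        obtain ⟨U, hU, hUf⟩ := hfin z (hCΛ hz)
        exact ⟨U, mem_nhdsWithin_of_mem_nhds hU, hUf⟩
    set D := C ∪ ⋃ b ∈ hfinC.toFinset, K b with hD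
    have hDc : IsCompact D := hC.union (hfinC.toFinset.isCompact_biUnion fun b _ => hKc b)
    have hDΛ : D ⊆ Λ := union_subset hCΛ (iUnion₂_subset fun b _ => hK b)
    have h1 : Λ ∩ κ ⁻¹' C = D ∩ κ ⁻¹' C := by
      ext x
      constructor
      · rintro ⟨hx, hxC⟩
        refine ⟨?_, hxC⟩
        rcases hκ3 x with h | ⟨b, h1, h2, -⟩
        · rw [mem_preimage, h] at hxC; exact Or.inl hxC
        · refine Or.inr (mem_iUnion₂.2 ⟨b, ?_, h1⟩)
          rw [Finite.mem_toFinset]
          exact ⟨_, h2, hxC⟩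
      · rintro ⟨hx, hxC⟩
        exact ⟨hDΛ hx, hxC⟩
    rw [h1]
    exact hDc.of_isClosed_subset
      ((hcont.mono hDΛ).preimage_isClosed_of_isClosed hDc.isClosed hC.isClosed) inter_subset_left

end P073.H236
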