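import Vale.Agent.P073.H236.QS
import Vale.Agent.P073.H236.Boxes
import Vale.Agent.P073.H196.Cells

/-!
# P073, H236, STAIR: the maps `Q` and `S` of a box and a direction

`BX`: direction `j`, levels `a k` (`k < N`), flats `[a k - c, a k + c]`, everything supported in
`kbox j al be lo hi r`.
-/

open Set Metric Topology Filter

namespace P073.H236

open P073

section cells
variable {lo hi θ δ η : ℝ} {T : Finset (ℝ × ℝ)} {N : ℕ} {x a : ℕ → ℝ} {al be c : ℝ}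

/-- levels from the cells of `P073.Croft` -/
theorem Lvs.of_cells (H : Croft.Cells lo hi θ δ η T N x a) (hδ : 0 < δ) (hη : η ≤ 1 / 4)
    (hN : 0 < N) (hc0 : 0 < c) (hc : c ≤ δ / 8) (hal : al < lo) (hbe : hi < be) :
    Lvs N a c al be where
  pos := hN
  c0 := hc0
  first := by
    have h1 := (H.lt_a hδ hη 0).1
    have h2 := H.ge 0 hN
    linarith
  sep := fun k hk => by
    have h1 := (H.lt_a hδ hη k).2
    have h2 := (H.lt_a hδ hη (k + 1)).1
    have h3 := H.succ k hk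
    linarith
  last := by
    have h1 := (H.lt_a hδ hη (N - 1)).2
    have h3 := H.le (N - 1) (by omega)
    linarith

/-- the flats lie in the cells -/
theorem cell_sub (H : Croft.Cells lo hi θ δ η T N x a) (hδ : 0 < δ) (hη : η ≤ 1 / 4)
    (hc : c ≤ δ / 8) {k : ℕ} {t : ℝ} (ht : |t - a k| ≤ 2 * c) : x k < t ∧ t < x k + δ := by
  have h1 := H.lt_a hδ hη k
  obtain ⟨h2, h3⟩ := abs_le.1 ht
  constructor <;> linarith

theorem Tgt.of_cells (H : Croft.Cells lo hi θ δ η T N x a) {e : ℝ} (he : 0 < e)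
    (he2 : 2 * e < δ) (hal : al < lo) (hbe : hi < be) : Tgt N al be lo δ e where
  first := by linarith
  e0 := he
  eo := he2
  last := by have := H.num_le; linarith

/-- the bound of the displacement -/
noncomputable def dsp (T : Finset (ℝ × ℝ)) (δ : ℝ) : ℝ :=
  ∑ p ∈ T, (p.2 - p.1) + (2 * T.card + 1) * δ

theorem abs_sm_sub_self_le_dsp (H : Croft.Cells lo hi θ δ η T N x a) (hδ : 0 < δ)
    (hη : η ≤ 1 / 4) (hc0 : 0 < c) (hc : c ≤ δ / 8) (hL : Lvs N a c al be) {e : ℝ} (he : 0 < e)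
    (he2 : 2 * e < δ) (hD : 0 ≤ dsp T δ) (t : ℝ) :
    |sm N a c al be lo δ e t - t| ≤ dsp T δ := by
  refine abs_sm_sub_self_le hL hD (fun k hk => ?_) (fun k hk => ?_) t
  all_goals
    have h1 := H.lt_a hδ hη k
    have h2 := H.disp_nonneg k hk
    have h3 := H.disp_le k hk
    rw [abs_le]
    unfold dsp at hD ⊢
    constructor <;> nlinarith

theorem abs_sm_sub_le_four (H : Croft.Cells lo hi θ δ η T N x a) (hδ : 0 < δ)
    (hη : η ≤ 1 / 4) (hc : c = δ / 8) (hL : Lvs N a c al be) {e : ℝ} (he : 0 < e)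
    (he2 : 2 * e < δ) (hal : al < lo) (hbe : hi < be) (hD : 0 ≤ dsp T δ)
    (hbD : dsp T δ ≤ be - hi) (s t : ℝ) :
    |sm N a c al be lo δ e s - sm N a c al be lo δ e t| ≤ 4 * |s - t| := by
  have hN := hL.pos
  have hT := Tgt.of_cells H he he2 hal hbe
  have h0 := H.lt_a hδ hη 0
  have h0' := H.ge 0 hN
  have h1 := H.lt_a hδ hη (N - 1)
  have h1' := H.le (N - 1) (by omega)
  have h2 := H.le_num
  unfold dsp at hD hbD
  refine abs_sm_sub_le hL hT (by norm_num) ?_ ?_ ?_ s t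
  · rw [hc]; linarith
  · rw [hc]; linarith
  · rw [hc]; nlinarith

end cells

/-- a direction, levels and a box in the other coordinates -/
structure BX (n : ℕ) where
  j : Fin n
  N : ℕ
  a : ℕ → ℝ
  c : ℝ
  al : ℝ
  be : ℝ
  lvs : Lvs N a c al be
  lo : Fin n → ℝ
  hi : Fin n → ℝ
  r : Fin n → ℝ
  hr : ∀ i, 0 < r i

namespace BX

variable {n : ℕ} (B : BX n)

/-- the support -/
def K : Set (Fin n → ℝ) := kbox B.j B.al B.be B.lo B.hi B.r

/-- the full zone -/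
def Full (y : Fin n → ℝ) : Prop := ∀ i, i ≠ B.j → B.lo i ≤ y i ∧ y i ≤ B.hi i

theorem isCompact_K : IsCompact B.K := isCompact_kbox _ _ _ _ _ _

theorem al_lt_be : B.al < B.be := by
  have h1 := B.lvs.first_le B.lvs.pos
  have h2 := B.lvs.le_last B.lvs.pos
  have h3 := B.lvs.c0
  linarith

/-- the insertion map of the box -/
noncomputable def Q : (Fin n → ℝ) → Fin n → ℝ :=
  vc B.j (qm B.lvs.L B.c) (bmp B.j B.lo B.hi B.r B.c)

theorem vdQ : VD B.j (qm B.lvs.L B.c) (bmp B.j B.lo B.hi B.r B.c) :=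
  vd_bmp B.lvs.c0.le (qm_continuous _ _) (qm_conicalOn _ _) (qm_monotone B.lvs.c0.le B.lvs.sepd)

theorem suppQ : Supp B.Q B.K :=
  supp_vc B.lvs.c0.le B.hr (qm_continuous _ _) (qm_conicalOn _ _)
    (qm_monotone B.lvs.c0.le B.lvs.sepd) (fun _ ht => B.lvs.qm_out ht) B.al_lt_be.le

theorem Q_full {y : Fin n → ℝ} (hy : B.Full y) :
    B.Q y = Function.update y B.j (qm B.lvs.L B.c (y B.j)) := by
  refine VD.eq_full ?_
  rw [bmp_full B.hr hy]
  exact abs_qm_sub_le B.lvs.c0.le B.lvs.sepd _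

theorem Q_ne {i : Fin n} (hi : i ≠ B.j) (y : Fin n → ℝ) : B.Q y i = y i := vc_ne hi y

theorem norm_Q_sub_le (y : Fin n → ℝ) : ‖B.Q y - y‖ ≤ B.c :=
  (B.vdQ.norm_sub_le y).trans (bmp_le B.lvs.c0.le y)

/-- **strips**: a set which is invariant under vertical moves inside the cells is preserved, with
its complement -/
theorem Q_mem_iff {R : ℝ → ℝ → Prop} (hrefl : ∀ t, R t t) (hsym : ∀ s t, R s t → R t s)
    (hcell : ∀ k < B.N, ∀ s t, |s - B.a k| ≤ 2 * B.c → |t - B.a k| ≤ 2 * B.c → R s t)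
    {X : Set (Fin n → ℝ)} (hX : ∀ y ∈ X, ∀ t, R (y B.j) t → Function.update y B.j t ∈ X)
    (y : Fin n → ℝ) : B.Q y ∈ X ↔ y ∈ X := by
  refine B.vdQ.mem_iff hX hsym (fun t t' ht' => ?_) y
  by_cases h : ∃ b ∈ B.lvs.L, |t - b| ≤ 2 * B.c
  · obtain ⟨b, hb, htb⟩ := h
    have h1 := qm_mem_cell B.lvs.c0.le B.lvs.sepd hb htb
    obtain ⟨k, hk, rfl⟩ := B.lvs.mem_L.1 hb
    refine hcell k hk t t' htb ?_
    obtain ⟨a1, a2⟩ := abs_le.1 htb
    obtain ⟨b1, b2⟩ := abs_le.1 h1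
    rw [abs_le]
    rcases le_total t (qm B.lvs.L B.c t) with h2 | h2
    · rw [uIcc_of_le h2] at ht'
      constructor <;> linarith [ht'.1, ht'.2]
    · rw [uIcc_of_ge h2] at ht'
      constructor <;> linarith [ht'.1, ht'.2]
  · push Not at h
    rw [qm_off B.lvs.c0.le fun b hb => (h b hb).le, uIcc_self, mem_singleton_iff] at ht'
    rw [ht']; exact hrefl t

/-- the images of a strip set under the inverse relation -/
theorem Q_preimage {R : ℝ → ℝ → Prop} (hrefl : ∀ t, R t t) (hsym : ∀ s t, R s t → R t s)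
    (hcell : ∀ k < B.N, ∀ s t, |s - B.a k| ≤ 2 * B.c → |t - B.a k| ≤ 2 * B.c → R s t)
    {X : Set (Fin n → ℝ)} (hX : ∀ y ∈ X, ∀ t, R (y B.j) t → Function.update y B.j t ∈ X) :
    B.Q ⁻¹' X = X := by
  ext y
  exact B.Q_mem_iff hrefl hsym hcell hX y

variable {t₀ om e D : ℝ}

theorem vdS (hT : Tgt B.N B.al B.be t₀ om e) (hD : 0 ≤ D) :
    VD B.j (sm B.N B.a B.c B.al B.be t₀ om e) (bmp B.j B.lo B.hi B.r D) :=
  vd_bmp hD sm_continuous sm_conicalOn (sm_strictMono B.lvs hT).monotone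

theorem vdS' (hT : Tgt B.N B.al B.be t₀ om e) (hD : 0 ≤ D) :
    VD B.j (smi B.N B.a B.c B.al B.be t₀ om e) (bmp B.j B.lo B.hi B.r D) :=
  vd_bmp hD smi_continuous smi_conicalOn (smi_strictMono B.lvs hT).monotone

/-- **the staircase of the box** -/
noncomputable def S (hT : Tgt B.N B.al B.be t₀ om e) (hD : 0 ≤ D) :
    ConHomeo (univ : Set (Fin n → ℝ)) (univ : Set (Fin n → ℝ)) :=
  (B.vdS hT hD).homeo (B.vdS' hT hD) (sm_strictMono B.lvs hT) (smi_strictMono B.lvs hT)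
    (smi_sm B.lvs hT) (sm_smi B.lvs hT) isOpen_univ (fun _ _ _ _ => mem_univ _)

theorem S_toFun (hT : Tgt B.N B.al B.be t₀ om e) (hD : 0 ≤ D) : (B.S hT hD).toFun =
    vc B.j (sm B.N B.a B.c B.al B.be t₀ om e) (bmp B.j B.lo B.hi B.r D) := rfl

theorem S_invFun (hT : Tgt B.N B.al B.be t₀ om e) (hD : 0 ≤ D) : (B.S hT hD).invFun =
    vc B.j (smi B.N B.a B.c B.al B.be t₀ om e) (bmp B.j B.lo B.hi B.r D) := rfl

theorem suppS (hT : Tgt B.N B.al B.be t₀ om e) (hD : 0 ≤ D) : Supp (B.S hT hD).toFun B.K :=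
  supp_vc hD B.hr sm_continuous sm_conicalOn (sm_strictMono B.lvs hT).monotone
    (fun _ ht => sm_out B.lvs ht) B.al_lt_be.le

theorem suppS' (hT : Tgt B.N B.al B.be t₀ om e) (hD : 0 ≤ D) : Supp (B.S hT hD).invFun B.K :=
  supp_vc hD B.hr smi_continuous smi_conicalOn (smi_strictMono B.lvs hT).monotone
    (fun _ ht => smi_out B.lvs hT ht) B.al_lt_be.le

theorem S_full (hT : Tgt B.N B.al B.be t₀ om e) (hD : 0 ≤ D)
    (hd : ∀ t, |sm B.N B.a B.c B.al B.be t₀ om e t - t| ≤ D) {y : Fin n → ℝ} (hy : B.Full y) :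
    (B.S hT hD).toFun y =
      Function.update y B.j (sm B.N B.a B.c B.al B.be t₀ om e (y B.j)) := by
  refine VD.eq_full ?_
  rw [bmp_full B.hr hy]
  exact hd _

theorem S_ne (hT : Tgt B.N B.al B.be t₀ om e) (hD : 0 ≤ D) {i : Fin n} (hi : i ≠ B.j)
    (y : Fin n → ℝ) : (B.S hT hD).toFun y i = y i := vc_ne hi y

theorem norm_S_sub_le (hT : Tgt B.N B.al B.be t₀ om e) (hD : 0 ≤ D) (y : Fin n → ℝ) :
    ‖(B.S hT hD).toFun y - y‖ ≤ D :=
  ((B.vdS hT hD).norm_sub_le y).trans (bmp_le hD y)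

/-- **Lipschitz bound everywhere**, the fade-out costs `D / ρ` -/
theorem abs_S_sub_le (hT : Tgt B.N B.al B.be t₀ om e) (hD : 0 ≤ D) {A : ℝ} (hA : 1 ≤ A)
    (hs : ∀ s t, |sm B.N B.a B.c B.al B.be t₀ om e s - sm B.N B.a B.c B.al B.be t₀ om e t| ≤
      A * |s - t|) {ρ d : ℝ} (hρ : 0 < ρ) (hr : ∀ i, ρ ≤ B.r i) {y y' : Fin n → ℝ}
    (hd : ∀ i, i ≠ B.j → |y i - y' i| ≤ d) (hd0 : 0 ≤ d) :
    |(B.S hT hD).toFun y B.j - (B.S hT hD).toFun y' B.j| ≤
      A * |y B.j - y' B.j| + D * (d / ρ) := by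
  refine (VD.abs_vc_sub_vc_le hA (hs _ _)).trans ?_
  exact add_le_add_right (abs_bmp_sub_le hD hρ hr hd hd0) _

/-- the same for `Q` -/
theorem abs_Q_sub_le {ρ d : ℝ} (hρ : 0 < ρ) (hr : ∀ i, ρ ≤ B.r i) {y y' : Fin n → ℝ}
    (hd : ∀ i, i ≠ B.j → |y i - y' i| ≤ d) (hd0 : 0 ≤ d) :
    |B.Q y B.j - B.Q y' B.j| ≤ 2 * |y B.j - y' B.j| + B.c * (d / ρ) := by
  refine (VD.abs_vc_sub_vc_le one_le_two
    (abs_qm_sub_qm_le B.lvs.c0.le B.lvs.sepd _ _)).trans ?_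
  exact add_le_add_right (abs_bmp_sub_le B.lvs.c0.le hρ hr hd hd0) _

end BX

/-- composition of supported homeomorphisms -/
theorem supp_trans {n : ℕ} {Φ Ψ : ConHomeo (univ : Set (Fin n → ℝ)) (univ : Set (Fin n → ℝ))}
    {A B : Set (Fin n → ℝ)} (h1 : Supp Φ.toFun A) (h2 : Supp Ψ.toFun B) :
    Supp (Φ.trans Ψ).toFun (B ∪ A) := h2.comp h1

/-- the inverse of a supported homeomorphism is supported -/
theorem supp_symm {n : ℕ} {Φ : ConHomeo (univ : Set (Fin n → ℝ)) (univ : Set (Fin n → ℝ))}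
    {A : Set (Fin n → ℝ)} (h : Supp Φ.toFun A) : Supp Φ.invFun A where
  cont := continuousOn_univ.1 Φ.cont_inv
  con := Φ.conical_inv
  id := fun x hx => by
    have h1 := h.id x hx
    have h2 := Φ.left_inv (mem_univ x)
    rwa [h1] at h2
  maps := fun x hx => by
    obtain ⟨z, hz, hzx⟩ := h.surj hx
    rw [← hzx, Φ.left_inv (mem_univ z)]
    exact hz
  surj := fun x hx => ⟨Φ.toFun x, h.maps hx, Φ.left_inv (mem_univ x)⟩

/-- **a locally finite family of supported homeomorphisms glues** -/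
theorem exists_glue_homeo {n : ℕ} {ι : Type*} {Λ : Set (Fin n → ℝ)} (hΛ : IsOpen Λ)
    (Θ : ι → ConHomeo (univ : Set (Fin n → ℝ)) (univ : Set (Fin n → ℝ)))
    (K : ι → Set (Fin n → ℝ)) (hS : ∀ b, Supp (Θ b).toFun (K b)) (hK : ∀ b, K b ⊆ Λ)
    (hfin : ∀ z ∈ Λ, ∃ U ∈ 𝓝 z, {b | (K b ∩ U).Nonempty}.Finite)
    (hmeet : ∀ b c, b ≠ c → ∀ x ∈ K b, x ∈ K c → (Θ b).toFun x = x) :
    ∃ Φ : ConHomeo Λ Λ, (∀ b, ∀ x ∈ K b, Φ.toFun x = (Θ b).toFun x) ∧
      (∀ x, (∀ b, x ∉ K b) → Φ.toFun x = x) ∧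
      (∀ b, ∀ x ∈ K b, Φ.invFun x = (Θ b).invFun x) ∧
      (∀ x, (∀ b, x ∉ K b) → Φ.invFun x = x) :=
  Net.exists_glue_ambient hΛ Θ K hK (fun b x hx => (hS b).id x hx) hfin hmeet

end P073.H236
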