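import Vale.Agent.P073.H236.Stage3b
import Vale.Agent.P073.H267.Geo2

/-!
# P073, H236: the boxes of the two rounds (`H267.Geo`) as families of boxes for the staircases
-/

open Set Metric Topology Filter

namespace P073.H236

open _root_.P073 _root_.P073.Net _root_.P073.PA691
open _root_.P073.PR720 (LF)
open Vale.Agent.P073.St (V)
open Vale.Agent.P073.H471 Vale.Agent.P073.H267

variable {Λ : Set V} {v : V} {K : BoxCx Λ v} {S : Rad K} {W : Wid K S} {B : Boxes W} {y z : V}

section T
variable (G : Geo B)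

/-- width of the fading zone -/
noncomputable def rT (b : TBx K) (i : Fin 3) : ℝ :=
  if i = b.ax then 1 else min (G.tlo true b i - G.tlo false b i) (G.thi false b i - G.thi true b i)

theorem tlo_lt {b : TBx K} {i : Fin 3} (hi : i ≠ b.ax) :
    G.tlo false b i < G.tlo true b i ∧ G.thi true b i < G.thi false b i := by
  rcases b with e | h
  · have hi' : i ≠ K.dir e := hi
    have h1 := G.uT_lam e
    have h2 := G.uT_pos e
    simp only [Geo.tlo, Geo.thi, if_neg hi', if_true, Bool.false_eq_true, if_false]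
    constructor <;> linarith
  · have hi' : i ≠ h.l := hi
    have hp := G.p_pos h.s
    have hτ := B.τ_pos h.s
    simp only [Geo.tlo, Geo.thi, if_neg hi', if_true, Bool.false_eq_true, if_false]
    split_ifs <;> constructor <;> linarith

theorem tlo_ax {b : TBx K} {f : Bool} : G.tlo f b b.ax = G.tlo true b b.ax ∧
    G.thi f b b.ax = G.thi true b b.ax := by
  rcases b with e | h <;> simp [Geo.tlo, Geo.thi, TBx.ax]

theorem rT_pos (b : TBx K) (i : Fin 3) : 0 < rT G b i := by
  unfold rT
  split_ifs with h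
  · exact one_pos
  · obtain ⟨h1, h2⟩ := tlo_lt G h
    exact lt_min (by linarith) (by linarith)

/-- levels for the boxes of round T -/
structure TLev where
  N : TBx K → ℕ
  a : TBx K → ℕ → ℝ
  c : TBx K → ℝ
  lvs : ∀ b, Lvs (N b) (a b) (c b) (G.tlo true b b.ax) (G.thi true b b.ax)

variable {G}

/-- the box -/
noncomputable def TLev.bx (L : TLev G) (b : TBx K) : BX 3 where
  j := b.ax
  N := L.N b
  a := L.a b
  c := L.c b
  al := G.tlo true b b.ax
  be := G.thi true b b.ax
  lvs := L.lvs b
  lo := G.tlo true b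
  hi := G.thi true b
  r := rT G b
  hr := rT_pos G b

theorem TLev.K_sub (L : TLev G) (b : TBx K) : (L.bx b).K ⊆ G.TB false b := by
  rintro y ⟨⟨h1, h2⟩, h3⟩
  have key : ∀ i, G.tlo false b i ≤ y i ∧ y i ≤ G.thi false b i := by
    intro i
    by_cases hi : i = b.ax
    · rw [hi, (tlo_ax G).1, (tlo_ax G).2]
      exact ⟨h1, h2⟩
    · obtain ⟨h4, h5⟩ := h3 i hi
      have h6 : rT G b i = min (G.tlo true b i - G.tlo false b i)
          (G.thi false b i - G.thi true b i) := if_neg hi
      have h7 := min_le_left (G.tlo true b i - G.tlo false b i) (G.thi false b i - G.thi true b i)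
      have h8 := min_le_right (G.tlo true b i - G.tlo false b i) (G.thi false b i - G.thi true b i)
      rw [← h6] at h7 h8
      change G.tlo true b i - rT G b i ≤ y i at h4
      change y i ≤ G.thi true b i + rT G b i at h5
      constructor <;> linarith
  exact ⟨fun i => (key i).1, fun i => (key i).2⟩

/-- the parameters of the staircases of round T -/
structure TPar (L : TLev G) where
  e : TBx K → ℝ
  D : TBx K → ℝ
  he : ∀ b, 0 < e b
  heo : ∀ b, 2 * e b < stp (L.N b) (G.tlo true b b.ax) (G.thi true b b.ax)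
  hD : ∀ b t, |sm (L.N b) (L.a b) (L.c b) (G.tlo true b b.ax) (G.thi true b b.ax)
    (G.tlo true b b.ax) (stp (L.N b) (G.tlo true b b.ax) (G.thi true b b.ax)) (e b) t - t| ≤ D b

/-- the family of round T -/
noncomputable def TPar.fam {L : TLev G} (P : TPar L) : BFam 3 (TBx K) Λ where
  B := L.bx
  e := P.e
  D := P.D
  he := P.he
  heo := P.heo
  hD := P.hD
  sub := fun b => (L.K_sub b).trans (G.TB_sub b)
  lf := fun z hz => by
    obtain ⟨U, hU, hf⟩ := G.lf_TB z hz
    refine ⟨U, hU, hf.subset ?_⟩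
    rintro b ⟨x, hx, hxU⟩
    exact ⟨x, L.K_sub b hx, hxU⟩
  dis := fun b b' hne => (G.disjoint_TB hne).mono (interior_mono (L.K_sub b)) (L.K_sub b')

theorem TPar.fullK_iff {L : TLev G} (P : TPar L) {b : TBx K} :
    P.fam.FullK b y ↔ y ∈ G.TB true b := by
  constructor
  · rintro ⟨h1, h2⟩
    have key : ∀ i, G.tlo true b i ≤ y i ∧ y i ≤ G.thi true b i := by
      intro i
      by_cases hi : i = b.ax
      · rw [hi]; exact h1
      · exact h2 i hi
    exact ⟨fun i => (key i).1, fun i => (key i).2⟩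
  · intro h
    exact ⟨⟨h.1 _, h.2 _⟩, fun i _ => ⟨h.1 i, h.2 i⟩⟩

end T

/-- the displacement of the staircase whose targets fill the window -/
theorem hD_of_cells {lo hi θ δ η : ℝ} {T : Finset (ℝ × ℝ)} {N : ℕ} {x a : ℕ → ℝ} {al be c e D : ℝ}
    (H : Croft.Cells lo hi θ δ η T N x a) (hδ : 0 < δ) (hη : η ≤ 1 / 4) (hc : c ≤ δ / 8)
    (hL : Lvs N a c al be) (hal : al ≤ lo) (hbe : hi ≤ be) (he : 0 < e) (he8 : e ≤ δ / 8)
    (hD : dsp T δ + δ + (lo - al) + (be - hi) ≤ D) (t : ℝ) :
    |sm N a c al be al (stp N al be) e t - t| ≤ D := by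
  have hc0 := hL.c0
  have hN := hL.pos
  have hN' : (0:ℝ) < N := by exact_mod_cast hN
  have hNs : (N : ℝ) * stp N al be = be - al := by unfold stp; rw [mul_div_cancel₀ _ hN'.ne']
  have hle := H.le_num
  have hnum := H.num_le
  have hW : 0 ≤ ∑ p ∈ T, (p.2 - p.1) + 2 * T.card * δ := by
    have h1 := H.disp_nonneg 0 hN
    have h2 := H.disp_le 0 hN
    linarith
  unfold dsp at hD
  -- bounds of the step
  have hs1 : δ ≤ stp N al be := by
    unfold stp
    rw [le_div_iff₀ hN']
    nlinarith
  have hD0 : 0 ≤ D := by nlinarith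
  have key : ∀ k : ℕ, k ≤ N → (k:ℝ) * δ ≤ k * stp N al be ∧
      k * stp N al be ≤ k * δ + ((be - al) - N * δ) := by
    intro k hk
    have hk' : (k:ℝ) ≤ N := by exact_mod_cast hk
    constructor
    · exact mul_le_mul_of_nonneg_left hs1 (Nat.cast_nonneg _)
    · have : (k:ℝ) * (stp N al be - δ) ≤ N * (stp N al be - δ) :=
        mul_le_mul_of_nonneg_right hk' (by linarith)
      have h2 : (N:ℝ) * (stp N al be - δ) = (be - al) - N * δ := by rw [mul_sub, hNs]
      linarith
  refine abs_sm_sub_self_le hL hD0 (fun k hk => ?_) (fun k hk => ?_) t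
  · have h1 := H.lt_a hδ hη k
    have h2 := H.disp_nonneg k hk
    have h3 := H.disp_le k hk
    have h4 := key k hk.le
    rw [abs_le]
    constructor <;> linarith [h1.1, h1.2, h4.1, h4.2]
  · have h1 := H.lt_a hδ hη k
    have h2 := H.disp_nonneg k hk
    have h3 := H.disp_le k hk
    have h4 := key (k + 1) hk
    push_cast at h4
    rw [abs_le]
    constructor <;> linarith [h1.1, h1.2, h4.1, h4.2]

end P073.H236
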