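import Vale.Agent.P073.Conical

/-!
# P073, H236, STAIR (K), (S): one dimensional maps

* `qm L c`: the insertion map of one variable: constant `a` on the flat `[a - c, a + c]`, `a ∈ L`,
  identity off the cells `[a - 2 c, a + 2 c]`, affine in between.
* `pl n x v`: the piecewise linear homeomorphism with `pl (x i) = v i`, translations outside.
-/

open Set Metric Topology Filter

namespace P073.H236

open P073

/-- the triangular wave -/
def tri (c r : ℝ) : ℝ := max 0 (min r (2 * c - r)) - max 0 (min (-r) (2 * c + r))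

theorem tri_neg (c r : ℝ) : tri c (-r) = - tri c r := by
  unfold tri
  rw [neg_neg, sub_neg_eq_add, ← sub_eq_add_neg]
  ring

theorem tri_of_le {c r : ℝ} (hr : 0 ≤ r) (h : r ≤ c) : tri c r = r := by
  unfold tri
  rw [min_eq_left (by linarith), max_eq_right hr, max_eq_left (min_le_of_left_le (by linarith)),
    sub_zero]

theorem tri_of_mem {c r : ℝ} (hc : 0 ≤ c) (h1 : c ≤ r) (h2 : r ≤ 2 * c) : tri c r = 2 * c - r := by
  unfold tri
  rw [min_eq_right (by linarith), max_eq_right (by linarith),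
    max_eq_left (min_le_of_left_le (by linarith)), sub_zero]

theorem tri_of_ge {c r : ℝ} (hc : 0 ≤ c) (h : 2 * c ≤ r) : tri c r = 0 := by
  unfold tri
  rw [max_eq_left (min_le_of_right_le (by linarith)),
    max_eq_left (min_le_of_left_le (by linarith)), sub_zero]

theorem tri_of_abs_ge {c r : ℝ} (hc : 0 ≤ c) (h : 2 * c ≤ |r|) : tri c r = 0 := by
  rcases le_total 0 r with h1 | h1
  · rw [abs_of_nonneg h1] at h; exact tri_of_ge hc h
  · rw [abs_of_nonpos h1] at h
    have := tri_of_ge hc h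
    rw [tri_neg, neg_eq_zero] at this
    exact this

theorem tri_of_abs_le {c r : ℝ} (h : |r| ≤ c) : tri c r = r := by
  rcases le_total 0 r with h1 | h1
  · rw [abs_of_nonneg h1] at h; exact tri_of_le h1 h
  · rw [abs_of_nonpos h1] at h
    have := tri_of_le (neg_nonneg.2 h1) h
    rw [tri_neg, neg_inj] at this
    exact this

theorem abs_tri_le {c r : ℝ} (hc : 0 ≤ c) : |tri c r| ≤ c := by
  wlog h1 : 0 ≤ r generalizing r
  · have := this (r := -r) (by linarith)
    rwa [tri_neg, abs_neg] at this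
  rcases le_total r c with h2 | h2
  · rw [tri_of_le h1 h2, abs_of_nonneg h1]; exact h2
  · rcases le_total r (2 * c) with h3 | h3
    · rw [tri_of_mem hc h2 h3, abs_of_nonneg (by linarith)]; linarith
    · rw [tri_of_ge hc h3, abs_zero]; exact hc

theorem tri_continuous (c : ℝ) : Continuous (tri c) := by
  unfold tri; fun_prop

theorem tri_conicalOn (c : ℝ) : ConicalOn (tri c) univ := by
  have hu : ConicalSet (univ : Set ℝ) := isOpen_univ.conicalSet
  have hid : ConicalOn (fun r : ℝ => r) univ := conicalOn_id hu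
  have h0 : ConicalOn (fun _ : ℝ => (0:ℝ)) univ := conicalOn_const 0 hu
  have h2 : ConicalOn (fun _ : ℝ => 2 * c) univ := conicalOn_const _ hu
  have e1 : ContinuousOn (fun r : ℝ => r) univ := by fun_prop
  have e2 : ContinuousOn (fun r : ℝ => 2 * c - r) univ := by fun_prop
  have e3 : ContinuousOn (fun r : ℝ => -r) univ := by fun_prop
  have e4 : ContinuousOn (fun r : ℝ => 2 * c + r) univ := by fun_prop
  have e5 : ContinuousOn (fun r : ℝ => min r (2 * c - r)) univ := by fun_prop
  have e6 : ContinuousOn (fun r : ℝ => min (-r) (2 * c + r)) univ := by fun_prop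
  have e0 : ContinuousOn (fun _ : ℝ => (0:ℝ)) univ := by fun_prop
  exact (h0.rmax (hid.rmin (h2.sub hid) e1 e2) e0 e5).sub
    (h0.rmax (hid.neg.rmin (h2.add hid) e3 e4) e0 e6)

/-- on a cell the map `r - tri c r` is monotone -/
theorem sub_tri_mono {c r r' : ℝ} (hc : 0 ≤ c) (hr : -(2 * c) ≤ r) (h : r ≤ r')
    (hr' : r' ≤ 2 * c) : r - tri c r ≤ r' - tri c r' := by
  have pos : ∀ s, 0 ≤ s → s ≤ 2 * c → s - tri c s = max 0 (2 * s - 2 * c) := by
    intro s h1 h2
    rcases le_total s c with h3 | h3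
    · rw [tri_of_le h1 h3, max_eq_left (by linarith)]; ring
    · rw [tri_of_mem hc h3 h2, max_eq_right (by linarith)]; ring
  have neg : ∀ s, s ≤ 0 → -(2 * c) ≤ s → s - tri c s = - max 0 (-(2 * s) - 2 * c) := by
    intro s h1 h2
    have := pos (-s) (by linarith) (by linarith)
    rw [tri_neg] at this
    have e : (2:ℝ) * -s - 2 * c = -(2 * s) - 2 * c := by ring
    rw [e] at this
    linarith
  rcases le_total 0 r with h1 | h1
  · rw [pos r h1 (h.trans hr'), pos r' (h1.trans h) hr']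
    exact max_le_max le_rfl (by linarith)
  · rcases le_total 0 r' with h2 | h2
    · rw [neg r h1 hr, pos r' h2 hr']
      have a1 := le_max_left (0:ℝ) (-(2 * r) - 2 * c)
      have a2 := le_max_left (0:ℝ) (2 * r' - 2 * c)
      linarith
    · rw [neg r h1 hr, neg r' h2 (hr.trans h)]
      have : max 0 (-(2 * r') - 2 * c) ≤ max 0 (-(2 * r) - 2 * c) :=
        max_le_max le_rfl (by linarith)
      linarith

theorem add_tri_mono {c r r' : ℝ} (hc : 0 ≤ c) (hr : -(2 * c) ≤ r) (h : r ≤ r')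
    (hr' : r' ≤ 2 * c) : r + tri c r ≤ r' + tri c r' := by
  have pos : ∀ s, 0 ≤ s → s ≤ 2 * c → s + tri c s = min (2 * s) (2 * c) := by
    intro s h1 h2
    rcases le_total s c with h3 | h3
    · rw [tri_of_le h1 h3, min_eq_left (by linarith)]; ring
    · rw [tri_of_mem hc h3 h2, min_eq_right (by linarith)]; ring
  have neg : ∀ s, s ≤ 0 → -(2 * c) ≤ s → s + tri c s = - min (-(2 * s)) (2 * c) := by
    intro s h1 h2
    have := pos (-s) (by linarith) (by linarith)
    rw [tri_neg] at this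
    have e : (2:ℝ) * -s = -(2 * s) := by ring
    rw [e] at this
    linarith
  rcases le_total 0 r with h1 | h1
  · rw [pos r h1 (h.trans hr'), pos r' (h1.trans h) hr']
    exact min_le_min (by linarith) le_rfl
  · rcases le_total 0 r' with h2 | h2
    · rw [neg r h1 hr, pos r' h2 hr']
      have a1 : 0 ≤ min (-(2 * r)) (2 * c) := le_min (by linarith) (by linarith)
      have a2 : 0 ≤ min (2 * r') (2 * c) := le_min (by linarith) (by linarith)
      linarith
    · rw [neg r h1 hr, neg r' h2 (hr.trans h)]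
      have : min (-(2 * r')) (2 * c) ≤ min (-(2 * r)) (2 * c) :=
        min_le_min (by linarith) le_rfl
      linarith

/-- the levels are `4 c`-separated: the cells have disjoint interiors -/
def Sepd (L : Finset ℝ) (c : ℝ) : Prop := ∀ a ∈ L, ∀ b ∈ L, a < b → a + 2 * c ≤ b - 2 * c

theorem Sepd.two_le_abs {L : Finset ℝ} {c : ℝ} (h : Sepd L c) {a b : ℝ} (ha : a ∈ L) (hb : b ∈ L)
    (hab : b ≠ a) {t : ℝ} (ht : |t - a| ≤ 2 * c) : 2 * c ≤ |t - b| := by
  obtain ⟨h1, h2⟩ := abs_le.1 ht
  rcases lt_or_gt_of_ne hab with h3 | h3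
  · have := h b hb a ha h3
    exact _root_.le_abs.2 (Or.inl (by linarith))
  · have := h a ha b hb h3
    exact _root_.le_abs.2 (Or.inr (by linarith))

/-- a sum of functions supported in the cells -/
theorem sum_cell {L : Finset ℝ} {c : ℝ} (h : Sepd L c) {ψ : ℝ → ℝ}
    (hψ : ∀ r, 2 * c ≤ |r| → ψ r = 0) {a : ℝ} (ha : a ∈ L) {t : ℝ} (ht : |t - a| ≤ 2 * c) :
    ∑ b ∈ L, ψ (t - b) = ψ (t - a) :=
  Finset.sum_eq_single_of_mem a ha fun _ hb hba => hψ _ (h.two_le_abs ha hb hba ht)

theorem sum_off {L : Finset ℝ} {c : ℝ} {ψ : ℝ → ℝ} (hψ : ∀ r, 2 * c ≤ |r| → ψ r = 0) {t : ℝ}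
    (ht : ∀ a ∈ L, 2 * c ≤ |t - a|) : ∑ b ∈ L, ψ (t - b) = 0 :=
  Finset.sum_eq_zero fun b hb => hψ _ (ht b hb)

/-- a cell map is monotone -/
theorem cell_mono {L : Finset ℝ} {c : ℝ} (hc : 0 ≤ c) (h : Sepd L c) {ψ : ℝ → ℝ}
    (hψ : ∀ r, 2 * c ≤ |r| → ψ r = 0)
    (hm : ∀ r r', -(2 * c) ≤ r → r ≤ r' → r' ≤ 2 * c → r + ψ r ≤ r' + ψ r') :
    Monotone fun t : ℝ => t + ∑ b ∈ L, ψ (t - b) := by
  have e1 : ψ (2 * c) = 0 := hψ _ (by rw [abs_of_nonneg (by linarith)])
  have e2 : ψ (-(2 * c)) = 0 := hψ _ (by rw [abs_neg, abs_of_nonneg (by linarith)])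
  -- values in a cell stay in the cell
  have hin : ∀ a ∈ L, ∀ t, |t - a| ≤ 2 * c →
      a - 2 * c ≤ t + ∑ b ∈ L, ψ (t - b) ∧ t + ∑ b ∈ L, ψ (t - b) ≤ a + 2 * c := by
    intro a ha t ht
    obtain ⟨h1, h2⟩ := abs_le.1 ht
    rw [sum_cell h hψ ha ht]
    have a1 := hm (-(2 * c)) (t - a) le_rfl (by linarith) (by linarith)
    have a2 := hm (t - a) (2 * c) (by linarith) (by linarith) le_rfl
    rw [e2] at a1
    rw [e1] at a2
    constructor <;> linarith
  intro s t hst
  show s + ∑ b ∈ L, ψ (s - b) ≤ t + ∑ b ∈ L, ψ (t - b)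
  by_cases hs : ∃ a ∈ L, |s - a| ≤ 2 * c
  · obtain ⟨a, ha, hsa⟩ := hs
    by_cases hta : |t - a| ≤ 2 * c
    · rw [sum_cell h hψ ha hsa, sum_cell h hψ ha hta]
      have := hm (s - a) (t - a) (abs_le.1 hsa).1 (by linarith) (abs_le.1 hta).2
      linarith
    · have h3 : a + 2 * c < t := by
        rcases lt_abs.1 (not_le.1 hta) with h4 | h4
        · linarith
        · linarith [(abs_le.1 hsa).1]
      refine (hin a ha s hsa).2.trans ?_
      by_cases ht : ∃ b ∈ L, |t - b| ≤ 2 * c
      · obtain ⟨b, hb, htb⟩ := ht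
        refine le_trans ?_ (hin b hb t htb).1
        have hab : a < b := by
          by_contra h4
          have := (abs_le.1 htb).2
          linarith [not_lt.1 h4]
        exact h a ha b hb hab
      · push Not at ht
        rw [sum_off hψ fun b hb => (ht b hb).le, add_zero]
        exact h3.le
  · push Not at hs
    rw [sum_off hψ fun b hb => (hs b hb).le, add_zero]
    by_cases ht : ∃ b ∈ L, |t - b| ≤ 2 * c
    · obtain ⟨b, hb, htb⟩ := ht
      refine le_trans ?_ (hin b hb t htb).1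
      rcases lt_abs.1 (hs b hb) with h4 | h4
      · linarith [(abs_le.1 htb).2]
      · linarith
    · push Not at ht
      rw [sum_off hψ fun b hb => (ht b hb).le, add_zero]
      exact hst

/-- **the insertion map of one variable** -/
def qm (L : Finset ℝ) (c t : ℝ) : ℝ := t + ∑ b ∈ L, -tri c (t - b)

section
variable {L : Finset ℝ} {c : ℝ}

theorem tri_supp (hc : 0 ≤ c) : ∀ r, 2 * c ≤ |r| → -tri c r = 0 := fun r h => by
  rw [tri_of_abs_ge hc h, neg_zero]

theorem qm_cell (hc : 0 ≤ c) (h : Sepd L c) {a : ℝ} (ha : a ∈ L) {t : ℝ}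
    (ht : |t - a| ≤ 2 * c) : qm L c t = t - tri c (t - a) := by
  unfold qm
  rw [sum_cell (ψ := fun r => -tri c r) h (tri_supp hc) ha ht]; ring

/-- explicit formula on a cell -/
theorem qm_flat (hc : 0 ≤ c) (h : Sepd L c) {a : ℝ} (ha : a ∈ L) {t : ℝ}
    (ht : |t - a| ≤ c) : qm L c t = a := by
  rw [qm_cell hc h ha (by linarith), tri_of_abs_le ht]; ring

theorem qm_right (hc : 0 ≤ c) (h : Sepd L c) {a : ℝ} (ha : a ∈ L) {t : ℝ}
    (h1 : a + c ≤ t) (h2 : t ≤ a + 2 * c) : qm L c t = a + 2 * (t - a - c) := by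
  rw [qm_cell hc h ha (abs_le.2 ⟨by linarith, by linarith⟩),
    tri_of_mem hc (by linarith) (by linarith)]
  ring

theorem qm_left (hc : 0 ≤ c) (h : Sepd L c) {a : ℝ} (ha : a ∈ L) {t : ℝ}
    (h1 : a - 2 * c ≤ t) (h2 : t ≤ a - c) : qm L c t = a + 2 * (t - a + c) := by
  rw [qm_cell hc h ha (abs_le.2 ⟨by linarith, by linarith⟩)]
  have := tri_of_mem (r := -(t - a)) hc (by linarith) (by linarith)
  rw [tri_neg] at this
  linarith

theorem qm_off (hc : 0 ≤ c) {t : ℝ} (ht : ∀ a ∈ L, 2 * c ≤ |t - a|) : qm L c t = t := by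
  unfold qm
  rw [sum_off (ψ := fun r => -tri c r) (tri_supp hc) ht, add_zero]

/-- cells are preserved -/
theorem qm_mem_cell (hc : 0 ≤ c) (h : Sepd L c) {a : ℝ} (ha : a ∈ L) {t : ℝ}
    (ht : |t - a| ≤ 2 * c) : |qm L c t - a| ≤ 2 * c := by
  rw [qm_cell hc h ha ht]
  obtain ⟨h1, h2⟩ := abs_le.1 ht
  have e1 : tri c (2 * c) = 0 := tri_of_ge hc le_rfl
  have e2 : tri c (-(2 * c)) = 0 := by rw [tri_neg, e1, neg_zero]
  have a1 := sub_tri_mono hc le_rfl h1 h2
  have a2 := sub_tri_mono hc h1 h2 le_rfl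
  rw [e2] at a1
  rw [e1] at a2
  exact abs_le.2 ⟨by linarith, by linarith⟩

theorem qm_mem_cell_iff (hc : 0 ≤ c) (h : Sepd L c) {a : ℝ} (ha : a ∈ L) {t : ℝ} :
    (∃ b ∈ L, |t - b| ≤ 2 * c ∧ |qm L c t - b| ≤ 2 * c) ∨
      (qm L c t = t ∧ 2 * c < |t - a|) := by
  by_cases ht : ∃ b ∈ L, |t - b| ≤ 2 * c
  · obtain ⟨b, hb, hbt⟩ := ht
    exact Or.inl ⟨b, hb, hbt, qm_mem_cell hc h hb hbt⟩
  · push Not at ht
    exact Or.inr ⟨qm_off hc fun b hb => (ht b hb).le, ht a ha⟩

theorem abs_qm_sub_le (hc : 0 ≤ c) (h : Sepd L c) (t : ℝ) : |qm L c t - t| ≤ c := by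
  by_cases ht : ∃ b ∈ L, |t - b| ≤ 2 * c
  · obtain ⟨b, hb, hbt⟩ := ht
    rw [qm_cell hc h hb hbt]
    have : t - tri c (t - b) - t = - tri c (t - b) := by ring
    rw [this, abs_neg]
    exact abs_tri_le hc
  · push Not at ht
    rw [qm_off hc fun b hb => (ht b hb).le, sub_self, abs_zero]
    exact hc

theorem qm_monotone (hc : 0 ≤ c) (h : Sepd L c) : Monotone (qm L c) :=
  cell_mono (ψ := fun r => -tri c r) hc h (tri_supp hc) fun r r' h1 h2 h3 => by
    have := sub_tri_mono hc h1 h2 h3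
    linarith

/-- `qm` is `2`-Lipschitz -/
theorem abs_qm_sub_qm_le (hc : 0 ≤ c) (h : Sepd L c) (s t : ℝ) :
    |qm L c s - qm L c t| ≤ 2 * |s - t| := by
  have h1 : Monotone fun t : ℝ => t + ∑ b ∈ L, tri c (t - b) :=
    cell_mono (ψ := fun r => tri c r) hc h (fun r hr => tri_of_abs_ge hc hr)
      fun r r' h1 h2 h3 => add_tri_mono hc h1 h2 h3
  have h2 : ∀ t, t + ∑ b ∈ L, tri c (t - b) = 2 * t - qm L c t := by
    intro t
    unfold qm
    rw [Finset.sum_neg_distrib]
    ring
  wlog hst : s ≤ t generalizing s t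
  · rw [abs_sub_comm, abs_sub_comm s t]
    exact this t s (le_of_not_ge hst)
  have h3 := h1 hst
  simp only [h2] at h3
  have h4 := qm_monotone hc h hst
  rw [abs_of_nonpos (by linarith), abs_of_nonpos (by linarith)]
  linarith

theorem qm_continuous (L : Finset ℝ) (c : ℝ) : Continuous (qm L c) := by
  unfold qm
  have := tri_continuous c
  fun_prop

theorem qm_conicalOn (L : Finset ℝ) (c : ℝ) : ConicalOn (qm L c) univ := by
  classical
  have hu : ConicalSet (univ : Set ℝ) := isOpen_univ.conicalSet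
  have hid : ConicalOn (fun r : ℝ => r) univ := conicalOn_id hu
  have h1 : ∀ b : ℝ, ConicalOn (fun t : ℝ => -tri c (t - b)) univ := fun b =>
    (ConicalOn.comp (g := tri c) (tri_conicalOn c) (hid.sub (conicalOn_const b hu))
      (mapsTo_univ _ _) (by fun_prop)).neg
  have h2 : ∀ L : Finset ℝ, ConicalOn (fun t : ℝ => ∑ b ∈ L, -tri c (t - b)) univ := by
    intro L
    induction L using Finset.induction_on with
    | empty => simpa using conicalOn_const (0:ℝ) hu
    | insert a s ha ih =>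
      simp only [Finset.sum_insert ha]
      exact (h1 a).add ih
  exact hid.add (h2 L)

/-- the flats -/
theorem qm_eq_iff (hc : 0 < c) (h : Sepd L c) {a : ℝ} (ha : a ∈ L) (t : ℝ) :
    qm L c t = a ↔ t ∈ Icc (a - c) (a + c) := by
  constructor
  · intro ht
    have hta : |t - a| ≤ 2 * c := by
      by_contra hcon
      rcases qm_mem_cell_iff hc.le h ha (t := t) with ⟨b, hb, h1, h2⟩ | ⟨h1, -⟩
      · have hba : b ≠ a := by rintro rfl; exact hcon h1
        rw [ht] at h2
        have := h.two_le_abs hb ha hba.symm h2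
        rw [sub_self, abs_zero] at this
        linarith
      · rw [ht] at h1
        rw [← h1, sub_self, abs_zero] at hcon
        exact hcon (by linarith)
    by_contra hcon
    obtain ⟨h1, h2⟩ := abs_le.1 hta
    rw [mem_Icc, not_and_or, not_le, not_le] at hcon
    rcases hcon with h3 | h3
    · rw [qm_left hc.le h ha (by linarith) h3.le] at ht
      linarith
    · rw [qm_right hc.le h ha h3.le (by linarith)] at ht
      linarith
  · rintro ⟨h1, h2⟩
    exact qm_flat hc.le h ha (abs_le.2 ⟨by linarith, by linarith⟩)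

/-- injective off the flats -/
theorem qm_inj (hc : 0 < c) (h : Sepd L c) {t t' : ℝ} (htt : qm L c t = qm L c t')
    (hL : qm L c t ∉ L) : t = t' := by
  have key : ∀ t, qm L c t ∉ L → t = qm L c t +
      ∑ b ∈ L, (fun r => if 2 * c ≤ |r| then 0 else -(r / 2) + c * SignType.sign r) (qm L c t - b) := by
    intro t ht
    have hψ : ∀ r : ℝ, 2 * c ≤ |r| →
        (fun r => if 2 * c ≤ |r| then (0:ℝ) else -(r / 2) + c * SignType.sign r) r = 0 :=
      fun r hr => if_pos hr
    by_cases hcell : ∃ a ∈ L, |t - a| ≤ 2 * c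
    · obtain ⟨a, ha, hta⟩ := hcell
      have h1 := qm_mem_cell hc.le h ha hta
      rw [sum_cell h hψ ha h1]
      have h2 : ¬ |t - a| ≤ c := fun h2 => ht (by rw [qm_flat hc.le h ha h2]; exact ha)
      obtain ⟨h3, h4⟩ := abs_le.1 hta
      rcases lt_abs.1 (not_le.1 h2) with h5 | h5
      · have e := qm_right hc.le h ha (t := t) (by linarith) (by linarith)
        rw [e]
        have e1 : a + 2 * (t - a - c) - a = 2 * (t - a - c) := by ring
        rw [e1]
        have e2 : (0:ℝ) < 2 * (t - a - c) := by linarith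
        rw [sign_pos e2]
        split_ifs with h6
        · rw [abs_of_pos e2] at h6; linarith
        · simp; ring
      · have e := qm_left hc.le h ha (t := t) (by linarith) (by linarith)
        rw [e]
        have e1 : a + 2 * (t - a + c) - a = 2 * (t - a + c) := by ring
        rw [e1]
        have e2 : 2 * (t - a + c) < 0 := by linarith
        rw [sign_neg e2]
        split_ifs with h6
        · rw [abs_of_neg e2] at h6; linarith
        · simp; ring
    · push Not at hcell
      have e := qm_off (t := t) hc.le fun b hb => (hcell b hb).le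
      rw [e, sum_off hψ fun b hb => (hcell b hb).le, add_zero]
  rw [key t hL, key t' (htt ▸ hL), htt]

theorem qm_surjective (hc : 0 ≤ c) (h : Sepd L c) : Function.Surjective (qm L c) := by
  intro s
  have h1 := (abs_le.1 (abs_qm_sub_le hc h (s - c))).2
  have h2 := (abs_le.1 (abs_qm_sub_le hc h (s + c))).1
  have h3 : s ∈ Icc (qm L c (s - c)) (qm L c (s + c)) := ⟨by linarith, by linarith⟩
  obtain ⟨t, -, ht⟩ := intermediate_value_Icc (by linarith : s - c ≤ s + c)
    (qm_continuous L c).continuousOn h3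
  exact ⟨t, ht⟩

end

end P073.H236
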