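import Vale.Agent.P073.H236.Stair2

/-!
# P073, H236, STAIR (S): the staircase

`stair N al be lo hi T T'`: the piecewise linear homeomorphism of the line which maps the flat
`[lo k, hi k]` onto `[T k, T' k]` (`k < N`), is affine on the gaps, and the identity off `(al, be)`.
-/

open Set Metric Topology Filter

namespace P073.H236

open P073

/-- flats `[lo k, hi k]`, `k < N`, in `(al, be)`, with gaps -/
structure Arr (N : ℕ) (al be : ℝ) (lo hi : ℕ → ℝ) : Prop where
  pos : 0 < N
  first : al < lo 0
  lt : ∀ k < N, lo k < hi k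
  gap : ∀ k, k + 1 < N → hi k < lo (k + 1)
  last : hi (N - 1) < be

/-- the sequence of breakpoints -/
def bp (N : ℕ) (al be : ℝ) (lo hi : ℕ → ℝ) (i : ℕ) : ℝ :=
  if i = 0 then al else if 2 * N < i then be else if i % 2 = 1 then lo (i / 2) else hi (i / 2 - 1)

section
variable {N : ℕ} {al be : ℝ} {lo hi T T' : ℕ → ℝ}

@[simp] theorem bp_zero : bp N al be lo hi 0 = al := rfl

theorem bp_odd {k : ℕ} (hk : k < N) : bp N al be lo hi (2 * k + 1) = lo k := by
  unfold bp
  rw [if_neg (by omega), if_neg (by omega), if_pos (by omega)]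
  congr 1; omega

theorem bp_even {k : ℕ} (hk : k < N) : bp N al be lo hi (2 * k + 2) = hi k := by
  unfold bp
  rw [if_neg (by omega), if_neg (by omega), if_neg (by omega)]
  congr 1; omega

@[simp] theorem bp_last : bp N al be lo hi (2 * N + 1) = be := by
  unfold bp
  rw [if_neg (by omega), if_pos (by omega)]

theorem Arr.inc (h : Arr N al be lo hi) : Inc (2 * N + 1) (bp N al be lo hi) := by
  have hN := h.pos
  intro j hj
  rcases Nat.even_or_odd' j with ⟨k, rfl | rfl⟩
  · rcases Nat.eq_zero_or_pos k with hk | hk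
    · subst hk
      have := bp_odd (al := al) (be := be) (lo := lo) (hi := hi) hN
      simp only [mul_zero, zero_add] at this ⊢
      rw [this, bp_zero]
      exact h.first
    · obtain ⟨l, rfl⟩ := Nat.exists_eq_succ_of_ne_zero hk.ne'
      have e1 : 2 * l.succ = 2 * l + 2 := by omega
      rw [e1, bp_even (by omega)]
      rcases Nat.lt_or_ge l.succ N with h1 | h1
      · have e2 : 2 * l + 2 + 1 = 2 * (l + 1) + 1 := by omega
        rw [e2, bp_odd (by omega)]
        exact h.gap l h1
      · have h2 : l.succ = N := by omega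
        have e2 : 2 * l + 2 + 1 = 2 * N + 1 := by omega
        rw [e2, bp_last]
        have e3 : l = N - 1 := by omega
        rw [e3]
        exact h.last
  · have e : 2 * k + 1 + 1 = 2 * k + 2 := by omega
    rw [e, bp_odd (by omega), bp_even (by omega)]
    exact h.lt k (by omega)

/-- the staircase -/
noncomputable def stair (N : ℕ) (al be : ℝ) (lo hi T T' : ℕ → ℝ) : ℝ → ℝ :=
  pl (2 * N + 1) (bp N al be lo hi) (bp N al be T T')

theorem stair_continuous : Continuous (stair N al be lo hi T T') := pl_continuous _ _ _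

theorem stair_conicalOn : ConicalOn (stair N al be lo hi T T') univ := pl_conicalOn _ _ _

theorem stair_strictMono (h : Arr N al be lo hi) (h' : Arr N al be T T') :
    StrictMono (stair N al be lo hi T T') := pl_strictMono h.inc h'.inc

/-- the inverse is the staircase with the roles exchanged -/
theorem stair_stair (h : Arr N al be lo hi) (h' : Arr N al be T T') (t : ℝ) :
    stair N al be T T' lo hi (stair N al be lo hi T T' t) = t := pl_pl h.inc h'.inc t

/-- on the flats -/
theorem stair_flat (h : Arr N al be lo hi) {k : ℕ} (hk : k < N) {t : ℝ}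
    (ht : t ∈ Icc (lo k) (hi k)) :
    stair N al be lo hi T T' t = T k + (T' k - T k) / (hi k - lo k) * (t - lo k) := by
  have e : 2 * k + 1 + 1 = 2 * k + 2 := by omega
  unfold stair
  rw [pl_piece h.inc (by omega : 2 * k + 1 < 2 * N + 1) (by rw [bp_odd hk]; exact ht.1)
    (by rw [e, bp_even hk]; exact ht.2)]
  unfold slp
  rw [e, bp_odd hk, bp_even hk, bp_odd hk, bp_even hk]

/-- on the gaps -/
theorem stair_gap (h : Arr N al be lo hi) {k : ℕ} (hk : k + 1 < N) {t : ℝ}
    (ht : t ∈ Icc (hi k) (lo (k + 1))) : stair N al be lo hi T T' t =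
      T' k + (T (k + 1) - T' k) / (lo (k + 1) - hi k) * (t - hi k) := by
  have e : 2 * k + 2 + 1 = 2 * (k + 1) + 1 := by omega
  unfold stair
  rw [pl_piece h.inc (by omega : 2 * k + 2 < 2 * N + 1) (by rw [bp_even (by omega)]; exact ht.1)
    (by rw [e, bp_odd hk]; exact ht.2)]
  unfold slp
  rw [e, bp_odd hk, bp_even (by omega), bp_odd hk, bp_even (by omega)]

theorem stair_of_le (h : Arr N al be lo hi) {t : ℝ} (ht : t ≤ al) :
    stair N al be lo hi T T' t = t := by
  unfold stair
  rw [pl_of_le h.inc (by rw [bp_zero]; exact ht), bp_zero, bp_zero]; ring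

theorem stair_of_ge (h : Arr N al be lo hi) {t : ℝ} (ht : be ≤ t) :
    stair N al be lo hi T T' t = t := by
  unfold stair
  rw [pl_of_ge h.inc (by rw [bp_last]; exact ht), bp_last, bp_last]; ring

/-- the slopes -/
theorem slp_odd {k : ℕ} (hk : k < N) : slp (bp N al be lo hi) (bp N al be T T') (2 * k + 1) =
    (T' k - T k) / (hi k - lo k) := by
  have e : 2 * k + 1 + 1 = 2 * k + 2 := by omega
  unfold slp
  rw [e, bp_odd hk, bp_even hk, bp_odd hk, bp_even hk]

theorem slp_even {k : ℕ} (hk : k + 1 < N) : slp (bp N al be lo hi) (bp N al be T T') (2 * k + 2) =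
    (T (k + 1) - T' k) / (lo (k + 1) - hi k) := by
  have e : 2 * k + 2 + 1 = 2 * (k + 1) + 1 := by omega
  unfold slp
  rw [e, bp_odd hk, bp_even (by omega), bp_odd hk, bp_even (by omega)]

theorem slp_first (hN : 0 < N) : slp (bp N al be lo hi) (bp N al be T T') 0 =
    (T 0 - al) / (lo 0 - al) := by
  have h1 := bp_odd (al := al) (be := be) (lo := lo) (hi := hi) hN
  have h2 := bp_odd (al := al) (be := be) (lo := T) (hi := T') hN
  simp only [mul_zero, zero_add] at h1 h2
  unfold slp
  rw [zero_add, h1, h2, bp_zero, bp_zero]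

theorem slp_last (hN : 0 < N) : slp (bp N al be lo hi) (bp N al be T T') (2 * N) =
    (be - T' (N - 1)) / (be - hi (N - 1)) := by
  have e : 2 * N = 2 * (N - 1) + 2 := by omega
  have e1 : bp N al be lo hi (2 * N) = hi (N - 1) := by rw [e, bp_even (by omega)]
  have e2 : bp N al be T T' (2 * N) = T' (N - 1) := by rw [e, bp_even (by omega)]
  unfold slp
  rw [e1, e2, bp_last, bp_last]

/-- all pieces -/
theorem piece_cases {P : ℕ → Prop} (hN : 0 < N) (h0 : P 0) (hodd : ∀ k < N, P (2 * k + 1))
    (heven : ∀ k, k + 1 < N → P (2 * k + 2)) (hlast : P (2 * N)) : ∀ j < 2 * N + 1, P j := by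
  intro j hj
  rcases Nat.even_or_odd' j with ⟨k, rfl | rfl⟩
  · rcases Nat.eq_zero_or_pos k with hk | hk
    · subst hk; simpa using h0
    · obtain ⟨l, rfl⟩ := Nat.exists_eq_succ_of_ne_zero hk.ne'
      rcases Nat.lt_or_ge l.succ N with h1 | h1
      · have := heven l h1
        have e : 2 * l.succ = 2 * l + 2 := by omega
        rwa [e]
      · have e : l.succ = N := by omega
        rwa [e]
  · exact hodd k (by omega)

/-- **Lipschitz bound** -/
theorem abs_stair_sub_le (h : Arr N al be lo hi) (h' : Arr N al be T T') {L : ℝ} (hL : 1 ≤ L)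
    (h0 : (T 0 - al) / (lo 0 - al) ≤ L) (h1 : ∀ k < N, (T' k - T k) / (hi k - lo k) ≤ L)
    (h2 : ∀ k, k + 1 < N → (T (k + 1) - T' k) / (lo (k + 1) - hi k) ≤ L)
    (h3 : (be - T' (N - 1)) / (be - hi (N - 1)) ≤ L) (s t : ℝ) :
    |stair N al be lo hi T T' s - stair N al be lo hi T T' t| ≤ L * |s - t| := by
  refine abs_pl_sub_le h.inc (fun j hj => (h'.inc j hj).le) hL ?_ s t
  refine piece_cases h.pos ?_ ?_ ?_ ?_
  · rw [slp_first h.pos]; exact h0
  · intro k hk; rw [slp_odd hk]; exact h1 k hk
  · intro k hk; rw [slp_even hk]; exact h2 k hk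
  · rw [slp_last h.pos]; exact h3

/-- displacement -/
theorem abs_stair_sub_self_le (h : Arr N al be lo hi) {D : ℝ} (hD : 0 ≤ D)
    (h1 : ∀ k < N, |T k - lo k| ≤ D) (h2 : ∀ k < N, |T' k - hi k| ≤ D) (t : ℝ) :
    |stair N al be lo hi T T' t - t| ≤ D := by
  refine abs_pl_sub_self_le h.inc ?_ t
  intro j hj
  rcases hj.lt_or_eq with h3 | h3
  · refine piece_cases (P := fun j => |bp N al be T T' j - bp N al be lo hi j| ≤ D) h.pos
      ?_ ?_ ?_ ?_ j h3
    · simp only [bp_zero, sub_self, abs_zero]; exact hD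
    · intro k hk; simp only [bp_odd hk]; exact h1 k hk
    · intro k hk; simp only [bp_even (show k < N by omega)]; exact h2 k (by omega)
    · have e : 2 * N = 2 * (N - 1) + 2 := by have := h.pos; omega
      have h4 : N - 1 < N := by have := h.pos; omega
      show |bp N al be T T' (2 * N) - bp N al be lo hi (2 * N)| ≤ D
      rw [e, bp_even h4, bp_even h4]
      exact h2 _ h4
  · subst h3
    rw [bp_last, bp_last, sub_self, abs_zero]; exact hD

theorem Arr.lo_zero_le (h : Arr N al be lo hi) {j : ℕ} (hj1 : 1 ≤ j) (hj : j ≤ 2 * N + 1) :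
    lo 0 ≤ bp N al be lo hi j := by
  have e := bp_odd (al := al) (be := be) (lo := lo) (hi := hi) h.pos
  rw [mul_zero, zero_add] at e
  rw [← e]
  exact h.inc.mono hj1 hj

/-- **the staircase in the level zone**: `s` moves by at most the flat parts plus `ι` times the
rest -/
theorem abs_stair_sub_le_sum (h : Arr N al be lo hi) (h' : Arr N al be T T') {ι : ℝ}
    (hι : 0 ≤ ι) (hgap : ∀ k, k + 1 < N → (T (k + 1) - T' k) / (lo (k + 1) - hi k) ≤ ι)
    {s t : ℝ} (hs : s ∈ Icc (lo 0) (hi (N - 1))) (ht : t ∈ Icc (lo 0) (hi (N - 1))) :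
    |stair N al be lo hi T T' s - stair N al be lo hi T T' t| ≤
      ∑ k ∈ Finset.range N, (T' k - T k) / (hi k - lo k) *
        |clam (lo k) (hi k) s - clam (lo k) (hi k) t| + ι * |s - t| := by
  classical
  have hN := h.pos
  -- the pieces which are not gaps
  set J : Finset ℕ := insert 0 (insert (2 * N) ((Finset.range N).image fun k => 2 * k + 1)) with hJ
  have hJg : ∀ j < 2 * N + 1, j ∉ J → slp (bp N al be lo hi) (bp N al be T T') j ≤ ι := by
    refine piece_cases (P := fun j => j ∉ J → slp (bp N al be lo hi) (bp N al be T T') j ≤ ι)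
      hN ?_ ?_ ?_ ?_
    · intro h1; exact absurd (by simp [hJ]) h1
    · intro k hk h1
      refine absurd ?_ h1
      simp only [hJ, Finset.mem_insert, Finset.mem_image, Finset.mem_range]
      exact Or.inr (Or.inr ⟨k, hk, rfl⟩)
    · intro k hk _
      rw [slp_even hk]; exact hgap k hk
    · intro h1; exact absurd (by simp [hJ]) h1
  have hx0 : bp N al be lo hi 0 = al := bp_zero
  have hxn : bp N al be lo hi (2 * N + 1) = be := bp_last
  have hlast := h.last
  have hfirst := h.first
  have key := abs_pl_sub_le_sum h.inc (fun j hj => (h'.inc j hj).le) J hι hJg (s := s) (t := t)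
    (by rw [hx0, hxn]; exact ⟨by linarith [hs.1], by linarith [hs.2]⟩)
    (by rw [hx0, hxn]; exact ⟨by linarith [ht.1], by linarith [ht.2]⟩)
  refine key.trans (add_le_add_left ?_ _)
  -- the sum over `J`
  set f : ℕ → ℝ := fun j => slp (bp N al be lo hi) (bp N al be T T') j *
    |clam (bp N al be lo hi j) (bp N al be lo hi (j + 1)) s -
      clam (bp N al be lo hi j) (bp N al be lo hi (j + 1)) t| with hf
  have hf0 : f 0 = 0 := by
    have e := bp_odd (al := al) (be := be) (lo := lo) (hi := hi) hN
    rw [mul_zero, zero_add] at e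
    simp only [hf, zero_add, e, bp_zero]
    rw [clam_of_ge hfirst.le hs.1, clam_of_ge hfirst.le ht.1, sub_self, abs_zero, mul_zero]
  have hfl : f (2 * N) = 0 := by
    have e : 2 * N = 2 * (N - 1) + 2 := by omega
    have e1 : bp N al be lo hi (2 * N) = hi (N - 1) := by rw [e, bp_even (by omega)]
    simp only [hf, e1]
    rw [clam_of_le hs.2, clam_of_le ht.2, sub_self, abs_zero, mul_zero]
  have hsum : ∑ j ∈ Finset.range (2 * N + 1) with j ∈ J, f j =
      ∑ j ∈ (Finset.range N).image (fun k => 2 * k + 1), f j := by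
    symm
    apply Finset.sum_subset
    · intro j hj
      rw [Finset.mem_filter, Finset.mem_range]
      have hj2 := hj
      rw [Finset.mem_image] at hj
      obtain ⟨k, hk, rfl⟩ := hj
      rw [Finset.mem_range] at hk
      refine ⟨by omega, ?_⟩
      rw [hJ, Finset.mem_insert, Finset.mem_insert]
      exact Or.inr (Or.inr hj2)
    · intro j hj hj2
      rw [Finset.mem_filter, hJ, Finset.mem_insert, Finset.mem_insert] at hj
      rcases hj.2 with h1 | h1 | h1
      · rw [h1]; exact hf0
      · rw [h1]; exact hfl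
      · exact absurd h1 hj2
  show ∑ j ∈ Finset.range (2 * N + 1) with j ∈ J, f j ≤ _
  rw [hsum, Finset.sum_image (by intro a _ b _ hab; simp only at hab; omega)]
  apply Finset.sum_le_sum
  intro k hk
  rw [Finset.mem_range] at hk
  have e : 2 * k + 1 + 1 = 2 * k + 2 := by omega
  simp only [hf]
  rw [slp_odd hk, e, bp_odd hk, bp_even hk]

end

end P073.H236
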