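import Vale.Agent.P073.H579.FaceMet
import Vale.Agent.P073.H236.Stair1
import Vale.Agent.P073.H236.Stair3

/-!
# P073, H236, STAIR: the maps `Q` and `S` of one variable, in the form of `H579.Ins1`
-/

open Set Metric Topology Filter

namespace P073.H236

open P073

section
variable {L : Finset ℝ} {c : ℝ}

/-- **(Q)** the insertion map of one variable -/
theorem ins1_qm (hc : 0 < c) (h : Sepd L c) :
    H579.Ins1 (qm L c) (L : Set ℝ) (fun a => a - c) (fun a => a + c) where
  mono := qm_monotone hc.le h
  cont := qm_continuous L c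
  con := qm_conicalOn L c
  surj := qm_surjective hc.le h
  bdd := ⟨c, abs_qm_sub_le hc.le h⟩
  lt := fun a _ => by linarith
  flat := fun _ ha t => qm_eq_iff hc h ha t
  inj := fun _ _ htt hL => qm_inj hc h htt hL

/-- the length of a flat below `t` -/
noncomputable def fl (c a t : ℝ) : ℝ := H579.rho (fun a => a - c) (fun a => a + c) a t

theorem fl_def (c a t : ℝ) : fl c a t = max 0 (min (2 * c) (t - a + c)) := by
  unfold fl H579.rho
  congr 2 <;> ring

theorem fl_of_le {a t : ℝ} (h : t ≤ a - c) : fl c a t = 0 := by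
  rw [fl_def]; exact max_eq_left (min_le_of_right_le (by linarith))

theorem fl_of_ge {a t : ℝ} (hc : 0 ≤ c) (h : a + c ≤ t) : fl c a t = 2 * c := by
  rw [fl_def, min_eq_left (by linarith), max_eq_right (by linarith)]

theorem fl_of_mem {a t : ℝ} (h1 : a - c ≤ t) (h2 : t ≤ a + c) : fl c a t = t - a + c := by
  rw [fl_def, min_eq_right (by linarith), max_eq_right (by linarith)]

theorem fl_mono (c a : ℝ) : Monotone (fl c a) := fun s t h => by
  rw [fl_def, fl_def]
  exact max_le_max le_rfl (min_le_min le_rfl (by linarith))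

theorem fl_sub_le (c a : ℝ) {s t : ℝ} (h : s ≤ t) : fl c a t - fl c a s ≤ t - s := by
  rw [fl_def, fl_def]
  have h1 : max 0 (min (2 * c) (t - a + c)) ≤
      max (0 + (t - s)) (min (2 * c + (t - s)) (s - a + c + (t - s))) :=
    max_le_max (by linarith) (min_le_min (by linarith) (by linarith))
  rw [min_add_add_right, max_add_add_right] at h1
  linarith

theorem fl_eq_clam (c a t : ℝ) : fl c a t = clam (a - c) (a + c) t := by
  rw [fl_def]
  unfold clam
  rw [min_comm]
  congr 2 <;> ring

/-- the total length of the flats between `s` and `t` is at most `t - s` -/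
theorem sum_fl_sub_le (hc : 0 ≤ c) (h : Sepd L c) {s t : ℝ} (hst : s ≤ t) :
    ∑ a ∈ L, fl c a t - ∑ a ∈ L, fl c a s ≤ t - s := by
  classical
  induction L using Finset.induction_on_max generalizing s t with
  | empty => simpa using hst
  | insert a L ha ih =>
    have haL : a ∉ L := fun h1 => lt_irrefl a (ha a h1)
    have h' : Sepd L c := fun x hx y hy hxy => h x (Finset.mem_insert_of_mem hx) y
      (Finset.mem_insert_of_mem hy) hxy
    rw [Finset.sum_insert haL, Finset.sum_insert haL]
    -- all flats of `L` are to the left of `a - c`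
    have hleft : ∀ r, a - c ≤ r → ∑ b ∈ L, fl c b r = ∑ b ∈ L, 2 * c := by
      intro r hr
      refine Finset.sum_congr rfl fun b hb => fl_of_ge hc ?_
      have := h b (Finset.mem_insert_of_mem hb) a (Finset.mem_insert_self _ _) (ha b hb)
      linarith
    rcases le_total t (a - c) with h1 | h1
    · rw [fl_of_le h1, fl_of_le (hst.trans h1), zero_add, zero_add]
      exact ih h' hst
    · rcases le_total (a - c) s with h2 | h2
      · rw [hleft t h1, hleft s h2]
        have := fl_sub_le c a hst
        linarith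
      · have e1 := ih h' h2
        have e2 := fl_sub_le c a h1
        rw [hleft _ le_rfl] at e1
        rw [hleft t h1, fl_of_le h2]
        rw [fl_of_le le_rfl] at e2
        linarith

/-- each flat plus the corresponding ramps -/
theorem fl_sub_tri_mono (hc : 0 ≤ c) (a : ℝ) {s t : ℝ} (hst : s ≤ t) :
    fl c a s - tri c (s - a) ≤ fl c a t - tri c (t - a) := by
  have e : ∀ r, fl c a r - tri c (r - a) =
      max 0 (min c (r - a + 2 * c)) + max 0 (min c (r - a - c)) := by
    intro r
    rcases le_total r (a - 2 * c) with h1 | h1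
    · rw [fl_of_le (by linarith), tri_of_abs_ge hc (le_abs.2 (Or.inr (by linarith))),
        max_eq_left (min_le_of_right_le (by linarith)),
        max_eq_left (min_le_of_right_le (by linarith))]
      ring
    · rcases le_total r (a - c) with h2 | h2
      · have h3 := tri_of_mem (r := -(r - a)) hc (by linarith) (by linarith)
        rw [tri_neg] at h3
        rw [fl_of_le h2, min_eq_right (by linarith), max_eq_right (by linarith),
          max_eq_left (min_le_of_right_le (by linarith))]
        linarith
      · rcases le_total r (a + c) with h3 | h3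
        · rw [fl_of_mem h2 h3, tri_of_abs_le (abs_le.2 ⟨by linarith, by linarith⟩),
            min_eq_left (by linarith), max_eq_right hc,
            max_eq_left (min_le_of_right_le (by linarith))]
          ring
        · rcases le_total r (a + 2 * c) with h4 | h4
          · rw [fl_of_ge hc h3, tri_of_mem hc (by linarith) (by linarith),
              min_eq_left (by linarith), max_eq_right hc,
              min_eq_right (by linarith), max_eq_right (by linarith)]
            ring
          · rw [fl_of_ge hc h3, tri_of_ge hc (by linarith),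
              min_eq_left (by linarith), max_eq_right hc,
              min_eq_left (by linarith), max_eq_right hc]
            ring
  rw [e, e]
  exact add_le_add (max_le_max le_rfl (min_le_min le_rfl (by linarith)))
    (max_le_max le_rfl (min_le_min le_rfl (by linarith)))

/-- **the gap bound of `Q`** (in the form of `H579.abs_sub_le`), with constant `1` -/
theorem qm_gap (hc : 0 ≤ c) (h : Sepd L c) (s t : ℝ) :
    |(s - ∑ a ∈ L, fl c a s) - (t - ∑ a ∈ L, fl c a t)| ≤ 1 * |qm L c s - qm L c t| := by
  wlog hst : t ≤ s generalizing s t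
  · rw [abs_sub_comm, abs_sub_comm (qm L c s)]
    exact this t s (le_of_not_ge hst)
  have h1 := sum_fl_sub_le hc h hst
  have h2 : ∑ a ∈ L, (fl c a t - tri c (t - a)) ≤ ∑ a ∈ L, (fl c a s - tri c (s - a)) :=
    Finset.sum_le_sum fun a _ => fl_sub_tri_mono hc a hst
  simp only [Finset.sum_sub_distrib] at h2
  have h3 := qm_monotone hc h hst
  have e : ∀ r, qm L c r = r - ∑ a ∈ L, tri c (r - a) := by
    intro r; unfold qm; rw [Finset.sum_neg_distrib]; ring
  rw [one_mul, abs_of_nonneg (by linarith), abs_of_nonneg (by linarith), e, e]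
  linarith

end

/-- increasing levels `a k`, `k < N`, with cells `[a k - 2 c, a k + 2 c]` in `(al, be)` -/
structure Lvs (N : ℕ) (a : ℕ → ℝ) (c al be : ℝ) : Prop where
  pos : 0 < N
  c0 : 0 < c
  first : al < a 0 - 2 * c
  sep : ∀ k, k + 1 < N → a k + 2 * c ≤ a (k + 1) - 2 * c
  last : a (N - 1) + 2 * c < be

namespace Lvs

variable {N : ℕ} {a : ℕ → ℝ} {c al be : ℝ}

theorem add_le (h : Lvs N a c al be) {i j : ℕ} (hij : i < j) (hj : j < N) :
    a i + 2 * c ≤ a j - 2 * c := by
  induction j, hij using Nat.le_induction with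
  | base => exact h.sep i hj
  | succ j hij ih =>
    have h1 := ih (by omega)
    have h2 := h.sep j hj
    have h3 := h.c0
    linarith

theorem strictMono (h : Lvs N a c al be) {i j : ℕ} (hij : i < j) (hj : j < N) : a i < a j := by
  have := h.add_le hij hj
  have h3 := h.c0
  linarith

/-- the set of levels -/
noncomputable def L (_h : Lvs N a c al be) : Finset ℝ := (Finset.range N).image a

theorem mem_L (h : Lvs N a c al be) {b : ℝ} : b ∈ h.L ↔ ∃ k < N, a k = b := by
  classical
  simp [L]

theorem injOn (h : Lvs N a c al be) : Set.InjOn a (Finset.range N : Set ℕ) := by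
  intro i hi j hj hij
  rw [Finset.coe_range, mem_Iio] at hi hj
  rcases lt_trichotomy i j with h1 | h1 | h1
  · exact absurd hij (h.strictMono h1 hj).ne
  · exact h1
  · exact absurd hij (h.strictMono h1 hi).ne'

theorem sepd (h : Lvs N a c al be) : Sepd h.L c := by
  intro x hx y hy hxy
  obtain ⟨i, hi, rfl⟩ := h.mem_L.1 hx
  obtain ⟨j, hj, rfl⟩ := h.mem_L.1 hy
  refine h.add_le ?_ hj
  by_contra hcon
  rcases (not_lt.1 hcon).lt_or_eq with h1 | h1
  · exact absurd (h.strictMono h1 hi) (not_lt.2 hxy.le)
  · rw [h1] at hxy; exact lt_irrefl _ hxy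

theorem sum_L (h : Lvs N a c al be) (f : ℝ → ℝ) :
    ∑ b ∈ h.L, f b = ∑ k ∈ Finset.range N, f (a k) := by
  classical
  unfold L
  exact Finset.sum_image h.injOn

theorem first_le (h : Lvs N a c al be) {k : ℕ} (hk : k < N) : al < a k - 2 * c := by
  rcases Nat.eq_zero_or_pos k with h1 | h1
  · rw [h1]; exact h.first
  · have := h.add_le h1 hk
    have h2 := h.first
    have h3 := h.c0
    linarith

theorem le_last (h : Lvs N a c al be) {k : ℕ} (hk : k < N) : a k + 2 * c < be := by
  rcases (Nat.le_sub_one_of_lt hk).lt_or_eq with h1 | h1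
  · have := h.add_le h1 (by omega)
    have h2 := h.last
    have h3 := h.c0
    linarith
  · rw [h1]; exact h.last

/-- `Q` is the identity outside `(al, be)` -/
theorem qm_out (h : Lvs N a c al be) {t : ℝ} (ht : t ≤ al ∨ be ≤ t) : qm h.L c t = t := by
  refine qm_off h.c0.le fun b hb => ?_
  obtain ⟨k, hk, rfl⟩ := h.mem_L.1 hb
  have h1 := h.first_le hk
  have h2 := h.le_last hk
  have h3 := h.c0
  rcases ht with h4 | h4
  · exact le_abs.2 (Or.inr (by linarith))
  · exact le_abs.2 (Or.inl (by linarith))

/-- the flats -/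
theorem arr (h : Lvs N a c al be) : Arr N al be (fun k => a k - c) (fun k => a k + c) where
  pos := h.pos
  first := by have := h.first; have h3 := h.c0; linarith
  lt := fun k _ => by have h3 := h.c0; linarith
  gap := fun k hk => by have := h.sep k hk; have h3 := h.c0; linarith
  last := by have := h.last; have h3 := h.c0; linarith

end Lvs

/-- uniform targets `[t₀ + k om + e, t₀ + (k+1) om - e]` -/
theorem arr_uniform {N : ℕ} {al be t₀ om e : ℝ} (hN : 0 < N) (h1 : al < t₀ + e)
    (he : 0 < e) (heo : 2 * e < om) (h2 : t₀ + N * om - e < be) :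
    Arr N al be (fun k => t₀ + k * om + e) (fun k => t₀ + (k + 1) * om - e) where
  pos := hN
  first := by simpa using h1
  lt := fun k _ => by nlinarith
  gap := fun k _ => by push_cast; nlinarith
  last := by
    have : ((N - 1 : ℕ) : ℝ) + 1 = N := by
      rw [Nat.cast_sub hN]; simp
    show t₀ + (((N - 1 : ℕ) : ℝ) + 1) * om - e < be
    rw [this]; exact h2

/-- **(S)** the staircase: flats of `Q` to uniform targets -/
noncomputable def sm (N : ℕ) (a : ℕ → ℝ) (c al be t₀ om e : ℝ) : ℝ → ℝ :=
  stair N al be (fun k => a k - c) (fun k => a k + c)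
    (fun k => t₀ + k * om + e) (fun k => t₀ + (k + 1) * om - e)

/-- its inverse -/
noncomputable def smi (N : ℕ) (a : ℕ → ℝ) (c al be t₀ om e : ℝ) : ℝ → ℝ :=
  stair N al be (fun k => t₀ + k * om + e) (fun k => t₀ + (k + 1) * om - e)
    (fun k => a k - c) (fun k => a k + c)

/-- the hypotheses on the targets -/
structure Tgt (N : ℕ) (al be t₀ om e : ℝ) : Prop where
  first : al < t₀ + e
  e0 : 0 < e
  eo : 2 * e < om
  last : t₀ + N * om - e < be

section
variable {N : ℕ} {a : ℕ → ℝ} {c al be t₀ om e : ℝ}

theorem Tgt.arr (h : Tgt N al be t₀ om e) (hN : 0 < N) :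
    Arr N al be (fun k => t₀ + k * om + e) (fun k => t₀ + (k + 1) * om - e) :=
  arr_uniform hN h.first h.e0 h.eo h.last

theorem sm_continuous : Continuous (sm N a c al be t₀ om e) := stair_continuous
theorem sm_conicalOn : ConicalOn (sm N a c al be t₀ om e) univ := stair_conicalOn
theorem smi_continuous : Continuous (smi N a c al be t₀ om e) := stair_continuous
theorem smi_conicalOn : ConicalOn (smi N a c al be t₀ om e) univ := stair_conicalOn

theorem sm_strictMono (h : Lvs N a c al be) (h' : Tgt N al be t₀ om e) :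
    StrictMono (sm N a c al be t₀ om e) := stair_strictMono h.arr (h'.arr h.pos)

theorem smi_strictMono (h : Lvs N a c al be) (h' : Tgt N al be t₀ om e) :
    StrictMono (smi N a c al be t₀ om e) := stair_strictMono (h'.arr h.pos) h.arr

theorem smi_sm (h : Lvs N a c al be) (h' : Tgt N al be t₀ om e) (t : ℝ) :
    smi N a c al be t₀ om e (sm N a c al be t₀ om e t) = t := stair_stair h.arr (h'.arr h.pos) t

theorem sm_smi (h : Lvs N a c al be) (h' : Tgt N al be t₀ om e) (t : ℝ) :
    sm N a c al be t₀ om e (smi N a c al be t₀ om e t) = t := stair_stair (h'.arr h.pos) h.arr t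

theorem sm_out (h : Lvs N a c al be) {t : ℝ} (ht : t ≤ al ∨ be ≤ t) :
    sm N a c al be t₀ om e t = t := by
  rcases ht with h1 | h1
  · exact stair_of_le h.arr h1
  · exact stair_of_ge h.arr h1

theorem smi_out (h : Lvs N a c al be) (h' : Tgt N al be t₀ om e) {t : ℝ} (ht : t ≤ al ∨ be ≤ t) :
    smi N a c al be t₀ om e t = t := by
  rcases ht with h1 | h1
  · exact stair_of_le (h'.arr h.pos) h1
  · exact stair_of_ge (h'.arr h.pos) h1

/-- `S` on the flat of the level `a k` -/
theorem sm_flat (h : Lvs N a c al be) {k : ℕ} (hk : k < N) {t : ℝ} (ht : |t - a k| ≤ c) :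
    sm N a c al be t₀ om e t = t₀ + k * om + e + (om - 2 * e) / (2 * c) * (t - (a k - c)) := by
  obtain ⟨h1, h2⟩ := abs_le.1 ht
  unfold sm
  rw [stair_flat h.arr hk ⟨by linarith, by linarith⟩]
  congr 3 <;> ring

/-- displacement of `S` -/
theorem abs_sm_sub_self_le (h : Lvs N a c al be) {D : ℝ} (hD : 0 ≤ D)
    (h1 : ∀ k < N, |t₀ + k * om + e - (a k - c)| ≤ D)
    (h2 : ∀ k < N, |t₀ + (k + 1) * om - e - (a k + c)| ≤ D) (t : ℝ) :
    |sm N a c al be t₀ om e t - t| ≤ D := abs_stair_sub_self_le h.arr hD h1 h2 t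

/-- **global Lipschitz bound of `S`** -/
theorem abs_sm_sub_le (h : Lvs N a c al be) (h' : Tgt N al be t₀ om e) {A : ℝ} (hA : 1 ≤ A)
    (h0 : t₀ + e - al ≤ A * (a 0 - c - al)) (h1 : om ≤ A * (2 * c))
    (h3 : be - (t₀ + N * om - e) ≤ A * (be - (a (N - 1) + c))) (s t : ℝ) :
    |sm N a c al be t₀ om e s - sm N a c al be t₀ om e t| ≤ A * |s - t| := by
  have hc := h.c0
  have he := h'.e0
  have hN := h.pos
  have hcast : ((N - 1 : ℕ) : ℝ) + 1 = N := by
    rw [Nat.cast_sub hN]; simp
  refine abs_stair_sub_le h.arr (h'.arr h.pos) hA ?_ ?_ ?_ ?_ s t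
  · rw [div_le_iff₀ (by have := h.first; linarith)]
    simpa using h0
  · intro k hk
    rw [div_le_iff₀ (by linarith)]
    have : A * (a k + c - (a k - c)) = A * (2 * c) := by ring
    rw [this]
    have e1 : t₀ + ((k:ℝ) + 1) * om - e - (t₀ + k * om + e) = om - 2 * e := by ring
    rw [e1]; linarith
  · intro k hk
    have h5 := h.sep k hk
    rw [div_le_iff₀ (by linarith)]
    push_cast
    have e1 : t₀ + ((k:ℝ) + 1) * om + e - (t₀ + (k + 1) * om - e) = 2 * e := by ring
    rw [e1]
    have h6 := h'.eo
    nlinarith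
  · rw [div_le_iff₀ (by have := h.last; linarith)]
    show be - (t₀ + (((N - 1 : ℕ) : ℝ) + 1) * om - e) ≤ _
    rw [hcast]; exact h3

/-- **`S` in the level zone**: weights `om - 2 e` on the flats, and `e / c` times the rest -/
theorem abs_sm_sub_le_fl (h : Lvs N a c al be) (h' : Tgt N al be t₀ om e) {s t : ℝ}
    (hs : s ∈ Icc (a 0 - c) (a (N - 1) + c)) (ht : t ∈ Icc (a 0 - c) (a (N - 1) + c)) :
    |sm N a c al be t₀ om e s - sm N a c al be t₀ om e t| ≤
      (om - 2 * e) / (2 * c) * |∑ b ∈ h.L, fl c b s - ∑ b ∈ h.L, fl c b t| +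
        e / c * |s - t| := by
  have hc := h.c0
  have he := h'.e0
  have key := abs_stair_sub_le_sum h.arr (h'.arr h.pos) (ι := e / c) (by positivity) (by
    intro k hk
    have h5 := h.sep k hk
    rw [div_le_iff₀ (by linarith)]
    push_cast
    have e1 : t₀ + ((k:ℝ) + 1) * om + e - (t₀ + (k + 1) * om - e) = 2 * e := by ring
    rw [e1]
    have e2 : e / c * (2 * c) = 2 * e := by field_simp
    have h6 : 2 * c ≤ a (k + 1) - c - (a k + c) := by linarith
    calc 2 * e = e / c * (2 * c) := e2.symm
      _ ≤ e / c * (a (k + 1) - c - (a k + c)) := mul_le_mul_of_nonneg_left h6 (by positivity))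
    hs ht
  refine key.trans (le_of_eq ?_)
  congr 1
  have e3 : ∀ k ∈ Finset.range N, (t₀ + ((k:ℝ) + 1) * om - e - (t₀ + k * om + e)) /
      (a k + c - (a k - c)) * |clam (a k - c) (a k + c) s - clam (a k - c) (a k + c) t| =
      (om - 2 * e) / (2 * c) * |fl c (a k) s - fl c (a k) t| := by
    intro k _
    rw [fl_eq_clam, fl_eq_clam]
    congr 2 <;> ring
  rw [Finset.sum_congr rfl e3, ← Finset.mul_sum, h.sum_L, h.sum_L, ← Finset.sum_sub_distrib]
  congr 1
  rcases le_total s t with h1 | h1
  · rw [abs_of_nonpos (Finset.sum_nonpos fun k _ => sub_nonpos.2 (fl_mono c (a k) h1)),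
      ← Finset.sum_neg_distrib]
    exact Finset.sum_congr rfl fun k _ => abs_of_nonpos (sub_nonpos.2 (fl_mono c (a k) h1))
  · rw [abs_of_nonneg (Finset.sum_nonneg fun k _ => sub_nonneg.2 (fl_mono c (a k) h1))]
    exact Finset.sum_congr rfl fun k _ => abs_of_nonneg (sub_nonneg.2 (fl_mono c (a k) h1))

end

end P073.H236
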