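import Vale.Agent.P073.H236.Stage3E
import Vale.Agent.P073.H236.BoxData

/-!
# P073, H236, STAGE 3 (V): (T9) edges are vertical over the crossing points
-/

open Set Metric Topology Filter

namespace P073.H236

open P073 P073.H579

variable {ι : Type*} {Λ Ω : Set (Fin 3 → ℝ)} {F : BFam 3 ι Λ} {κ : (Fin 3 → ℝ) → Fin 3 → ℝ}
  {h g : ConHomeo Ω Λ} {S : ConHomeo Λ Λ} {b : ι} {k : ℕ} {u v : Fin 3 → ℝ}

/-- fibres of `κ` and of the product map over a level point of the full zone are the same -/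
theorem fib_iff (hκ : H345.IsQ F.B κ) (H : H345.Fam Λ F.B) {y : Fin 3 → ℝ} (hy : F.FullK b y)
    (hk : k < (F.B b).N) (hyk : y (F.B b).j = (F.B b).a k) {z : Fin 3 → ℝ} (hz : z ∈ Λ) :
    κ z = y ↔ prodK (kQ (F.B b)) z = y := by
  constructor
  · intro h1
    obtain ⟨h2, h3⟩ := fibK_of_isQ hκ H b y hy k hk hyk z hz h1
    have h4 : F.FullK b z := by rw [h2]; exact hy.update ((F.B b).flat_win hk h3)
    rw [← Q_eq_prodK h4.2, ← hκ.on b z h4.mem, h1]
  · intro h1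
    have h2 : ∀ i, i ≠ (F.B b).j → z i = y i := fun i hi => by
      rw [← h1, prodK_Q, Function.update_of_ne hi]
    have h3 : qm (F.B b).lvs.L (F.B b).c (z (F.B b).j) = (F.B b).a k := by
      rw [← hyk, ← h1, prodK_Q, Function.update_self]
    have h4 := (qm_eq_iff (F.B b).lvs.c0 (F.B b).lvs.sepd
      ((F.B b).lvs.mem_L.2 ⟨k, hk, rfl⟩) _).1 h3
    have h5 : F.FullK b z := by
      refine ⟨(F.B b).flat_win hk (abs_le.2 ⟨by linarith [h4.1], by linarith [h4.2]⟩),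
        fun i hi => ?_⟩
      rw [h2 i hi]; exact hy.2 i hi
    rw [hκ.on b z h5.mem, Q_eq_prodK h5.2, h1]

/-- the new edge over the crossing point `x` -/
structure VertOn (F : BFam 3 ι Λ) (b : ι) (k : ℕ) (h : (Fin 3 → ℝ) → Fin 3 → ℝ)
    (h1 : (Fin 3 → ℝ) → Fin 3 → ℝ) (u v : Fin 3 → ℝ) (La : ℝ) (x : Fin 3 → ℝ) (s2 s3 : ℝ)
    (ψ : ℝ → ℝ) : Prop where
  mem : x ∈ segment ℝ u v
  lev : h x (F.B b).j = (F.B b).a k
  full : F.FullK b (h x)
  pos : 0 < s2
  lt : s2 < s3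
  lt1 : s3 < 1
  eq : ∀ s ∈ Icc s2 s3, h1 (AffineMap.lineMap u v s) = Function.update (h x) (F.B b).j (ψ s)
  cont : ContinuousOn ψ (Icc s2 s3)
  inj : InjOn ψ (Icc s2 s3)
  img : ψ '' Icc s2 s3 = F.bd b k
  lip : ∀ s ∈ Icc s2 s3, ∀ s' ∈ Icc s2 s3, |ψ s - ψ s'| ≤ La * ‖v - u‖ * |s - s'|
  /-- the parameters over the band are those of `[s2, s3]` -/
  only : ∀ s ∈ Icc (0:ℝ) 1, ∀ t ∈ F.bd b k,
    h1 (AffineMap.lineMap u v s) = Function.update (h x) (F.B b).j t → s ∈ Icc s2 s3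

/-- **(T9)** -/
theorem exists_vertOn (hκ : H345.IsQ F.B κ) (H : H345.Fam Λ F.B) (hS : F.IsS S)
    (he : segment ℝ u v ⊆ Ω) (hX : g.toFun '' segment ℝ u v = Pre κ Λ h (segment ℝ u v))
    {La : ℝ} {f : (Fin 3 → ℝ) → Fin 3 → ℝ} (hf : EqOn g.toFun f (segment ℝ u v))
    {s1 s2 s3 s4 : (Fin 3 → ℝ) → ℝ}
    (HE : EdgeNum u v h.toFun (kQ (F.B b)) (LQ (F.B b)) (loQ (F.B b)) (hiQ (F.B b)) (omQ (F.B b))
      La f s1 s2 s3 s4)
    (hk : k < (F.B b).N) {s : ℝ} (hs : s ∈ Icc (0:ℝ) 1)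
    (hfull : F.FullK b ((g.trans S).toFun (AffineMap.lineMap u v s)))
    (hbd : (g.trans S).toFun (AffineMap.lineMap u v s) (F.B b).j ∈ F.bd b k) :
    ∃ x, s ∈ Icc (s2 x) (s3 x) ∧ VertOn F b k h.toFun (g.trans S).toFun u v La x (s2 x) (s3 x)
      (fun s => (g.trans S).toFun (AffineMap.lineMap u v s) (F.B b).j) := by
  classical
  set γ : ℝ → Fin 3 → ℝ := fun s => AffineMap.lineMap u v s with hγ
  have hγm : MapsTo γ (Icc 0 1) (segment ℝ u v) := fun s hs => lineMap_mem hs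
  have hγs : segment ℝ u v ⊆ γ '' Icc 0 1 := by rw [segment_eq_image_lineMap]
  have hFK := flatK_of_isQ hκ
  have hFb := fibK_of_isQ hκ H
  have hcrs : ∀ x ∈ segment ℝ u v, h.toFun x (F.B b).j = (F.B b).a k →
      CrsPt u v h.toFun (LQ (F.B b)) x := fun x hx hxk => crsPt_Q.2 ⟨hx, k, hk, hxk.symm⟩
  have hcrs' : ∀ x ∈ segment ℝ u v, ∀ l < (F.B b).N, h.toFun x (F.B b).j = (F.B b).a l →
      CrsPt u v h.toFun (LQ (F.B b)) x := fun x hx l hl hxk => crsPt_Q.2 ⟨hx, l, hl, hxk.symm⟩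
  obtain ⟨x, hx, hxk, hxF, h2, h3, hA, hB⟩ := exists_vertical (h := h) (g := g) (S := S) hFK hFb hS
    he hγm hγs hX (s2 := s2) (s3 := s3) (k := k) (b := b) (by
      intro x hx hxk hxF s hs
      rw [fib_iff hκ H hxF hk hxk (g.mapsTo (he (hγm hs))), hf (hγm hs)]
      exact HE.fib x (hcrs x hx hxk) s hs) hk hs hfull hbd
  have c := hcrs x hx hxk
  have p1 := HE.a1 x c
  have p2 := HE.a2 x c
  have p3 := HE.a3 x c
  have p4 := HE.a4 x c
  have p5 := HE.a5 x c
  have hI : ∀ s ∈ Icc (s2 x) (s3 x), s ∈ Icc (0:ℝ) 1 := fun s hs =>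
    ⟨by linarith [hs.1], by linarith [hs.2]⟩
  have heq : ∀ s ∈ Icc (s2 x) (s3 x), (g.trans S).toFun (γ s) =
      Function.update (h.toFun x) (F.B b).j ((g.trans S).toFun (γ s) (F.B b).j) := by
    intro s hs
    obtain ⟨-, -, h5, -⟩ := hA s (hI s hs) hs.1 hs.2
    rw [h5, Function.update_self]
  refine ⟨x, ⟨h2, h3⟩, hx, hxk, hxF, by linarith, p3, by linarith, heq, ?_, ?_, ?_, ?_, ?_⟩
  · have h5 : ContinuousOn γ (Icc (s2 x) (s3 x)) := by
      rw [hγ]; exact (AffineMap.lineMap_continuous).continuousOn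
    exact (continuous_apply (F.B b).j).comp_continuousOn
      ((g.trans S).cont.comp h5 fun s hs => he (hγm (hI s hs)))
  · intro s hs s' hs' hss
    have h5 : (g.trans S).toFun (γ s) = (g.trans S).toFun (γ s') := by
      rw [heq s hs, heq s' hs']
      exact congrArg _ hss
    have h6 := (g.trans S).injOn (he (hγm (hI s hs))) (he (hγm (hI s' hs'))) h5
    by_contra hne
    have huv : u ≠ v := by
      rintro rfl
      -- a degenerate segment has a single crossing point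
      have h7 := (HE.fib x c 0 ⟨le_rfl, zero_le_one⟩)
      have h8 := (HE.fib x c s (hI s hs))
      have e1 : (AffineMap.lineMap u u (0:ℝ) : Fin 3 → ℝ) = AffineMap.lineMap u u s := by simp
      rw [e1] at h7
      have h9 := h7.1 (h8.2 hs)
      linarith [h9.1]
    exact hne (AffineMap.lineMap_injective ℝ huv h6)
  · ext t
    constructor
    · rintro ⟨s, hs, rfl⟩
      exact (hA s (hI s hs) hs.1 hs.2).2.2.2
    · intro ht
      obtain ⟨s', hs', h5, h6, h7⟩ := hB t ht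
      refine ⟨s', ⟨h5, h6⟩, ?_⟩
      show (g.trans S).toFun (γ s') (F.B b).j = t
      rw [h7, Function.update_self]
  · intro s hs s' hs'
    obtain ⟨a1, a2, -, -⟩ := hA s (hI s hs) hs.1 hs.2
    obtain ⟨b1, b2, -, -⟩ := hA s' (hI s' hs') hs'.1 hs'.2
    have h5 := HE.lip x hx (F.B b).j (mem_LQ.2 ⟨rfl, k, hk, hxk.symm⟩) s hs s' hs'
    rw [hiQ_sub_loQ, ← hf (hγm (hI s hs)), ← hf (hγm (hI s' hs'))] at h5
    exact hS.fib_lip hk a1 b1 a2 b2 h5
  · intro s hs t ht hst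
    have h5 : F.FullK b ((g.trans S).toFun (γ s)) := by
      have : (g.trans S).toFun (γ s) = Function.update (h.toFun x) (F.B b).j t := hst
      rw [this]; exact hxF.update (F.bd_sub b hk ht)
    have hgΛ : g.toFun (γ s) ∈ Λ := g.mapsTo (he (hγm hs))
    have hz : F.FullK b (g.toFun (γ s)) := (hS.fullK_iff hgΛ).1 h5
    have e1 : (g.trans S).toFun (γ s) = Function.update (g.toFun (γ s)) (F.B b).j
      (F.σ b (g.toFun (γ s) (F.B b).j)) := hS.full hz
    have e2 : (g.trans S).toFun (γ s) = Function.update (h.toFun x) (F.B b).j t := hst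
    have e3 : F.σ b (g.toFun (γ s) (F.B b).j) = t := by
      have := congrFun (e1.symm.trans e2) (F.B b).j
      rwa [Function.update_self, Function.update_self] at this
    have e4 : |g.toFun (γ s) (F.B b).j - (F.B b).a k| ≤ (F.B b).c :=
      (F.σ_mem_bd b hk).1 (e3 ▸ ht)
    have e5 : κ (g.toFun (γ s)) = h.toFun x := by
      rw [hFK b _ hz k hk e4]
      ext i
      by_cases hi : i = (F.B b).j
      · rw [hi, Function.update_self, hxk]
      · rw [Function.update_of_ne hi]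
        have := congrFun (e1.symm.trans e2) i
        rwa [Function.update_of_ne hi, Function.update_of_ne hi] at this
    have e6 := (fib_iff hκ H hxF hk hxk hgΛ).1 e5
    rw [hf (hγm hs)] at e6
    exact (HE.fib x c s hs).1 e6

/-- the staircase on a flat, affine -/
theorem BFam.IsS.affine (hS : F.IsS S) {z : Fin 3 → ℝ} (hk : k < (F.B b).N) (hz : F.FullK b z)
    {θ : ℝ} (h0 : 0 ≤ θ) (h1 : θ ≤ 1)
    (hzθ : z (F.B b).j = (F.B b).a k - (F.B b).c + 2 * (F.B b).c * θ) :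
    S.toFun z (F.B b).j = (F.B b).al + k * F.om b + F.e b + (F.om b - 2 * F.e b) * θ := by
  have hc := (F.B b).lvs.c0
  have h2 : 2 * (F.B b).c * θ ≤ 2 * (F.B b).c := by nlinarith
  have h3 : 0 ≤ 2 * (F.B b).c * θ := by positivity
  rw [hS.full hz, Function.update_self]
  unfold BFam.σ
  rw [sm_flat (F.B b).lvs hk (by rw [hzθ, abs_le]; constructor <;> linarith), hzθ]
  field_simp
  ring

end P073.H236
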