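import Vale.Agent.P073.H236.BoxData
import Vale.Agent.P073.H236.Stage3V
import Vale.Agent.P073.H196.PCell
import Vale.Agent.P073.H880.Met2

/-!
# P073, H236, STAGE 3 (L): the Lipschitz estimate on an edge, from `EdgeNum`
-/

open Set Metric Topology Filter

namespace P073.H236

open P073 P073.H579

/-- clamps to disjoint flats -/
theorem Lvs.sum_fl_le {N : ℕ} {a : ℕ → ℝ} {c al be : ℝ} (h : Lvs N a c al be) (s t : ℝ) :
    ∑ k ∈ Finset.range N, |fl c (a k) s - fl c (a k) t| ≤ |s - t| := by
  have hc := h.c0
  have h1 := H196.sum_abs_rho_le (lo := fun a => a - c) (hi := fun a => a + c) (L := h.L)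
    (fun a _ => by linarith) (fun x hx y hy hxy => by
      have := h.sepd x hx y hy hxy
      show x + c ≤ y - c
      linarith) s t
  rw [h.sum_L] at h1
  exact h1

theorem continuous_fl (c a : ℝ) : Continuous (fl c a) := by
  have : fl c a = fun t => max 0 (min (2 * c) (t - a + c)) := funext fun t => fl_def c a t
  rw [this]; fun_prop

/-- off the closed flat on a preconnected set, the clamp is constant on the closure -/
theorem fl_const {c a p s' : ℝ} (hc : 0 < c) {q : ℝ → ℝ} (hs : s' ≤ p)
    (hq : ContinuousOn q (Icc s' p)) (hoff : ∀ r ∈ Ico s' p, c < |q r - a|) :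
    fl c a (q s') = fl c a (q p) := by
  rcases hs.eq_or_lt with rfl | hlt
  · rfl
  have hconst : ∀ r ∈ Ico s' p, fl c a (q r) = fl c a (q s') := by
    intro r hr
    have hs'm : s' ∈ Ico s' p := ⟨le_rfl, hlt⟩
    have himg := ((isPreconnected_Ico (a := s') (b := p)).image q
      (hq.mono Ico_subset_Icc_self)).ordConnected
    have hmid : ∀ u v, u ∈ Ico s' p → v ∈ Ico s' p → q u < a → a < q v → False := by
      intro u v hu hv h1 h2
      obtain ⟨z, hz, hza⟩ := himg.out (mem_image_of_mem _ hu) (mem_image_of_mem _ hv) ⟨h1.le, h2.le⟩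
      have h3 := hoff z hz
      rw [hza, sub_self, abs_zero] at h3
      linarith
    rcases lt_abs.1 (hoff r hr) with h1 | h1 <;> rcases lt_abs.1 (hoff s' hs'm) with h2 | h2
    · rw [fl_of_ge hc.le (by linarith), fl_of_ge hc.le (by linarith)]
    · exact (hmid s' r hs'm hr (by linarith) (by linarith)).elim
    · exact (hmid r s' hr hs'm (by linarith) (by linarith)).elim
    · rw [fl_of_le (by linarith), fl_of_le (by linarith)]
  -- the limit at `p`
  have h1 : ContinuousWithinAt (fun r => fl c a (q r)) (Ico s' p) p :=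
    ((continuous_fl c a).comp_continuousOn hq).continuousWithinAt ⟨hs, le_rfl⟩ |>.mono
      Ico_subset_Icc_self
  have h2 : Tendsto (fun r => fl c a (q r)) (𝓝[Ico s' p] p) (𝓝 (fl c a (q s'))) :=
    tendsto_const_nhds.congr' (by
      filter_upwards [self_mem_nhdsWithin] with r hr
      exact (hconst r hr).symm)
  have hne : (𝓝[Ico s' p] p).NeBot := by
    rw [← mem_closure_iff_nhdsWithin_neBot, closure_Ico hlt.ne]
    exact ⟨hs, le_rfl⟩
  exact tendsto_nhds_unique h2 h1

/-- the mirror image -/
theorem fl_const' {c a p s' : ℝ} (hc : 0 < c) {q : ℝ → ℝ} (hs : p ≤ s')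
    (hq : ContinuousOn q (Icc p s')) (hoff : ∀ r ∈ Ioc p s', c < |q r - a|) :
    fl c a (q s') = fl c a (q p) := by
  have h1 := fl_const (c := c) (a := a) (p := -p) (s' := -s') hc (q := fun r => q (-r))
    (by linarith) (hq.comp continuousOn_neg fun r hr => ⟨by linarith [hr.2], by linarith [hr.1]⟩)
    (fun r hr => hoff (-r) ⟨by linarith [hr.2], by linarith [hr.1]⟩)
  simpa using h1

/-- **the clamps on an edge**: fibres `[s2 x, s3 x]`, on which `q` is `K`-Lipschitz -/
theorem Lvs.band_lip {N : ℕ} {a : ℕ → ℝ} {c al be : ℝ} (h : Lvs N a c al be) {q : ℝ → ℝ}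
    (hq : ContinuousOn q (Icc 0 1)) {χ : Type*} {P : χ → Prop} {s1 s2 s3 s4 : χ → ℝ}
    (h12 : ∀ x, P x → s1 x < s2 x) (h34 : ∀ x, P x → s3 x < s4 x)
    (h0 : ∀ x, P x → 0 ≤ s2 x) (h1 : ∀ x, P x → s3 x ≤ 1)
    (dis : ∀ x y, P x → P y → x ≠ y → s4 x ≤ s1 y ∨ s4 y ≤ s1 x)
    (hin : ∀ s ∈ Icc (0:ℝ) 1, ∀ k < N, |q s - a k| ≤ c → ∃ x, P x ∧ s ∈ Icc (s2 x) (s3 x))
    {C : ℝ} (hC : 0 ≤ C)
    (hlip : ∀ x, P x → ∀ s ∈ Icc (s2 x) (s3 x), ∀ s' ∈ Icc (s2 x) (s3 x),
      |q s - q s'| ≤ C * |s - s'|) {s s' : ℝ} (hs : s ∈ Icc (0:ℝ) 1) (hs' : s' ∈ Icc (0:ℝ) 1) :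
    ∑ k ∈ Finset.range N, |fl c (a k) (q s) - fl c (a k) (q s')| ≤ C * |s - s'| := by
  classical
  have hc := h.c0
  have key := H880.dsum_le_of_local (κ := Fin N) (q := Icc (0:ℝ) 1) (convex_Icc 0 1)
    (w := fun k s => fl c (a k) (q s)) (fun k => (continuous_fl c (a k)).comp_continuousOn hq)
    (K := C) (by
      intro s hs
      have hd : ∀ t : ℝ, H880.dsum (fun (k : Fin N) s => fl c (a k) (q s)) s t =
          ∑ k ∈ Finset.range N, |fl c (a k) (q t) - fl c (a k) (q s)| := fun t => by
        rw [H880.dsum, Finset.sum_range]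
      by_cases hex : ∃ x, P x ∧ s ∈ Icc (s2 x) (s3 x)
      · obtain ⟨x, hx, hsx⟩ := hex
        have hnb : ∀ᶠ t in 𝓝[Icc (0:ℝ) 1] s, t ∈ Ioo (s1 x) (s4 x) ∧ t ∈ Icc (0:ℝ) 1 := by
          have h2 : Ioo (s1 x) (s4 x) ∈ 𝓝 s :=
            Ioo_mem_nhds (by linarith [h12 x hx, hsx.1]) (by linarith [h34 x hx, hsx.2])
          filter_upwards [mem_nhdsWithin_of_mem_nhds h2, self_mem_nhdsWithin] with t ht ht'
          exact ⟨ht, ht'⟩
        filter_upwards [hnb] with t ht
        obtain ⟨ht, htI⟩ := ht
        rw [hd, Real.dist_eq]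
        -- points of `(s1, s4)` off the fibre are in no fibre
        have hoff : ∀ r ∈ Ioo (s1 x) (s4 x), r ∈ Icc (0:ℝ) 1 → r ∉ Icc (s2 x) (s3 x) →
            ∀ k < N, c < |q r - a k| := by
          intro r hr hrI hrx k hk
          by_contra hcon
          push Not at hcon
          obtain ⟨y, hy, hry⟩ := hin r hrI k hk hcon
          have hxy : x ≠ y := fun hxy => hrx (hxy ▸ hry)
          have a1 := h12 y hy
          have a2 := h34 y hy
          rcases dis x y hx hy hxy with h3 | h3
          · linarith [hr.1, hr.2, hry.1, hry.2]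
          · linarith [hr.1, hr.2, hry.1, hry.2]
        by_cases htx : t ∈ Icc (s2 x) (s3 x)
        · exact (h.sum_fl_le _ _).trans (hlip x hx t htx s hsx)
        · have hs2 : s2 x ∈ Icc (s2 x) (s3 x) := ⟨le_rfl, hsx.1.trans hsx.2⟩
          have hs3 : s3 x ∈ Icc (s2 x) (s3 x) := ⟨hsx.1.trans hsx.2, le_rfl⟩
          rcases lt_or_ge t (s2 x) with h3 | h3
          · have h4 : ∀ k ∈ Finset.range N, |fl c (a k) (q t) - fl c (a k) (q s)| =
                |fl c (a k) (q (s2 x)) - fl c (a k) (q s)| := by
              intro k hk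
              rw [Finset.mem_range] at hk
              have h5 : ∀ r ∈ Ico t (s2 x), c < |q r - a k| := by
                intro r hr
                have b1 := h34 x hx
                refine hoff r ⟨by linarith [ht.1, hr.1], by linarith [hr.2, hsx.1, hsx.2]⟩
                  ⟨htI.1.trans hr.1, by linarith [hr.2, hsx.1, hs.2]⟩
                  (fun h5 => absurd h5.1 (not_le.2 hr.2)) k hk
              rw [fl_const hc h3.le (hq.mono (Icc_subset_Icc htI.1 (hsx.1.trans hs.2))) h5]
            rw [Finset.sum_congr rfl h4]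
            refine (h.sum_fl_le _ _).trans ((hlip x hx _ hs2 s hsx).trans ?_)
            apply mul_le_mul_of_nonneg_left _ hC
            rw [abs_of_nonpos (by linarith [hsx.1]), abs_of_nonpos (by linarith [hsx.1])]
            linarith
          · have h3' : s3 x < t := by
              by_contra hcon
              exact htx ⟨h3, not_lt.1 hcon⟩
            have h4 : ∀ k ∈ Finset.range N, |fl c (a k) (q t) - fl c (a k) (q s)| =
                |fl c (a k) (q (s3 x)) - fl c (a k) (q s)| := by
              intro k hk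
              rw [Finset.mem_range] at hk
              have h5 : ∀ r ∈ Ioc (s3 x) t, c < |q r - a k| := by
                intro r hr
                have b1 := h12 x hx
                refine hoff r ⟨by linarith [hr.1, hsx.1, hsx.2], by linarith [ht.2, hr.2]⟩
                  ⟨by linarith [hr.1, hsx.2, hs.1], hr.2.trans htI.2⟩
                  (fun h5 => absurd h5.2 (not_le.2 hr.1)) k hk
              rw [fl_const' hc h3'.le (hq.mono (Icc_subset_Icc (hs.1.trans hsx.2) htI.2)) h5]
            rw [Finset.sum_congr rfl h4]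
            refine (h.sum_fl_le _ _).trans ((hlip x hx _ hs3 s hsx).trans ?_)
            apply mul_le_mul_of_nonneg_left _ hC
            rw [abs_of_nonneg (by linarith [hsx.2]), abs_of_nonneg (by linarith [hsx.2])]
            linarith
      · push Not at hex
        have hoff : ∀ k < N, c < |q s - a k| := by
          intro k hk
          by_contra hcon
          push Not at hcon
          obtain ⟨x, hx, hsx⟩ := hin s hs k hk hcon
          exact hex x hx hsx
        have hev : ∀ k : Fin N, ∀ᶠ t in 𝓝[Icc (0:ℝ) 1] s,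
            fl c (a k) (q t) = fl c (a k) (q s) := by
          intro k
          have h2 := hoff k k.2
          rcases lt_abs.1 h2 with h3 | h3
          · have h4 : ∀ᶠ t in 𝓝[Icc (0:ℝ) 1] s, a k + c < q t :=
              (hq s hs).eventually (lt_mem_nhds (by linarith))
            filter_upwards [h4] with t ht
            rw [fl_of_ge hc.le ht.le, fl_of_ge hc.le (by linarith)]
          · have h4 : ∀ᶠ t in 𝓝[Icc (0:ℝ) 1] s, q t < a k - c :=
              (hq s hs).eventually (gt_mem_nhds (by linarith))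
            filter_upwards [h4] with t ht
            rw [fl_of_le ht.le, fl_of_le (by linarith)]
        filter_upwards [eventually_all.2 hev] with t ht
        have : H880.dsum (fun (k : Fin N) s => fl c (a k) (q s)) s t = 0 := by
          rw [H880.dsum]
          exact Finset.sum_eq_zero fun k _ => by rw [ht k, sub_self, abs_zero]
        rw [this]
        positivity) hs' hs
  rw [H880.dsum, Real.dist_eq] at key
  rw [Finset.sum_range]
  exact key

end P073.H236
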