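import Vale.Agent.P073.H236.OutB
import Vale.Agent.P073.H236.Stage3L

/-!
# P073, H236, ROUND T, **STAGE 3**: from (INS) to the output, part C: `exists_t3out`
-/

open Set Metric Topology Filter

namespace P073.H236

open _root_.P073 _root_.P073.Net _root_.P073.PA691 _root_.P073.H579
open _root_.P073.PR720 (LF)
open Vale.Agent.P073.St (V)
open Vale.Agent.P073.H471 Vale.Agent.P073.H267
open Vale.Agent.P073.H73 (Mesh)
open Vale.Agent.P073.H193 (Edges)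
open Vale.Agent.P073.H238 (oT TMid TMid_sub TStage1 TAct skel mesh_sub)
open Vale.Agent.P073.H669 (TLv)

variable {Ω Λ : Set V} {v : V} {K : BoxCx Λ v} {S₀ : Rad K} {W : Wid K S₀} {B : Boxes W}
  {G : Geo B} {M : Mesh Ω} {E : Edges M} {h h' : ConHomeo Ω Λ} {ω : TBx K → ℝ}
  {T : TBx K → Finset (ℝ × ℝ)} {η : ℝ} {τ : Type*} {A : τ → Set V} {C : Set ℝ} {εE : E.ε → ℝ}
  {δ : TBx K → ℝ} {L : TLv G E h ω T η A C εE δ} {c : TBx K → ℝ} {hc0 : ∀ b, 0 < c b}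
  {hc : ∀ b, c b ≤ δ b / 8} {Pr : Set M.ι} {κ : V → V} {g : ConHomeo Ω Λ} {S : ConHomeo Λ Λ}
  {F : BFam 3 (TBx K) Λ}

theorem face_convex (M : Mesh Ω) (k : M.κ) : Convex ℝ (M.F k) :=
  (Vale.Agent.P073.H193.pgn_of_fat (M.fat k)).convex

theorem face_compact (M : Mesh Ω) (k : M.κ) : IsCompact (M.F k) :=
  (Vale.Agent.P073.H193.pgn_of_fat (M.fat k)).cpt

/-- cones in a face -/
theorem cone_sub {k : M.κ} {O : V} (hO : O ∈ M.F k) {X : Set V} (hX : X ⊆ M.F k) :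
    coneSetAt O X ⊆ M.F k := by
  rintro _ ⟨s, hs, x, hx, rfl⟩
  have := (face_convex M k) hO (hX hx) (sub_nonneg.2 hs.2) hs.1 (by ring)
  rwa [show O + s • (x - O) = (1 - s) • O + s • x by rw [smul_sub, sub_smul, one_smul]; abel]

namespace St2

/-- (T2) -/
theorem near (D : St2 L hc0 hc Pr h' κ g) (hF : F.B = L.bxQ c hc0 hc) (hS : F.IsS S)
    (hom : ∀ b y q, y ∈ G.TB false b → y ∈ K.cube q → 1024 * ω b ≤ G.om q)
    (hcmp : ∀ k, ∀ x ∈ M.F k, ∀ x' ∈ M.F k, ∀ q q', h.toFun x ∈ K.cube q →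
      h.toFun x' ∈ K.cube q' → 4096 * ‖h.toFun x - h.toFun x'‖ ≤ G.om q ∧ G.om q' ≤ 4 * G.om q)
    (hDω : ∀ b, F.D b ≤ 62 * ω b) (hcω : ∀ b, c b ≤ 62 * ω b) {k : M.κ} {x : V}
    (hx : x ∈ M.F k) {q : K.T} (hq : h.toFun x ∈ K.cube q) :
    ‖(g.trans S).toFun x - h.toFun x‖ ≤ G.om q := by
  have h0 : ∀ b, 0 < ω b := L.ω0
  have hr : ∀ b, 0 ≤ 62 * ω b := fun b => by linarith [h0 b]
  have H1 : Rl (fun b => (L.bxQ c hc0 hc b).K) (fun b => 62 * ω b) Ω h.toFun h'.toFun :=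
    (rl_t L hc0 hc D.O).mono fun b => by linarith [h0 b]
  have H2 : Mv (fun b => (L.bxQ c hc0 hc b).K) (fun b => 62 * ω b) κ :=
    (mv_isQ D.isQ).mono hcω
  have H3 : Mv (fun b => (L.bxQ c hc0 hc b).K) (fun b => 62 * ω b) S.toFun := by
    have := (mv_isS hS).mono hDω
    rwa [hF] at this
  obtain ⟨x', hx', h1⟩ := exists_near hr H1 H2 H3 (D.face k) (mesh_sub M k) hx
  obtain ⟨q', hq'⟩ := K.cover _ (h.mapsTo (mesh_sub M k hx'))
  obtain ⟨h2, h3⟩ := hcmp k x hx x' hx' q q' hq hq'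
  rw [norm_sub_rev] at h2
  have h5 : 0 ≤ ‖h.toFun x' - h.toFun x‖ := norm_nonneg _
  rcases h1 with h1 | ⟨b, hb, h1⟩
  · show ‖S.toFun (g.toFun x) - h.toFun x‖ ≤ _
    rw [h1]
    linarith
  · have h4 := hom b _ q' (L.K_sub hc0 hc b hb) hq'
    have h6 := norm_sub_le_norm_sub_add_norm_sub (S.toFun (g.toFun x)) (h.toFun x') (h.toFun x)
    show ‖S.toFun (g.toFun x) - h.toFun x‖ ≤ _
    linarith

/-- (T3) -/
theorem off (D : St2 L hc0 hc Pr h' κ g) (hF : F.B = L.bxQ c hc0 hc) (hS : F.IsS S)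
    (hW : ∀ k, (∀ b, Disjoint (L.bxQ c hc0 hc b).K (h'.toFun '' M.F k)) →
      EqOn g.toFun h'.toFun (M.F k)) {k : M.κ}
    (hno : ∀ x ∈ M.F k, ∀ b, h.toFun x ∉ G.TB false b) :
    EqOn (g.trans S).toFun h.toFun (M.F k) := by
  have H3 : Mv (fun b => (L.bxQ c hc0 hc b).K) F.D S.toFun := by
    have := mv_isS hS
    rwa [hF] at this
  have h1 : ∀ x ∈ M.F k, h'.toFun x = h.toFun x := fun x hx =>
    (rl_t L hc0 hc D.O).off x (mesh_sub M k hx) fun b hb => hno x hx b (L.K_sub hc0 hc b hb)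
  intro x hx
  have h2 : g.toFun x = h'.toFun x := hW k (fun b => Set.disjoint_left.2 (by
    rintro _ hb ⟨x', hx', rfl⟩
    rw [h1 x' hx'] at hb
    exact hno x' hx' b (L.K_sub hc0 hc b hb))) hx
  show S.toFun (g.toFun x) = h.toFun x
  rw [h2, h1 x hx]
  exact H3.off _ fun b hb => hno x hx b (L.K_sub hc0 hc b hb)

/-- deep faces after STEP S -/
theorem inT' (D : St2 L hc0 hc Pr h' κ g) {k : M.κ} {b : TBx K} (hk : InT G M h ω b k) {x : V}
    (hx : x ∈ M.F k) : closedBall (h'.toFun x) (18 * ω b) ⊆ G.TB true b := by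
  have h0 := L.ω0 b
  intro y hy
  refine hk x hx ?_
  have h1 : h.toFun x ∈ G.TB true b := hk x hx (mem_closedBall_self (by linarith))
  have h2 := D.O.all b x (mesh_sub M k hx) (Geo.TB_true_subset b h1)
  rw [mem_closedBall] at hy ⊢
  have h3 := dist_triangle y (h'.toFun x) (h.toFun x)
  linarith

/-- deep faces after the insertion -/
theorem inT_g (D : St2 L hc0 hc Pr h' κ g) (hcω : ∀ b, c b ≤ 18 * ω b) {k : M.κ} {b : TBx K}
    (hk : InT G M h ω b k) {x : V} (hx : x ∈ M.F k) : g.toFun x ∈ G.TB true b := by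
  have h0 := L.ω0 b
  have h1 : g.toFun x ∈ Pre κ Λ h' (M.F k) := by
    rw [← D.face k]; exact mem_image_of_mem _ hx
  obtain ⟨x', hx', h2⟩ := h1.2
  have h3 := D.inT' hk hx'
  have h4 : h'.toFun x' ∈ G.TB true b := h3 (mem_closedBall_self (by linarith))
  have h5 : h'.toFun x' ∈ (L.bxQ c hc0 hc b).K := by
    rw [L.mem_K hc0 hc]
    exact ⟨⟨h4.1 _, h4.2 _⟩, fun i _ => ⟨by linarith [h4.1 i], by linarith [h4.2 i]⟩⟩
  rw [h2] at h5
  have h6 := (D.isQ.mem_iff D.fam).1 h5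
  refine h3 ?_
  rw [mem_closedBall, dist_eq_norm, h2, norm_sub_rev]
  exact ((mv_isQ D.isQ).near b _ h6).trans (hcω b)

/-- (T7) -/
theorem lip (D : St2 L hc0 hc Pr h' κ g) (hF : F.B = L.bxQ c hc0 hc) (hS : F.IsS S)
    (hcω : ∀ b, c b ≤ 18 * ω b) {k : M.κ} {b : TBx K} (hk : InT G M h ω b k) {j : Fin 3}
    (hj : j ≠ b.ax) {Lam : ℝ} (hLam : ∀ x ∈ M.F k, ∀ y ∈ M.F k,
      ‖g.toFun x - g.toFun y‖ ≤ Lam * ‖x - y‖) {x y : V} (hx : x ∈ M.F k) (hy : y ∈ M.F k) :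
    |(g.trans S).toFun x j - (g.trans S).toFun y j| ≤ Lam * ‖x - y‖ := by
  have e1 : F.B b = L.bxQ c hc0 hc b := congrFun hF b
  have hj' : j ≠ (F.B b).j := by rw [e1]; exact hj
  have key : ∀ z ∈ M.F k, (g.trans S).toFun z j = g.toFun z j := fun z hz =>
    hS.ne (fullK_of_TB L hc0 hc hF (D.inT_g hcω hk hz)).mem hj'
  rw [key x hx, key y hy]
  refine le_trans ?_ (hLam x hx y hy)
  have := norm_le_pi_norm (g.toFun x - g.toFun y) j
  rwa [Pi.sub_apply, Real.norm_eq_abs] at this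

/-- (T6) -/
theorem cone (D : St2 L hc0 hc Pr h' κ g) (hF : F.B = L.bxQ c hc0 hc) (hS : F.IsS S)
    (hcω : ∀ b, c b ≤ 18 * ω b) {k : M.κ} {b : TBx K} (hk : InT G M h ω b k) {Lam ε Lf : ℝ}
    (hLam : ∀ x ∈ M.F k, ∀ y ∈ M.F k, ‖g.toFun x - g.toFun y‖ ≤ Lam * ‖x - y‖)
    (hLf : 0 ≤ Lf) (hε : F.e b / c b * Lam ≤ ε) {X : Set V} (hXk : X ⊆ M.F k)
    (hGF : TAct G M h' L.lev b k → ∃ Φ : V → V, EqOn g.toFun Φ (M.F k) ∧
      ∀ x ∈ X, ∀ y ∈ X, bandD (LQ (L.bxQ c hc0 hc b)) (loQ (L.bxQ c hc0 hc b))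
        (hiQ (L.bxQ c hc0 hc b)) (omQ (L.bxQ c hc0 hc b)) (Φ x) (Φ y) ≤ Lf * ‖x - y‖)
    {x y : V} (hx : x ∈ X) (hy : y ∈ X) :
    |(g.trans S).toFun x b.ax - (g.trans S).toFun y b.ax| ≤ (Lf + ε) * ‖x - y‖ := by
  have e1 : F.B b = L.bxQ c hc0 hc b := congrFun hF b
  have e3 : (F.B b).j = b.ax := by rw [e1]; rfl
  have e4 : (F.B b).c = c b := by rw [e1]; rfl
  have hfull : ∀ z ∈ M.F k, F.FullK b (g.toFun z) := fun z hz =>
    fullK_of_TB L hc0 hc hF (D.inT_g hcω hk hz)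
  have hcoord : ∀ z ∈ M.F k, ∀ w ∈ M.F k,
      |g.toFun z (F.B b).j - g.toFun w (F.B b).j| ≤ Lam * ‖z - w‖ := by
    intro z hz w hw
    refine le_trans ?_ (hLam z hz w hw)
    have := norm_le_pi_norm (g.toFun z - g.toFun w) (F.B b).j
    rwa [Pi.sub_apply, Real.norm_eq_abs] at this
  have hec : 0 ≤ F.e b / c b := div_nonneg (F.he b).le (hc0 b).le
  by_cases hT : TAct G M h' L.lev b k
  · obtain ⟨Φ, hΦ, hb⟩ := hGF hT
    have h1 := hb x hx y hy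
    rw [← hΦ (hXk hx), ← hΦ (hXk hy), bandD_Q] at h1
    have h2 := hS.lip (hfull x (hXk hx)) (hfull y (hXk hy)) (K₁ := Lf) (K₂ := Lam) (by
      refine le_trans (le_of_eq ?_) h1
      rw [BFam.om, e1, ← Finset.sum_div]
      ring) (hcoord x (hXk hx) y (hXk hy))
    rw [e3, e4] at h2
    refine h2.trans (mul_le_mul_of_nonneg_right ?_ (norm_nonneg _))
    linarith
  · have hlev : ∀ z ∈ M.F k, ∀ m < (F.B b).N, h'.toFun z (F.B b).j ≠ (F.B b).a m := by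
      intro z hz m hm hzm
      rw [e1] at hm hzm
      refine hT ⟨z, hz, D.inT' hk hz (mem_closedBall_self (by linarith [L.ω0 b])), ?_⟩
      have hzm' : h'.toFun z b.ax = L.a b m := hzm
      rw [hzm']
      exact ⟨m, hm, rfl⟩
    have h2 := hS.lip_no_level (h := h') (b := b) (D.flat hF) (D.face k) (mesh_sub M k) hlev
      (face_convex M k).isPreconnected Subset.rfl hfull (hXk hx) (hXk hy)
    have h3 := hcoord x (hXk hx) y (hXk hy)
    rw [e3, e4] at h2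
    rw [e3] at h3
    refine h2.trans ?_
    calc F.e b / c b * |g.toFun x b.ax - g.toFun y b.ax|
        ≤ F.e b / c b * (Lam * ‖x - y‖) := mul_le_mul_of_nonneg_left h3 hec
      _ = F.e b / c b * Lam * ‖x - y‖ := by ring
      _ ≤ (Lf + ε) * ‖x - y‖ := mul_le_mul_of_nonneg_right (by linarith) (norm_nonneg _)

/-- (T6), on the edges -/
theorem elip (D : St2 L hc0 hc Pr h' κ g) (hF : F.B = L.bxQ c hc0 hc) (hS : F.IsS S)
    (hcω : ∀ b, c b ≤ 18 * ω b) {k : M.κ} {b : TBx K} (hk : InT G M h ω b k) {Lam ε La : ℝ}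
    (hLam : ∀ x ∈ M.F k, ∀ y ∈ M.F k, ‖g.toFun x - g.toFun y‖ ≤ Lam * ‖x - y‖)
    (hLa : 0 ≤ La) (hε : F.e b / c b * Lam ≤ ε) {ed : E.ε} (hed : E.seg ed ⊆ M.F k)
    (hGE : (∃ k, TAct G M h' L.lev b k ∧ E.seg ed ⊆ M.F k) → ∃ f : V → V,
      EqOn g.toFun f (E.seg ed) ∧ ∃ s1 s2 s3 s4 : V → ℝ, EdgeNum (E.a ed) (E.b ed) h'.toFun
        (kQ (L.bxQ c hc0 hc b)) (LQ (L.bxQ c hc0 hc b)) (loQ (L.bxQ c hc0 hc b))
        (hiQ (L.bxQ c hc0 hc b)) (omQ (L.bxQ c hc0 hc b)) La f s1 s2 s3 s4)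
    {x y : V} (hx : x ∈ E.seg ed) (hy : y ∈ E.seg ed) :
    |(g.trans S).toFun x b.ax - (g.trans S).toFun y b.ax| ≤ (La + ε) * ‖x - y‖ := by
  classical
  by_cases hT : TAct G M h' L.lev b k
  swap
  · exact D.cone hF hS hcω hk hLam hLa hε hed (fun h1 => absurd h1 hT) hx hy
  obtain ⟨f, hf, s1, s2, s3, s4, HE⟩ := hGE ⟨k, hT, hed⟩
  refine D.cone hF hS hcω hk hLam hLa hε hed (fun _ => ⟨g.toFun, fun _ _ => rfl, ?_⟩) hx hy
  have e1 : F.B b = L.bxQ c hc0 hc b := congrFun hF b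
  set Bx := L.bxQ c hc0 hc b with hBx
  have hc0' : 0 < Bx.c := Bx.lvs.c0
  have hfull : ∀ z ∈ M.F k, F.FullK b (g.toFun z) := fun z hz =>
    fullK_of_TB L hc0 hc hF (D.inT_g hcω hk hz)
  set γ : ℝ → V := fun s => AffineMap.lineMap (E.a ed) (E.b ed) s with hγ
  have hγm : ∀ s ∈ Icc (0:ℝ) 1, γ s ∈ E.seg ed := fun s hs => lineMap_mem hs
  have hq : ContinuousOn (fun s => g.toFun (γ s) Bx.j) (Icc 0 1) := by
    have h5 : ContinuousOn γ (Icc 0 1) := (AffineMap.lineMap_continuous).continuousOn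
    exact (continuous_apply Bx.j).comp_continuousOn
      (g.cont.comp h5 fun s hs => E.seg_sub_Ω ed (hγm s hs))
  have hom : 0 < stp Bx.N Bx.al Bx.be := stp_pos Bx
  have hlev : ∀ x, CrsPt (E.a ed) (E.b ed) h'.toFun (LQ Bx) x → h'.toFun x Bx.j ∈ LQ Bx Bx.j := by
    rintro x ⟨-, j, hj⟩
    obtain ⟨rfl, -⟩ := mem_LQ.1 hj
    exact hj
  have key := fun s s' hs hs' => Bx.lvs.band_lip (q := fun s => g.toFun (γ s) Bx.j) hq
    (P := CrsPt (E.a ed) (E.b ed) h'.toFun (LQ Bx)) (s1 := s1) (s2 := s2) (s3 := s3) (s4 := s4)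
    HE.a2 HE.a4 (fun x hx => by linarith [HE.a1 x hx, HE.a2 x hx])
    (fun x hx => by linarith [HE.a4 x hx, HE.a5 x hx]) HE.dis
    (by
      intro s hs m hm hsm
      have hz := hfull _ (hed (hγm s hs))
      have hm' : m < (F.B b).N := by rw [e1]; exact hm
      have h1 := D.flat hF b _ hz m hm' (by rw [e1]; exact hsm)
      rw [e1] at h1
      have h2 : g.toFun (γ s) ∈ Pre κ Λ h' (E.seg ed) := by
        rw [← D.edge ed]; exact mem_image_of_mem _ (hγm s hs)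
      obtain ⟨x', hx', h3⟩ := h2.2
      have h4 : h'.toFun x' = Function.update (g.toFun (γ s)) Bx.j (Bx.a m) := by
        rw [h3]; exact h1
      have hcr : CrsPt (E.a ed) (E.b ed) h'.toFun (LQ Bx) x' :=
        crsPt_Q.2 ⟨hx', m, hm, by rw [h4, Function.update_self]⟩
      refine ⟨x', hcr, (HE.fib x' hcr s hs).1 ?_⟩
      rw [← hf (hγm s hs)]
      have h5 : F.FullK b (h'.toFun x') := by
        rw [h4]
        have := hz.at_level hm'
        rw [e1] at this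
        exact this
      have h6 := fib_iff (F := F) (κ := κ) (hF ▸ D.isQ) (hF ▸ D.fam) h5 hm'
        (by rw [e1, h4, Function.update_self]) (g.mapsTo (E.seg_sub_Ω ed (hγm s hs)))
      rw [e1] at h6
      exact h6.1 h3.symm)
    (C := 2 * Bx.c / stp Bx.N Bx.al Bx.be * (La * ‖E.b ed - E.a ed‖)) (by positivity)
    (by
      intro x hx s hs s' hs'
      have hsI : ∀ r ∈ Icc (s2 x) (s3 x), r ∈ Icc (0:ℝ) 1 := fun r hr =>
        ⟨by linarith [HE.a1 x hx, HE.a2 x hx, hr.1], by linarith [HE.a4 x hx, HE.a5 x hx, hr.2]⟩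
      have h1 := HE.lip x hx.1 Bx.j (hlev x hx) s hs s' hs'
      rw [hiQ_sub_loQ, ← hf (hγm s (hsI s hs)), ← hf (hγm s' (hsI s' hs'))] at h1
      change stp Bx.N Bx.al Bx.be * |g.toFun (γ s) Bx.j - g.toFun (γ s') Bx.j| ≤ _ at h1
      rw [div_mul_eq_mul_div, div_mul_eq_mul_div, le_div_iff₀ hom]
      linarith) (s := s) (s' := s') hs hs'
  intro z hz w hw
  have hz' : z ∈ γ '' Icc (0:ℝ) 1 := by
    have : z ∈ segment ℝ (E.a ed) (E.b ed) := hz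
    rwa [segment_eq_image_lineMap] at this
  have hw' : w ∈ γ '' Icc (0:ℝ) 1 := by
    have : w ∈ segment ℝ (E.a ed) (E.b ed) := hw
    rwa [segment_eq_image_lineMap] at this
  obtain ⟨s, hs, rfl⟩ := hz'
  obtain ⟨s', hs', rfl⟩ := hw'
  have h1 := key s s' hs hs'
  have h2 : ‖γ s - γ s'‖ = |s - s'| * ‖E.b ed - E.a ed‖ := by
    have h3 : dist (γ s) (γ s') = dist s s' * dist (E.a ed) (E.b ed) := by
      rw [hγ]; exact dist_lineMap_lineMap _ _ _ _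
    rw [dist_eq_norm, Real.dist_eq, dist_eq_norm, norm_sub_rev (E.a ed)] at h3
    exact h3
  rw [bandD_Q, h2, div_mul_eq_mul_div, div_le_iff₀ (by linarith)]
  have h3 := mul_le_mul_of_nonneg_left h1 hom.le
  refine h3.trans (le_of_eq ?_)
  field_simp

end St2

/-- **STAGE 3 ⟹ T3Out** -/
theorem exists_t3out (D : St2 L hc0 hc Pr h' κ g)
    (hW : ∀ k, (∀ b, Disjoint (L.bxQ c hc0 hc b).K (h'.toFun '' M.F k)) →
      EqOn g.toFun h'.toFun (M.F k))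
    (hom : ∀ b y q, y ∈ G.TB false b → y ∈ K.cube q → 1024 * ω b ≤ G.om q)
    (hcmp : ∀ k, ∀ x ∈ M.F k, ∀ x' ∈ M.F k, ∀ q q', h.toFun x ∈ K.cube q →
      h.toFun x' ∈ K.cube q' → 4096 * ‖h.toFun x - h.toFun x'‖ ≤ G.om q ∧ G.om q' ≤ 4 * G.om q)
    (hdsp : ∀ b, dsp (T b) (δ b) + δ b + 60 * ω b ≤ 62 * ω b)
    (hcω : ∀ b, c b ≤ 18 * ω b)
    {O : M.κ → V} (hO : ∀ k, O k ∈ M.F k) {La : E.ε → ℝ} {Lf : M.κ → E.ε → ℝ}
    (hLa : ∀ e, 0 ≤ La e) (hLf : ∀ k e, 0 ≤ Lf k e)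
    (hGE : ∀ ed b, (∃ k, TAct G M h' L.lev b k ∧ E.seg ed ⊆ M.F k) → ∃ f : V → V,
      EqOn g.toFun f (E.seg ed) ∧ ∃ s1 s2 s3 s4 : V → ℝ, EdgeNum (E.a ed) (E.b ed) h'.toFun
        (kQ (L.bxQ c hc0 hc b)) (LQ (L.bxQ c hc0 hc b)) (loQ (L.bxQ c hc0 hc b))
        (hiQ (L.bxQ c hc0 hc b)) (omQ (L.bxQ c hc0 hc b)) (La ed) f s1 s2 s3 s4)
    (hGF : ∀ k b, TAct G M h' L.lev b k → ∃ Φ : V → V, EqOn g.toFun Φ (M.F k) ∧
      ∀ e, E.seg e ⊆ M.F k → ∀ x ∈ coneSetAt (O k) (E.seg e), ∀ y ∈ coneSetAt (O k) (E.seg e),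
      bandD (LQ (L.bxQ c hc0 hc b)) (loQ (L.bxQ c hc0 hc b))
        (hiQ (L.bxQ c hc0 hc b)) (omQ (L.bxQ c hc0 hc b)) (Φ x) (Φ y) ≤ Lf k e * ‖x - y‖) :
    ∃ Lam1 : M.κ → ℝ, (∀ k, 0 ≤ Lam1 k) ∧
      (∀ k, ∀ x ∈ M.F k, ∀ y ∈ M.F k, ‖g.toFun x - g.toFun y‖ ≤ Lam1 k * ‖x - y‖) ∧
      ∀ (σ e₁ : TBx K → ℝ) (ε : M.κ → ℝ) (εe : E.ε → ℝ), (∀ b, 0 < σ b) → (∀ b, 0 < e₁ b) →
        (∀ k, 0 < ε k) → (∀ e, 0 < εe e) →
        ∃ (e : TBx K → ℝ) (he : ∀ b, 0 < e b) (he8 : ∀ b, e b ≤ δ b / 8) (S : ConHomeo Λ Λ),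
          (∀ b, e b ≤ e₁ b) ∧
          (L.bfam hc0 hc e (fun b => 62 * ω b) he he8 hdsp).IsS S ∧
          (∀ b, ∑ p ∈ (L.bfam hc0 hc e (fun b => 62 * ω b) he he8 hdsp).sl b,
            (p.2 - p.1) ≤ σ b) ∧
          T3Out G M E h (g.trans S) ω O (fun e => La e + εe e) (fun k e => Lf k e + ε k) Lam1
            (L.bfam hc0 hc e (fun b => 62 * ω b) he he8 hdsp).sl := by
  choose Lam1 hLam0 hLam using fun k => exists_lip_compact D.hΩ g.conical g.cont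
    (face_compact M k) (mesh_sub M k)
  refine ⟨Lam1, fun k => (hLam0 k).le, hLam, fun σ e₁ ε εe hσ he₁ hε hεe => ?_⟩
  -- finitely many faces at each box
  have hfin : ∀ b, {k | ∃ x ∈ M.F k, h.toFun x ∈ G.TB false b}.Finite := by
    intro b
    obtain ⟨hc', hcΩ, hcm⟩ := Vale.Agent.P073.H238.cpt_preimage h (Q := G.TB false b)
      isCompact_Icc (Geo.TB_sub b)
    refine (M.ffin _ hcΩ hc').subset ?_
    rintro k ⟨x, hx, hxb⟩
    exact ⟨x, hx, hcm x (mesh_sub M k hx) hxb⟩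
  -- the smallest of the numbers `ε k`, `εe e`
  have hmin : ∀ k, ∃ t : ℝ, 0 < t ∧ t ≤ ε k ∧ ∀ e, E.seg e ⊆ M.F k → t ≤ εe e := by
    intro k
    obtain ⟨e', h1, h2, h3⟩ := exists_small (ι := Unit) (R := fun _ e => E.seg e ⊆ M.F k)
      (fun _ => E.fin_face k) (q := fun _ e => εe e) (fun _ e => hεe e) (e₀ := fun _ => ε k)
      (fun _ => hε k)
    exact ⟨e' (), h1 (), h2 (), fun e he => h3 () e he⟩
  choose εm hεm0 hεm1 hεm2 using hmin
  obtain ⟨e, he0, hee, heq⟩ := exists_small (R := fun b k => ∃ x ∈ M.F k, h.toFun x ∈ G.TB false b)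
    hfin (q := fun b k => c b * εm k / Lam1 k)
    (fun b k => div_pos (mul_pos (hc0 b) (hεm0 k)) (hLam0 k))
    (e₀ := fun b => min (min (δ b / 8) (e₁ b)) (σ b / (2 * (L.N b + 1))))
    (fun b => lt_min (lt_min (by linarith [L.δ0 b]) (he₁ b)) (div_pos (hσ b) (by positivity)))
  have he8 : ∀ b, e b ≤ δ b / 8 := fun b =>
    (hee b).trans ((min_le_left _ _).trans (min_le_left _ _))
  set F := L.bfam hc0 hc e (fun b => 62 * ω b) he0 he8 hdsp with hFdef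
  have hF : F.B = L.bxQ c hc0 hc := rfl
  obtain ⟨S, hS⟩ := F.exists_isS D.hΛ
  have hek : ∀ k b, InT G M h ω b k → F.e b / c b * Lam1 k ≤ εm k := by
    intro k b hk
    have hne : (M.F k).Nonempty := ⟨_, hO k⟩
    obtain ⟨x, hx⟩ := hne
    have h1 : h.toFun x ∈ G.TB false b := Geo.TB_true_subset b
      (hk x hx (mem_closedBall_self (by linarith [L.ω0 b])))
    have h2 : e b ≤ c b * εm k / Lam1 k := heq b k ⟨x, hx, h1⟩
    rw [le_div_iff₀ (hLam0 k)] at h2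
    show e b / c b * Lam1 k ≤ εm k
    rw [div_mul_eq_mul_div, div_le_iff₀ (hc0 b)]
    linarith
  refine ⟨e, he0, he8, S, fun b => (hee b).trans ((min_le_left _ _).trans (min_le_right _ _)), hS,
    fun b => ?_, ?_⟩
  · refine (F.sum_sl b).trans ?_
    have h1 : e b ≤ σ b / (2 * (L.N b + 1)) := (hee b).trans (min_le_right _ _)
    rw [le_div_iff₀ (by positivity)] at h1
    show 2 * ((L.N b : ℝ) + 1) * e b ≤ σ b
    linarith
  · refine ⟨fun b => F.sl_le b, fun b => ⟨F.end_al b, F.end_be b⟩, fun k x hx q hq => D.near hF hS hom hcmp (fun _ => le_rfl)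
      (fun b => (hcω b).trans (by linarith [L.ω0 b])) hx hq,
      fun k hno => D.off hF hS hW hno, ?_, fun x hx b hb => D.vert' hF hS hx hb, ?_, ?_, ?_,
      fun k b t ht σ' hσ' hσk hl => D.circ hF hS ht hσ' hσk hl,
      fun ed b s hs hT hsl => ?_⟩
    · rintro X (⟨k, rfl⟩ | ⟨ed, rfl⟩ | ⟨i, rfl⟩) b y hy hyT t ht hgap
      · exact D.vi hF hS (mesh_sub M k) (D.face k) hy hyT ht hgap
      · exact D.vi hF hS (E.seg_sub_Ω ed) (D.edge ed) hy hyT ht hgap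
      · exact D.vi hF hS (M.sub i) (D.cell i) hy hyT ht hgap
    · intro k b hk ed hed x hx y hy
      exact D.cone hF hS hcω hk (hLam k) (hLf k ed) ((hek k b hk).trans (hεm1 k))
        (cone_sub (hO k) hed)
        (fun hT => by
          obtain ⟨Φ, h1, h2⟩ := hGF k b hT
          exact ⟨Φ, h1, h2 ed hed⟩) hx hy
    · intro k b hk ed hed x hx y hy
      exact D.elip hF hS hcω hk (hLam k) (hLa ed) ((hek k b hk).trans (hεm2 k ed hed)) hed
        (hGE ed b) hx hy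
    · intro k b hk j hj x hx y hy
      exact D.lip hF hS hcω hk hj (hLam k) hx hy
    · obtain ⟨t1, t2, s2, s3, ψ, a1, a2, a3, a4, a5, a6, a7, a8, a9, a10, a11, a12, a13⟩ :=
        D.edge' hF hS (hGE ed b) hs hT hsl
      exact ⟨t1, t2, s2, s3, ψ, a1, a2, a3, a4, a5, a6, a7, a8, a9, a10, a11, a12,
        fun s' hs' s'' hs'' => (a13 s' hs' s'' hs'').trans (by
          have := hεe ed
          gcongr
          linarith)⟩

end P073.H236
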