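import Vale.Agent.P073.H236.GOut2
import Vale.Agent.P073.H236.OutC

/-!
# P073, H236, **[T3OUT-G]**, part 4: the output of ROUND T for a set `G₀` of boxes and a set `Act₀` of
faces, general targets, general staircases

`St2G`: the data after the insertion. `T3OutG`: the output. `St2G.exists_io`: the number `io₀ b`
(slope of the staircase in the gaps) is chosen last.
-/

open Set Metric Topology Filter

namespace P073.H236

open _root_.P073 _root_.P073.Net _root_.P073.PA691 _root_.P073.H579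
open _root_.P073.PR720 (LF)
open Vale.Agent.P073.St (V)
open Vale.Agent.P073.H471 Vale.Agent.P073.H267
open Vale.Agent.P073.H73 (Mesh)
open Vale.Agent.P073.H193 (Edges)
open Vale.Agent.P073.H238 (mesh_sub)

variable {Ω Λ : Set V} {v : V} {K : BoxCx Λ v} {S₀ : Rad K} {W : Wid K S₀} {B : Boxes W}

/-- the face `k` is deep in the full zone of the box `b`, with margin `m ω b` -/
def InTm (m : ℝ) (G : Geo B) (M : Mesh Ω) (h : ConHomeo Ω Λ) (ω : TBx K → ℝ) (b : TBx K)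
    (k : M.κ) : Prop :=
  ∀ x ∈ M.F k, closedBall (h.toFun x) (m * ω b) ⊆ G.TB true b

theorem inTm_iff {G : Geo B} {M : Mesh Ω} {h : ConHomeo Ω Λ} {ω : TBx K → ℝ} {b : TBx K}
    {k : M.κ} : InTm 30 G M h ω b k ↔ InT G M h ω b k := Iff.rfl

/-- **the output of ROUND T** (`h` ↦ `h1`), boxes in `G₀`, drawn faces `Act₀` -/
structure T3OutG (G : Geo B) (M : Mesh Ω) (E : Edges M) (h h1 : ConHomeo Ω Λ) (ω : TBx K → ℝ)
    (m : ℝ) (G₀ : Set (TBx K)) (Act₀ : Set M.κ) (O : M.κ → V) (La : E.ε → ℝ)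
    (Lf : M.κ → E.ε → ℝ) (Lam1 : M.κ → ℝ) (sl : G₀ → Finset (ℝ × ℝ)) : Prop where
  sl_le : ∀ b, ∀ p ∈ sl b, p.1 ≤ p.2
  /-- the ends of the boxes are in slivers -/
  ends : ∀ b : G₀, ¬ NoSl (sl b) (G.tlo true b.1 b.1.ax) ∧ ¬ NoSl (sl b) (G.thi true b.1 b.1.ax)
  /-- (T2) -/
  near : ∀ k, ∀ x ∈ M.F k, ∀ q, h.toFun x ∈ K.cube q → ‖h1.toFun x - h.toFun x‖ ≤ G.om q
  /-- (T3) -/
  off : ∀ k, (∀ x ∈ M.F k, ∀ b ∈ G₀, h.toFun x ∉ G.TB false b) → EqOn h1.toFun h.toFun (M.F k)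
  /-- (T4) -/
  vi : ∀ X, ((∃ k, X = M.F k) ∨ (∃ e, X = E.seg e) ∨ ∃ i, X = M.Q i) →
    ∀ b : G₀, ∀ y ∈ h1.toFun '' X, y ∈ G.TB true b.1 →
    ∀ t ∈ Icc (G.tlo true b.1 b.1.ax) (G.thi true b.1 b.1.ax),
    (∀ r ∈ uIcc (y b.1.ax) t, NoSl (sl b) r) → Function.update y b.1.ax t ∈ h1.toFun '' X
  /-- (T4), vertices -/
  vert : ∀ x ∈ E.verts, ∀ b : G₀, h1.toFun x ∈ G.TB true b.1 →
    ¬ NoSl (sl b) (h1.toFun x b.1.ax)
  /-- deep faces stay in the full zone -/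
  deep : ∀ k, ∀ b : G₀, InTm m G M h ω b.1 k → ∀ x ∈ M.F k, h1.toFun x ∈ G.TB true b.1
  /-- (T6) -/
  cone : ∀ k ∈ Act₀, ∀ b : G₀, InTm m G M h ω b.1 k → ∀ e, E.seg e ⊆ M.F k →
    ∀ x ∈ coneSetAt (O k) (E.seg e), ∀ y ∈ coneSetAt (O k) (E.seg e),
    |h1.toFun x b.1.ax - h1.toFun y b.1.ax| ≤ Lf k e * ‖x - y‖
  /-- (T6), on the edges -/
  elip : ∀ k ∈ Act₀, ∀ b : G₀, InTm m G M h ω b.1 k → ∀ e, E.seg e ⊆ M.F k →
    ∀ x ∈ E.seg e, ∀ y ∈ E.seg e, |h1.toFun x b.1.ax - h1.toFun y b.1.ax| ≤ La e * ‖x - y‖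
  /-- (T7) -/
  lip : ∀ k, ∀ b : G₀, InTm m G M h ω b.1 k → ∀ j, j ≠ b.1.ax → ∀ x ∈ M.F k, ∀ y ∈ M.F k,
    |h1.toFun x j - h1.toFun y j| ≤ Lam1 k * ‖x - y‖
  /-- (T8) -/
  circ : ∀ k ∈ Act₀, ∀ (b : G₀) t, NoSl (sl b) t → ∀ σ, IsCircle σ → σ ⊆ M.F k →
    (∀ x ∈ σ, h1.toFun x ∈ G.TB true b.1 ∧ h1.toFun x b.1.ax = t) → False
  /-- (T9): the edges are vertical between the slivers -/
  edge : ∀ e, (∃ k ∈ Act₀, E.seg e ⊆ M.F k) → ∀ b : G₀, ∀ s ∈ Icc (0:ℝ) 1,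
    h1.toFun (AffineMap.lineMap (E.a e) (E.b e) s) ∈ G.TB true b.1 →
    NoSl (sl b) (h1.toFun (AffineMap.lineMap (E.a e) (E.b e) s) b.1.ax) →
    ∃ (t1 t2 s2 s3 : ℝ) (ψ : ℝ → ℝ), t1 < t2 ∧ (∃ p ∈ sl b, p.2 = t1) ∧ (∃ p ∈ sl b, p.1 = t2) ∧
      (∀ r ∈ Icc t1 t2, NoSl (sl b) r) ∧ 0 < s2 ∧ s2 < s3 ∧ s3 < 1 ∧ s ∈ Icc s2 s3 ∧
      (∀ s' ∈ Icc s2 s3, h1.toFun (AffineMap.lineMap (E.a e) (E.b e) s') =
        Function.update (h1.toFun (AffineMap.lineMap (E.a e) (E.b e) s)) b.1.ax (ψ s')) ∧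
      ContinuousOn ψ (Icc s2 s3) ∧ InjOn ψ (Icc s2 s3) ∧ ψ '' Icc s2 s3 = Icc t1 t2 ∧
      ∀ s' ∈ Icc s2 s3, ∀ s'' ∈ Icc s2 s3, |ψ s' - ψ s''| ≤ La e * ‖E.b e - E.a e‖ * |s' - s''|

variable {G : Geo B} {M : Mesh Ω} {E : Edges M} {h h' : ConHomeo Ω Λ} {ω : TBx K → ℝ}
  {m : ℝ} {G₀ : Set (TBx K)} {Act₀ : Set M.κ} {Bx : G₀ → BX 3} {κ : V → V} {g : ConHomeo Ω Λ}

/-- the face `k` meets a level of the box `b` in `TB true` -/
def ActB (G : Geo B) (M : Mesh Ω) (h : ConHomeo Ω Λ) (G₀ : Set (TBx K)) (Bx : G₀ → BX 3) (b : G₀)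
    (k : M.κ) : Prop :=
  ∃ x ∈ M.F k, h.toFun x ∈ G.TB true b.1 ∧ ∃ i < (Bx b).N, h.toFun x b.1.ax = (Bx b).a i

/-- the box whose full zone is `TB true` -/
noncomputable abbrev Bsm (G : Geo B) {G₀ : Set (TBx K)} (Bx : G₀ → BX 3) (b : G₀) : BX 3 :=
  inner (Bx b) (G.tlo true b.1) (G.thi true b.1)

/-- **the data after the insertion** -/
structure St2G (G : Geo B) (M : Mesh Ω) (E : Edges M) (h h' : ConHomeo Ω Λ) (ω : TBx K → ℝ)
    (G₀ : Set (TBx K)) (Act₀ : Set M.κ) (Bx : G₀ → BX 3) (Ks : G₀ → Set V) (κ : V → V)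
    (g : ConHomeo Ω Λ) : Prop where
  hΩ : IsOpen Ω
  hΛ : IsOpen Λ
  ω0 : ∀ b, 0 < ω b
  /-- the boxes -/
  j : ∀ b, (Bx b).j = b.1.ax
  al : ∀ b, (Bx b).al = G.tlo true b.1 b.1.ax
  be : ∀ b, (Bx b).be = G.thi true b.1 b.1.ax
  full : ∀ b : G₀, ∀ i, i ≠ b.1.ax → (Bx b).lo i ≤ G.tlo true b.1 i ∧
    G.thi true b.1 i ≤ (Bx b).hi i
  /-- the supports of the staircases -/
  sub : ∀ b, (Bx b).K ⊆ Ks b
  subT : ∀ b, Ks b ⊆ G.TB false b.1
  fam : H345.Fam Λ Bx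
  /-- the insertion map -/
  isQ : H345.IsQ Bx κ
  /-- STEP S -/
  rl : Rl Ks (fun b => 12 * ω b.1) Ω h.toFun h'.toFun
  /-- no vertex on a level -/
  nov : ∀ x ∈ E.verts, ∀ b : G₀, h'.toFun x ∈ G.TB true b.1 → ∀ i < (Bx b).N,
    h'.toFun x b.1.ax ≠ (Bx b).a i
  /-- no circle on a level -/
  noc : ∀ k ∈ Act₀, ∀ b : G₀, ∀ i < (Bx b).N, ∀ σ, IsCircle σ → σ ⊆ M.F k →
    (∀ x ∈ σ, h'.toFun x ∈ G.TB true b.1 ∧ h'.toFun x b.1.ax = (Bx b).a i) → False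
  face : ∀ k, g.toFun '' M.F k = Pre κ Λ h' (M.F k)
  edge : ∀ e, g.toFun '' E.seg e = Pre κ Λ h' (E.seg e)
  cell : ∀ i, g.toFun '' M.Q i = Pre κ Λ h' (M.Q i)
  vert : ∀ x ∈ E.verts, κ (g.toFun x) = h'.toFun x

namespace St2G

variable {Ks : G₀ → Set V} (D : St2G G M E h h' ω G₀ Act₀ Bx Ks κ g) {b : G₀} {τ : TG (Bsm G Bx b)} {S : ConHomeo Λ Λ}
include D

theorem js (b : G₀) : (Bsm G Bx b).j = b.1.ax := D.j b

theorem als (b : G₀) : (Bsm G Bx b).al = G.tlo true b.1 b.1.ax := D.al b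

theorem bes (b : G₀) : (Bsm G Bx b).be = G.thi true b.1 b.1.ax := D.be b

theorem fullB {y : V} (hy : y ∈ G.TB true b.1) : FullB (Bsm G Bx b) y := by
  refine ⟨⟨?_, ?_⟩, fun i _ => ⟨hy.1 i, hy.2 i⟩⟩
  · rw [D.als, D.js]; exact hy.1 _
  · rw [D.bes, D.js]; exact hy.2 _

theorem lo_le (b : G₀) : ∀ i, i ≠ (Bx b).j → (Bx b).lo i ≤ G.tlo true b.1 i := fun i hi =>
  (D.full b i (by rwa [D.j] at hi)).1

theorem le_hi (b : G₀) : ∀ i, i ≠ (Bx b).j → G.thi true b.1 i ≤ (Bx b).hi i := fun i hi =>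
  (D.full b i (by rwa [D.j] at hi)).2

theorem mem_K {y : V} (hy : y ∈ G.TB true b.1) : y ∈ (Bx b).K :=
  K_inner (D.lo_le b) (D.le_hi b) (D.fullB hy).mem

theorem prod (b : G₀) : ProdB (Bsm G Bx b) κ := (prodB_of_isQ D.isQ b).inner (D.lo_le b) (D.le_hi b)

theorem flat (b : G₀) : FlatB (Bsm G Bx b) κ := (D.prod b).flat

theorem fib (b : G₀) : FibB Λ (Bsm G Bx b) κ :=
  (fibB_of_isQ D.isQ D.fam b).inner (D.lo_le b) (D.le_hi b)

/-- update of a coordinate inside `TB true` -/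
theorem upd {y : V} (hy : y ∈ G.TB true b.1) {i : ℕ} (hi : i < (Bx b).N) :
    Function.update y b.1.ax ((Bx b).a i) ∈ G.TB true b.1 := by
  have h1 := TG.flat_win hi (t := (Bx b).a i) (by
    rw [sub_self, abs_zero]; exact (Bx b).lvs.c0.le)
  rw [D.al, D.be] at h1
  exact update_TB hy h1.1 h1.2

/-- the insertion map inside the supports -/
theorem mvκ : Mv Ks (fun b => (Bx b).c) κ where
  mem := by
    intro b y hy
    by_cases h1 : y ∈ (Bx b).K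
    · exact D.sub b (D.isQ.mapsK (g := b) h1)
    · by_cases h2 : ∃ b', y ∈ (Bx b').K
      · obtain ⟨b', hb'⟩ := h2
        have hne : b'.1 ≠ b.1 := fun h => h1 (by rwa [← Subtype.ext h])
        have h3 := end_TB hne (D.subT _ (D.sub _ hb')) (D.subT _ hy)
        rw [D.isQ.on b' y hb', H345.Q_eq_self_of_end _ (by rw [D.j, D.al, D.be]; exact h3)]
        exact hy
      · push Not at h2
        rw [D.isQ.off y h2]; exact hy
  near := by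
    intro b y hy
    by_cases h1 : y ∈ (Bx b).K
    · rw [D.isQ.on b y h1]; exact (Bx b).norm_Q_sub_le y
    · by_cases h2 : ∃ b', y ∈ (Bx b').K
      · obtain ⟨b', hb'⟩ := h2
        have hne : b'.1 ≠ b.1 := fun h => h1 (by rwa [← Subtype.ext h])
        have h3 := end_TB hne (D.subT _ (D.sub _ hb')) (D.subT _ hy)
        rw [D.isQ.on b' y hb', H345.Q_eq_self_of_end _ (by rw [D.j, D.al, D.be]; exact h3),
          sub_self, norm_zero]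
        exact (Bx b).lvs.c0.le
      · push Not at h2
        rw [D.isQ.off y h2, sub_self, norm_zero]
        exact (Bx b).lvs.c0.le
  off := fun y hy => D.isQ.off y fun b hb => hy b (D.sub b hb)

/-- (T4) -/
theorem vi (hS : IsF τ S) {X : Set V}
    (hXΩ : X ⊆ Ω) (hX : g.toFun '' X = Pre κ Λ h' X) {y : V}
    (hy : y ∈ (g.trans S).toFun '' X) (hyT : y ∈ G.TB true b.1) {t : ℝ}
    (ht : t ∈ Icc (G.tlo true b.1 b.1.ax) (G.thi true b.1 b.1.ax))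
    (hgap : ∀ r ∈ uIcc (y b.1.ax) t, NoSl τ.sl r) :
    Function.update y b.1.ax t ∈ (g.trans S).toFun '' X := by
  have h2 := image_updateG (D.flat b) hS hX hXΩ (D.fullB hyT) (t := t)
    (by rw [D.als, D.bes]; exact ht) (by rw [D.js]; exact hgap) hy
  rw [D.js] at h2
  exact h2

/-- a band point comes from a level point -/
theorem level (hS : IsF τ S) {X : Set V}
    (hXΩ : X ⊆ Ω) (hX : g.toFun '' X = Pre κ Λ h' X) {y : V}
    (hy : y ∈ (g.trans S).toFun '' X) (hyT : y ∈ G.TB true b.1) (hsl : NoSl τ.sl (y b.1.ax)) :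
    ∃ i < (Bx b).N, y b.1.ax ∈ τ.bd i ∧
      Function.update y b.1.ax ((Bx b).a i) ∈ G.TB true b.1 ∧
      ∃ x ∈ X, h'.toFun x = Function.update y b.1.ax ((Bx b).a i) := by
  obtain ⟨i, hi, h1, x, hx, h2⟩ := level_G (D.flat b) hS hX hXΩ (D.fullB hyT)
    (by rw [D.js]; exact hsl) hy
  rw [D.js] at h1 h2
  exact ⟨i, hi, h1, D.upd hyT hi, x, hx, h2⟩

/-- an edge or a face with a band point is active -/
theorem act (hS : IsF τ S) {X : Set V}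
    (hX : g.toFun '' X = Pre κ Λ h' X) {k : M.κ} (hXk : X ⊆ M.F k) {y : V}
    (hy : y ∈ (g.trans S).toFun '' X) (hyT : y ∈ G.TB true b.1) (hsl : NoSl τ.sl (y b.1.ax)) :
    ActB G M h' G₀ Bx b k := by
  obtain ⟨i, hi, -, h1, x, hx, hxy⟩ := D.level hS (hXk.trans (mesh_sub M k)) hX hy hyT hsl
  exact ⟨x, hXk hx, by rw [hxy]; exact h1, i, hi, by rw [hxy, Function.update_self]⟩

/-- (T4), vertices -/
theorem vert' (hS : IsF τ S) {x : V}
    (hx : x ∈ E.verts) (hT : (g.trans S).toFun x ∈ G.TB true b.1) :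
    ¬ NoSl τ.sl ((g.trans S).toFun x b.1.ax) := by
  intro hsl
  obtain ⟨k, hk⟩ := H345.exists_face_of_vert E hx
  have hxΩ : x ∈ Ω := mesh_sub M k hk
  have h1 := D.fullB hT
  have hgΛ : g.toFun x ∈ Λ := g.mapsTo hxΩ
  have hz : FullB (Bsm G Bx b) (g.toFun x) := (hS.iff hgΛ).1 h1
  obtain ⟨i, hi, hbi⟩ := τ.bd_of_noSl (t := (g.trans S).toFun x b.1.ax)
    (by rw [D.als, D.bes]; exact ⟨hT.1 _, hT.2 _⟩) hsl
  have e2 : (g.trans S).toFun x = Function.update (g.toFun x) (Bsm G Bx b).j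
    (τ.σ (g.toFun x (Bsm G Bx b).j)) := hS.full _ hz
  have h2 : τ.σ (g.toFun x (Bsm G Bx b).j) ∈ τ.bd i := by
    rw [e2, ← D.js, Function.update_self] at hbi
    exact hbi
  have h4 := D.flat b _ hz i hi ((τ.mem_bd hi).1 h2)
  rw [D.vert x hx] at h4
  have h6 : (g.trans S).toFun x = Function.update (h'.toFun x) (Bsm G Bx b).j
      (τ.σ (g.toFun x (Bsm G Bx b).j)) := by
    rw [h4, Function.update_idem]; exact e2
  have h7 : h'.toFun x = Function.update ((g.trans S).toFun x) b.1.ax ((Bsm G Bx b).a i) := by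
    rw [e2, ← D.js, Function.update_idem, h4]
  have h8 : h'.toFun x ∈ G.TB true b.1 := by rw [h7]; exact D.upd hT hi
  exact D.nov x hx b h8 i hi (by rw [h7, Function.update_self])

/-- (T8) -/
theorem circ (hS : IsF τ S) {k : M.κ} (hk : k ∈ Act₀)
    {t : ℝ} (ht : NoSl τ.sl t) {σ : Set V} (hσ : IsCircle σ) (hσk : σ ⊆ M.F k)
    (hl : ∀ x ∈ σ, (g.trans S).toFun x ∈ G.TB true b.1 ∧ (g.trans S).toFun x b.1.ax = t) :
    False := by
  obtain ⟨x₀, hx₀⟩ := circle_ne hσ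
  obtain ⟨h1, h2⟩ := hl x₀ hx₀
  have htI : t ∈ Icc (Bsm G Bx b).al (Bsm G Bx b).be := by
    rw [D.als, D.bes, ← h2]; exact ⟨h1.1 _, h1.2 _⟩
  obtain ⟨i, hi, hbi⟩ := τ.bd_of_noSl htI ht
  obtain ⟨σ', hσ', hσk', hpt⟩ := exists_circleG (D.flat b) hS (D.face k) (mesh_sub M k) hi hbi hσ
    hσk fun x hx => ⟨by rw [D.js]; exact (hl x hx).2, D.fullB (hl x hx).1⟩
  refine D.noc k hk b i hi σ' hσ' hσk' fun x' hx' => ?_
  obtain ⟨x, hx, hxx⟩ := hpt x' hx'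
  rw [D.js] at hxx
  rw [hxx, Function.update_self]
  exact ⟨D.upd (hl x hx).1 hi, rfl⟩

/-- (T2), for a set `X` of the family -/
theorem near {S : ConHomeo Λ Λ} {r : G₀ → ℝ} (hr : ∀ b, 12 * ω b.1 ≤ r b)
    (hc : ∀ b, (Bx b).c ≤ r b) (hSm : Mv Ks r S.toFun)
    (hom : ∀ b : G₀, ∀ y ∈ G.TB false b.1, ∀ q, y ∈ K.cube q → 16 * r b ≤ G.om q)
    {X : Set V} (hXΩ : X ⊆ Ω) (hX : g.toFun '' X = Pre κ Λ h' X)
    (hcmp : ∀ x ∈ X, ∀ x' ∈ X, ∀ q q', h.toFun x ∈ K.cube q →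
      h.toFun x' ∈ K.cube q' → 4 * ‖h.toFun x - h.toFun x'‖ ≤ G.om q ∧ G.om q' ≤ 4 * G.om q)
    {x : V} (hx : x ∈ X) {q : K.T} (hq : h.toFun x ∈ K.cube q) :
    ‖(g.trans S).toFun x - h.toFun x‖ ≤ G.om q := by
  have hr0 : ∀ b, 0 ≤ r b := fun b => by linarith [D.ω0 b.1, hr b]
  obtain ⟨x', hx', h1⟩ := exists_near hr0 (D.rl.mono hr) (D.mvκ.mono hc) hSm hX hXΩ hx
  obtain ⟨q', hq'⟩ := K.cover _ (h.mapsTo (hXΩ hx'))
  obtain ⟨h2, h3⟩ := hcmp x hx x' hx' q q' hq hq'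
  rw [norm_sub_rev] at h2
  have h5 : 0 ≤ ‖h.toFun x' - h.toFun x‖ := norm_nonneg _
  rcases h1 with h1 | ⟨b, hb, h1⟩
  · show ‖S.toFun (g.toFun x) - h.toFun x‖ ≤ _
    rw [h1]
    linarith
  · have h4 := hom b _ (D.subT b hb) q' hq'
    have h6 := norm_sub_le_norm_sub_add_norm_sub (S.toFun (g.toFun x)) (h.toFun x') (h.toFun x)
    show ‖S.toFun (g.toFun x) - h.toFun x‖ ≤ _
    linarith

/-- (T3), for a set `X` of the family -/
theorem off {S : ConHomeo Λ Λ} {r : G₀ → ℝ} (hSm : Mv Ks r S.toFun)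
    {X : Set V} (hXΩ : X ⊆ Ω)
    (hW : (∀ b, Disjoint (Bx b).K (h'.toFun '' X)) → EqOn g.toFun h'.toFun X)
    (hno : ∀ x ∈ X, ∀ b ∈ G₀, h.toFun x ∉ G.TB false b) :
    EqOn (g.trans S).toFun h.toFun X := by
  have hno' : ∀ x ∈ X, ∀ b : G₀, h.toFun x ∉ Ks b := fun x hx b hb =>
    hno x hx b.1 b.2 (D.subT b hb)
  have h1 : ∀ x ∈ X, h'.toFun x = h.toFun x := fun x hx => D.rl.off x (hXΩ hx) (hno' x hx)
  intro x hx
  have h2 : g.toFun x = h'.toFun x := hW (fun b => Set.disjoint_left.2 (by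
    rintro _ hb ⟨x', hx', rfl⟩
    rw [h1 x' hx'] at hb
    exact hno' x' hx' b (D.sub b hb))) hx
  show S.toFun (g.toFun x) = h.toFun x
  rw [h2, h1 x hx]
  exact hSm.off _ (hno' x hx)

/-- deep faces after STEP S -/
theorem inT' {k : M.κ} (hm : 12 ≤ m) (hk : InTm m G M h ω b.1 k) {x : V}
    (hx : x ∈ M.F k) : closedBall (h'.toFun x) ((m - 12) * ω b.1) ⊆ G.TB true b.1 := by
  have h0 := D.ω0 b.1
  intro y hy
  refine hk x hx ?_
  have h1 : h.toFun x ∈ G.TB true b.1 := hk x hx (mem_closedBall_self (by positivity))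
  have h2 := D.rl.near b x (mesh_sub M k hx) (D.sub b (D.mem_K h1))
  beta_reduce at h2
  rw [mem_closedBall] at hy ⊢
  have h3 := dist_triangle y (h'.toFun x) (h.toFun x)
  rw [dist_eq_norm (h'.toFun x)] at h3
  linarith

/-- deep faces after the insertion -/
theorem inT_g (hm : 13 ≤ m) (hcω : (Bx b).c ≤ ω b.1) {k : M.κ}
    (hk : InTm m G M h ω b.1 k) {x : V} (hx : x ∈ M.F k) :
    closedBall (g.toFun x) ((m - 13) * ω b.1) ⊆ G.TB true b.1 := by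
  have h0 := D.ω0 b.1
  have h1 : g.toFun x ∈ Pre κ Λ h' (M.F k) := by
    rw [← D.face k]; exact mem_image_of_mem _ hx
  obtain ⟨x', hx', h2⟩ := h1.2
  have h3 := D.inT' (by linarith) hk hx'
  have h4 : h'.toFun x' ∈ G.TB true b.1 := h3 (mem_closedBall_self (by nlinarith))
  have h5 := D.mem_K h4
  rw [h2] at h5
  have h6 := (D.isQ.mem_iff D.fam).1 h5
  intro y hy
  refine h3 ?_
  have h7 := (mv_isQ D.isQ).near b _ h6
  rw [mem_closedBall] at hy ⊢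
  rw [h2]
  have h8 := dist_triangle y (g.toFun x) (κ (g.toFun x))
  rw [dist_comm (g.toFun x), dist_eq_norm (κ (g.toFun x))] at h8
  linarith

/-- deep faces after the insertion: the coordinate of the box -/
theorem inT_lo (hm : 13 ≤ m) (hcω : (Bx b).c ≤ ω b.1) {k : M.κ}
    (hk : InTm m G M h ω b.1 k) {x : V} (hx : x ∈ M.F k) :
    g.toFun x (Bx b).j ∈ Icc ((Bx b).al + (m - 13) * ω b.1) ((Bx b).be - (m - 13) * ω b.1) := by
  have h0 := D.ω0 b.1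
  have h1 := D.inT_g hm hcω hk hx
  have h2 : 0 ≤ (m - 13) * ω b.1 := mul_nonneg (by linarith) h0.le
  have key : ∀ t : ℝ, |t - g.toFun x b.1.ax| ≤ (m - 13) * ω b.1 →
      Function.update (g.toFun x) b.1.ax t ∈ G.TB true b.1 := by
    intro t ht
    refine h1 ?_
    rw [mem_closedBall, dist_pi_le_iff h2]
    intro i
    by_cases hi : i = b.1.ax
    · rw [hi, Function.update_self, Real.dist_eq]; exact ht
    · rw [Function.update_of_ne hi, dist_self]; exact h2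
  have h3 := (key (g.toFun x b.1.ax - (m - 13) * ω b.1) (by
    rw [show g.toFun x b.1.ax - (m - 13) * ω b.1 - g.toFun x b.1.ax = -((m - 13) * ω b.1) by ring,
      abs_neg, abs_of_nonneg h2])).1 b.1.ax
  have h4 := (key (g.toFun x b.1.ax + (m - 13) * ω b.1) (by
    rw [show g.toFun x b.1.ax + (m - 13) * ω b.1 - g.toFun x b.1.ax = (m - 13) * ω b.1 by ring,
      abs_of_nonneg h2])).2 b.1.ax
  rw [Function.update_self] at h3 h4
  rw [D.j, D.al, D.be]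
  constructor <;> linarith

/-- deep faces after the staircase -/
theorem deep (hS : IsF τ S) (hm : 13 ≤ m) (hcω : (Bx b).c ≤ ω b.1) {k : M.κ}
    (hk : InTm m G M h ω b.1 k) {x : V} (hx : x ∈ M.F k) :
    (g.trans S).toFun x ∈ G.TB true b.1 := by
  have h0 := D.ω0 b.1
  have h1 := D.inT_g hm hcω hk hx (mem_closedBall_self (by nlinarith))
  have h2 := D.fullB h1
  show S.toFun (g.toFun x) ∈ _
  rw [hS.full _ h2, D.js]
  have h3 := τ.l1.win h2.1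
  rw [D.als, D.bes, D.js] at h3
  exact update_TB h1 h3.1 h3.2

/-- (T7) -/
theorem lip (hS : IsF τ S) (hm : 13 ≤ m) (hcω : (Bx b).c ≤ ω b.1) {k : M.κ}
    (hk : InTm m G M h ω b.1 k) {j : Fin 3}
    (hj : j ≠ b.1.ax) {Lam : ℝ} (hLam : ∀ x ∈ M.F k, ∀ y ∈ M.F k,
      ‖g.toFun x - g.toFun y‖ ≤ Lam * ‖x - y‖) {x y : V} (hx : x ∈ M.F k) (hy : y ∈ M.F k) :
    |(g.trans S).toFun x j - (g.trans S).toFun y j| ≤ Lam * ‖x - y‖ := by
  have h0 := D.ω0 b.1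
  have hj' : j ≠ (Bsm G Bx b).j := by rw [D.js]; exact hj
  have key : ∀ z ∈ M.F k, (g.trans S).toFun z j = g.toFun z j := fun z hz => by
    have h1 := D.inT_g hm hcω hk hz (mem_closedBall_self (by nlinarith))
    show S.toFun (g.toFun z) j = _
    rw [hS.full _ (D.fullB h1), Function.update_of_ne hj']
  rw [key x hx, key y hy]
  refine le_trans ?_ (hLam x hx y hy)
  have := norm_le_pi_norm (g.toFun x - g.toFun y) j
  rwa [Pi.sub_apply, Real.norm_eq_abs] at this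

/-- (T6) -/
theorem cone (hS : IsF τ S) {q io lo hi : ℝ} (Wt : τ.Wt q io lo hi)
    (hm : 13 ≤ m) (hcω : (Bx b).c ≤ ω b.1) (hlo : lo ≤ (Bx b).al + (m - 13) * ω b.1)
    (hhi : (Bx b).be - (m - 13) * ω b.1 ≤ hi) {k : M.κ}
    (hk : InTm m G M h ω b.1 k) {Lam ε Lf : ℝ}
    (hLam : ∀ x ∈ M.F k, ∀ y ∈ M.F k, ‖g.toFun x - g.toFun y‖ ≤ Lam * ‖x - y‖)
    (hLf : 0 ≤ Lf) (hε : io * Lam ≤ ε) {X : Set V} (hXk : X ⊆ M.F k)
    (hGF : ActB G M h' G₀ Bx b k → ∀ x ∈ X, ∀ y ∈ X, bandD (LQ (Bx b)) (loQ (Bx b))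
        (hiQ (Bx b)) (omQ (Bx b)) (g.toFun x) (g.toFun y) ≤ Lf * ‖x - y‖)
    {x y : V} (hx : x ∈ X) (hy : y ∈ X) :
    |(g.trans S).toFun x b.1.ax - (g.trans S).toFun y b.1.ax| ≤ (q * Lf + ε) * ‖x - y‖ := by
  have h0 := D.ω0 b.1
  have hmω : 0 ≤ (m - 13) * ω b.1 := mul_nonneg (by linarith) h0.le
  have hfull : ∀ z ∈ M.F k, FullB (Bsm G Bx b) (g.toFun z) := fun z hz =>
    D.fullB (D.inT_g hm hcω hk hz (mem_closedBall_self hmω))
  have hwin : ∀ z ∈ M.F k, g.toFun z (Bsm G Bx b).j ∈ Icc lo hi := fun z hz => by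
    have h1 := D.inT_lo hm hcω hk hz
    exact ⟨hlo.trans h1.1, h1.2.trans hhi⟩
  have hcoord : |g.toFun x (Bsm G Bx b).j - g.toFun y (Bsm G Bx b).j| ≤ Lam * ‖x - y‖ := by
    refine le_trans ?_ (hLam x (hXk hx) y (hXk hy))
    have := norm_le_pi_norm (g.toFun x - g.toFun y) (Bsm G Bx b).j
    rwa [Pi.sub_apply, Real.norm_eq_abs] at this
  have hband : bandD (LQ (Bsm G Bx b)) (loQ (Bsm G Bx b)) (hiQ (Bsm G Bx b)) (omQ (Bsm G Bx b)) (g.toFun x) (g.toFun y) ≤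
      Lf * ‖x - y‖ := by
    by_cases hT : ActB G M h' G₀ Bx b k
    · exact hGF hT x hx y hy
    · have hlev : ∀ z ∈ M.F k, ∀ i < (Bsm G Bx b).N, h'.toFun z (Bsm G Bx b).j ≠ (Bsm G Bx b).a i := by
        intro z hz i hi hzi
        rw [D.js] at hzi
        exact hT ⟨z, hz, D.inT' (by linarith) hk hz (mem_closedBall_self (by nlinarith)), i, hi,
          hzi⟩
      rw [bandD_Q, sum_fl_eq_zeroG (D.flat b) (D.face k) (mesh_sub M k) hlev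
        (face_convex M k).isPreconnected Subset.rfl hfull (hXk hx) (hXk hy), mul_zero]
      exact mul_nonneg hLf (norm_nonneg _)
  have h2 := hS.lipG Wt (hfull x (hXk hx)) (hfull y (hXk hy)) (hwin x (hXk hx))
    (hwin y (hXk hy)) hband hcoord
  rw [D.js] at h2
  refine h2.trans (mul_le_mul_of_nonneg_right ?_ (norm_nonneg _))
  linarith

end St2G

end P073.H236
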