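import Vale.Agent.P073.H267.Geo4
import Vale.Agent.P073.H193.EdgCx
import Vale.Agent.P073.H339.Arcs2

/-!
# P073, H236: the output of ROUND T (STAGE 3), without the statements on tiles and variations

`sl b`: slivers of the box `b`; (T2) `near`, (T3) `off`, (T4) `vi`, `vert`, (T6) `cone`, (T7) `lip`,
(T8) `circ`, (T9) `edge` of the list of H212.
-/

open Set Metric Topology Filter

namespace P073.H236

open _root_.P073 _root_.P073.Net _root_.P073.PA691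
open _root_.P073.PR720 (LF)
open Vale.Agent.P073.St (V)
open Vale.Agent.P073.H471 Vale.Agent.P073.H267
open Vale.Agent.P073.H73 (Mesh)
open Vale.Agent.P073.H193 (Edges)

variable {Ω Λ : Set V} {v : V} {K : BoxCx Λ v} {S : Rad K} {W : Wid K S} {B : Boxes W}

/-- `t` is in no (open) sliver -/
def NoSl (sl : Finset (ℝ × ℝ)) (t : ℝ) : Prop := ∀ p ∈ sl, t ∉ Ioo p.1 p.2

/-- the face `k` is deep in the full zone of the box `b` -/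
def InT (G : Geo B) (M : Mesh Ω) (h : ConHomeo Ω Λ) (ω : TBx K → ℝ) (b : TBx K) (k : M.κ) : Prop :=
  ∀ x ∈ M.F k, closedBall (h.toFun x) (30 * ω b) ⊆ G.TB true b

/-- **the output of ROUND T** (`h` ↦ `h1`) -/
structure T3Out (G : Geo B) (M : Mesh Ω) (E : Edges M) (h h1 : ConHomeo Ω Λ) (ω : TBx K → ℝ)
    (O : M.κ → V) (La : E.ε → ℝ) (Lf : M.κ → E.ε → ℝ) (Lam1 : M.κ → ℝ)
    (sl : TBx K → Finset (ℝ × ℝ)) : Prop where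
  sl_le : ∀ b, ∀ p ∈ sl b, p.1 ≤ p.2
  /-- the ends of the boxes are in slivers -/
  ends : ∀ b, ¬ NoSl (sl b) (G.tlo true b b.ax) ∧ ¬ NoSl (sl b) (G.thi true b b.ax)
  /-- (T2) -/
  near : ∀ k, ∀ x ∈ M.F k, ∀ q, h.toFun x ∈ K.cube q → ‖h1.toFun x - h.toFun x‖ ≤ G.om q
  /-- (T3) -/
  off : ∀ k, (∀ x ∈ M.F k, ∀ b, h.toFun x ∉ G.TB false b) → EqOn h1.toFun h.toFun (M.F k)
  /-- (T4) -/
  vi : ∀ X, ((∃ k, X = M.F k) ∨ (∃ e, X = E.seg e) ∨ ∃ i, X = M.Q i) →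
    ∀ b, ∀ y ∈ h1.toFun '' X, y ∈ G.TB true b →
    ∀ t ∈ Icc (G.tlo true b b.ax) (G.thi true b b.ax),
    (∀ r ∈ uIcc (y b.ax) t, NoSl (sl b) r) → Function.update y b.ax t ∈ h1.toFun '' X
  /-- (T4), vertices -/
  vert : ∀ x ∈ E.verts, ∀ b, h1.toFun x ∈ G.TB true b → ¬ NoSl (sl b) (h1.toFun x b.ax)
  /-- (T6) -/
  cone : ∀ k b, InT G M h ω b k → ∀ e, E.seg e ⊆ M.F k →
    ∀ x ∈ coneSetAt (O k) (E.seg e), ∀ y ∈ coneSetAt (O k) (E.seg e),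
    |h1.toFun x b.ax - h1.toFun y b.ax| ≤ Lf k e * ‖x - y‖
  /-- (T6), on the edges -/
  elip : ∀ k b, InT G M h ω b k → ∀ e, E.seg e ⊆ M.F k → ∀ x ∈ E.seg e, ∀ y ∈ E.seg e,
    |h1.toFun x b.ax - h1.toFun y b.ax| ≤ La e * ‖x - y‖
  /-- (T7) -/
  lip : ∀ k b, InT G M h ω b k → ∀ j, j ≠ b.ax → ∀ x ∈ M.F k, ∀ y ∈ M.F k,
    |h1.toFun x j - h1.toFun y j| ≤ Lam1 k * ‖x - y‖
  /-- (T8) -/
  circ : ∀ k b t, NoSl (sl b) t → ∀ σ, IsCircle σ → σ ⊆ M.F k →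
    (∀ x ∈ σ, h1.toFun x ∈ G.TB true b ∧ h1.toFun x b.ax = t) → False
  /-- (T9): the edges are vertical between the slivers -/
  edge : ∀ e b, ∀ s ∈ Icc (0:ℝ) 1,
    h1.toFun (AffineMap.lineMap (E.a e) (E.b e) s) ∈ G.TB true b →
    NoSl (sl b) (h1.toFun (AffineMap.lineMap (E.a e) (E.b e) s) b.ax) →
    ∃ (t1 t2 s2 s3 : ℝ) (ψ : ℝ → ℝ), t1 < t2 ∧ (∃ p ∈ sl b, p.2 = t1) ∧ (∃ p ∈ sl b, p.1 = t2) ∧
      (∀ r ∈ Icc t1 t2, NoSl (sl b) r) ∧ 0 < s2 ∧ s2 < s3 ∧ s3 < 1 ∧ s ∈ Icc s2 s3 ∧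
      (∀ s' ∈ Icc s2 s3, h1.toFun (AffineMap.lineMap (E.a e) (E.b e) s') =
        Function.update (h1.toFun (AffineMap.lineMap (E.a e) (E.b e) s)) b.ax (ψ s')) ∧
      ContinuousOn ψ (Icc s2 s3) ∧ InjOn ψ (Icc s2 s3) ∧ ψ '' Icc s2 s3 = Icc t1 t2 ∧
      ∀ s' ∈ Icc s2 s3, ∀ s'' ∈ Icc s2 s3, |ψ s' - ψ s''| ≤ La e * ‖E.b e - E.a e‖ * |s' - s''|

end P073.H236
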