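import Vale.Agent.P073.H880.RP4
import Vale.Agent.P073.H669.PLwH

/-!
# P073, H236, **[F3W]**: the staircases of ROUND P over the levels `PLw` (windows)

As in `H880/RP4`, section `stairs`, for `PLw` instead of `PLg`: displacement `μ s + Bg s`, and at
most `μ s` off the windows.
-/

open Set Metric Topology Filter
open scoped ENNReal

set_option linter.unusedSectionVars false

namespace P073.H880.RP

open _root_.P073 _root_.P073.Net _root_.P073.PA691 _root_.P073.H236 _root_.P073.H579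
  _root_.P073.H345 _root_.P073.H880
open Vale.Agent.P073.St (V)
open Vale.Agent.P073.H471 Vale.Agent.P073.H267 Vale.Agent.P073.H267.Geo
open Vale.Agent.P073.H73 (Mesh)
open Vale.Agent.P073.H193 (Edges Cyc)
open Vale.Agent.P073.H687 (PLw)
open _root_.P073.H196 (halfX ThP thP halfX_K_sub sshape_of_eq SShape lamP th)
open _root_.P073.H142 (PS3 BxR)

variable {Ω Λ : Set V} {v : V} {K : BoxCx Λ v} {S : Rad K} {W : Wid K S} {B : Boxes W}
  {G : Geo B} {h1 : ConHomeo Ω Λ}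

variable {Ts : K.S → Bool → Finset (ℝ × ℝ)} {η r : ℝ} {τ : Type*} {Fc : τ → Set V} {C : Set ℝ}
  {ξ : Type*} {sa sb : ξ → V} {εE : ξ → ℝ} {Wn : K.S → Bool → Set ℝ}
  {Jn : K.S → Bool → Finset (ℝ × ℝ)} {μ Bg δ : K.S → ℝ}
  (Lg : PLw G h1 Ts η r Fc C sa sb εE Wn Jn μ Bg δ) {c : K.S → Bool → ℝ} {c0 : ∀ s β, 0 < c s β}
  {c1 : ∀ s β, c s β ≤ Lg.lev.c s β}

theorem isBxW_half (β : Bool) (s : K.S) : Lg.IsBx β s (halfX ((thinL Lg.lev c c0 c1).bx β s)) where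
  j := rfl
  N := rfl
  a := rfl
  al := rfl
  be := rfl
  c := c1 s β
  sub := (halfX_K_sub _).trans (Lg.bx_sub s β)

variable (c0 c1) in
/-- **the staircases of ROUND P**: thin flats, half of the fade -/
noncomputable def F3W (S₀ : Set K.S) (e : Bool → S₀ → ℝ) (he : ∀ β s, 0 < e β s)
    (he8 : ∀ β (s : S₀), e β s ≤ δ s.1 / 8) (β : Bool) : BFam 3 S₀ Λ :=
  Lg.bfamX β (fun s : S₀ => halfX ((thinL Lg.lev c c0 c1).bx β s.1))
    (fun s => isBxW_half Lg β s.1) (e β) (he β) (he8 β)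

variable {S₀ : Set K.S} {e : Bool → S₀ → ℝ} {he : ∀ β s, 0 < e β s}
  {he8 : ∀ β (s : S₀), e β s ≤ δ s.1 / 8}

theorem F3W_B (β : Bool) (s : S₀) : (F3W Lg c0 c1 S₀ e he he8 β).B s =
    halfX ((thinL Lg.lev c c0 c1).bx β s.1) := rfl

theorem F3W_e (β : Bool) (s : S₀) : (F3W Lg c0 c1 S₀ e he he8 β).e s = e β s := rfl

theorem F3W_D (β : Bool) (s : S₀) : (F3W Lg c0 c1 S₀ e he he8 β).D s = μ s.1 + Bg s.1 := rfl

theorem F3W_om (β : Bool) (s : S₀) : (F3W Lg c0 c1 S₀ e he he8 β).om s = Lg.om s.1 β := rfl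

theorem bxR_halfW (β : Bool) (s : K.S) :
    BxR (halfX ((thinL Lg.lev c c0 c1).bx β s)) ((thinL Lg.lev c c0 c1).bx β s) :=
  BxR.half _ _

/-- the displacement -/
theorem F3W_disp (β : Bool) (s : S₀) (t : ℝ) :
    |(F3W Lg c0 c1 S₀ e he he8 β).σ s t - t| ≤ μ s.1 + Bg s.1 :=
  (isBxW_half Lg β s.1).disp Lg (he β s) (he8 β s) t

/-- the displacement off the windows -/
theorem F3W_disp_out (β : Bool) (s : S₀) {t : ℝ} (ht : t ∉ Wn s.1 β) :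
    |(F3W Lg c0 c1 S₀ e he he8 β).σ s t - t| ≤ μ s.1 :=
  (isBxW_half Lg β s.1).disp_out Lg (he β s) (he8 β s) ht

theorem F3W_ps {T : Bool → ConHomeo Λ Λ} (hT : ∀ β, (F3W Lg c0 c1 S₀ e he he8 β).IsS (T β)) :
    PS3 (thinL Lg.lev c c0 c1) S₀ (F3W Lg c0 c1 S₀ e he he8) T :=
  ⟨fun β s => bxR_halfW Lg β s.1, hT⟩

/-- the slope of the staircases over thin flats, after `Θ` -/
theorem F3W_slope (β : Bool) (s : S₀) (t t' : ℝ) :
    |(F3W Lg c0 c1 S₀ e he he8 β).σ s (th (Lg.lev.bx β s.1).lvs.L (Lg.lev.bx β s.1).c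
        (lamP Lg.lev c s.1 β) t) -
      (F3W Lg c0 c1 S₀ e he he8 β).σ s (th (Lg.lev.bx β s.1).lvs.L (Lg.lev.bx β s.1).c
        (lamP Lg.lev c s.1 β) t')| ≤ 10 * |t - t'| := by
  have h0 := Lg.δ0 s.1
  have hN := Lg.pos s.1
  have he' := he β s
  have he8' := he8 β s
  have hc0 := c0 s.1 β
  have hc1 : c s.1 β ≤ δ s.1 / 8 := c1 s.1 β
  have hom := Lg.om_ge s.1 β
  have hNs := Lg.Ns s.1 β
  have key := _root_.P073.H196.abs_sm_th_sub_le (Lg.lev.bx β s.1).lvs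
    ((thinL Lg.lev c c0 c1).bx β s.1).lvs ((F3W Lg c0 c1 S₀ e he he8 β).tgt s)
    (_root_.P073.H196.lamP_pos c0 s.1 β) (_root_.P073.H196.lamP_le c1 s.1 β)
    (_root_.P073.H196.lamP_mul s.1 β).symm (q := 16) (Lg.om_le_c s.1 β) ?_ ?_ ?_ ?_ t t'
  · refine key.trans (le_of_eq ?_)
    norm_num
  · show 2 * e β s ≤ Lg.om s.1 β
    linarith
  · have h1 := (Lg.lv s.1 β).ge 0 hN
    change K.slo s.1 (tg s.1 β) + G.a s.1 + e β s - (K.slo s.1 (tg s.1 β) + G.a s.1) ≤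
      Lg.a s.1 β 0 - c s.1 β - (K.slo s.1 (tg s.1 β) + G.a s.1)
    linarith
  · intro k hk
    have hk' : k + 1 < Lg.N s.1 := hk
    have h3 := (Lg.lv s.1 β).gap k hk'
    change 2 * e β s ≤ Lg.a s.1 β (k + 1) - Lg.a s.1 β k - 2 * c s.1 β
    linarith
  · have h2 := (Lg.lv s.1 β).le (Lg.N s.1 - 1) (Nat.sub_lt hN one_pos)
    change K.shi s.1 (tg s.1 β) - G.a s.1 - (K.slo s.1 (tg s.1 β) + G.a s.1 +
      (Lg.N s.1 : ℝ) * Lg.om s.1 β - e β s) ≤ K.shi s.1 (tg s.1 β) - G.a s.1 -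
      (Lg.a s.1 β (Lg.N s.1 - 1) + c s.1 β)
    rw [hNs]
    unfold Vale.Agent.P073.H669.wl
    linarith

/-- **the staircases and `Θ`** -/
theorem F3W_thP {hΛ : IsOpen Λ} {T Θ : Bool → ConHomeo Λ Λ}
    (hT : ∀ β, (F3W Lg c0 c1 S₀ e he he8 β).IsS (T β))
    (hΘ : ∀ β, (thP Lg.lev c c0 c1 hΛ S₀ β).IsH (Θ β)) :
    ThP Lg.lev c c0 c1 hΛ S₀ (F3W Lg c0 c1 S₀ e he he8) T Θ 10 where
  shape := fun β => sshape_of_eq fun s => rfl
  isS := hT
  isΘ := hΘ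
  A2 := by norm_num
  slope := F3W_slope Lg

theorem F3W_exists (hΛ : IsOpen Λ) : ∃ T : Bool → ConHomeo Λ Λ,
    ∀ β, (F3W Lg c0 c1 S₀ e he he8 β).IsS (T β) := by
  choose T hT using fun β => (F3W Lg c0 c1 S₀ e he he8 β).exists_isS hΛ
  exact ⟨T, hT⟩

end P073.H880.RP
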