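import Vale.Agent.P073.H236.Stage3

/-!
# P073, H236, STAGE 3 (b): metric estimates for `S ∘ g` in the full zone
-/

open Set Metric Topology Filter

namespace P073.H236

open P073

/-- the staircase on the whole window, when the two end pieces are flat, too -/
theorem abs_stair_sub_le_sum' {N : ℕ} {al be : ℝ} {lo hi T T' : ℕ → ℝ} (h : Arr N al be lo hi)
    (h' : Arr N al be T T') {ι : ℝ} (hι : 0 ≤ ι)
    (h0 : (T 0 - al) / (lo 0 - al) ≤ ι)
    (hgap : ∀ k, k + 1 < N → (T (k + 1) - T' k) / (lo (k + 1) - hi k) ≤ ι)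
    (h3 : (be - T' (N - 1)) / (be - hi (N - 1)) ≤ ι)
    {s t : ℝ} (hs : s ∈ Icc al be) (ht : t ∈ Icc al be) :
    |stair N al be lo hi T T' s - stair N al be lo hi T T' t| ≤
      ∑ k ∈ Finset.range N, (T' k - T k) / (hi k - lo k) *
        |clam (lo k) (hi k) s - clam (lo k) (hi k) t| + ι * |s - t| := by
  classical
  have hN := h.pos
  set J : Finset ℕ := (Finset.range N).image fun k => 2 * k + 1 with hJ
  have hJg : ∀ j < 2 * N + 1, j ∉ J → slp (bp N al be lo hi) (bp N al be T T') j ≤ ι := by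
    refine piece_cases (P := fun j => j ∉ J → slp (bp N al be lo hi) (bp N al be T T') j ≤ ι)
      hN ?_ ?_ ?_ ?_
    · intro _; rw [slp_first hN]; exact h0
    · intro k hk h1
      refine absurd ?_ h1
      simp only [hJ, Finset.mem_image, Finset.mem_range]
      exact ⟨k, hk, rfl⟩
    · intro k hk _
      rw [slp_even hk]; exact hgap k hk
    · intro _; rw [slp_last hN]; exact h3
  have hx0 : bp N al be lo hi 0 = al := bp_zero
  have hxn : bp N al be lo hi (2 * N + 1) = be := bp_last
  have key := abs_pl_sub_le_sum h.inc (fun j hj => (h'.inc j hj).le) J hι hJg (s := s) (t := t)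
    (by rw [hx0, hxn]; exact hs) (by rw [hx0, hxn]; exact ht)
  refine key.trans (add_le_add_left ?_ _)
  set f : ℕ → ℝ := fun j => slp (bp N al be lo hi) (bp N al be T T') j *
    |clam (bp N al be lo hi j) (bp N al be lo hi (j + 1)) s -
      clam (bp N al be lo hi j) (bp N al be lo hi (j + 1)) t| with hf
  have hsum : ∑ j ∈ Finset.range (2 * N + 1) with j ∈ J, f j =
      ∑ j ∈ (Finset.range N).image (fun k => 2 * k + 1), f j := by
    apply Finset.sum_congr _ fun _ _ => rfl
    ext j
    rw [Finset.mem_filter, Finset.mem_range, ← hJ]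
    constructor
    · exact fun h1 => h1.2
    · intro h1
      refine ⟨?_, h1⟩
      rw [hJ, Finset.mem_image] at h1
      obtain ⟨k, hk, rfl⟩ := h1
      rw [Finset.mem_range] at hk
      omega
  show ∑ j ∈ Finset.range (2 * N + 1) with j ∈ J, f j ≤ _
  rw [hsum, Finset.sum_image (by intro a _ b _ hab; simp only at hab; omega)]
  apply Finset.sum_le_sum
  intro k hk
  rw [Finset.mem_range] at hk
  have e : 2 * k + 1 + 1 = 2 * k + 2 := by omega
  simp only [hf]
  rw [slp_odd hk, e, bp_odd hk, bp_even hk]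

/-- **the staircase of a box in its window**: weights `(om - 2 e) / 2 c` on the flats, and `e / c`
times the rest -/
theorem abs_sm_sub_le_win {N : ℕ} {a : ℕ → ℝ} {c al be e : ℝ} (h : Lvs N a c al be) (he : 0 < e)
    (heo : 2 * e < stp N al be) {s t : ℝ} (hs : s ∈ Icc al be) (ht : t ∈ Icc al be) :
    |sm N a c al be al (stp N al be) e s - sm N a c al be al (stp N al be) e t| ≤
      (stp N al be - 2 * e) / (2 * c) *
        ∑ k ∈ Finset.range N, |fl c (a k) s - fl c (a k) t| + e / c * |s - t| := by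
  have hc := h.c0
  have hT := Tgt.full h.pos he heo
  have hN' : (N : ℝ) ≠ 0 := by have := h.pos; positivity
  have hcast : ((N - 1 : ℕ) : ℝ) + 1 = N := by
    rw [Nat.cast_sub h.pos]; simp
  have hNs : (N : ℝ) * stp N al be = be - al := by unfold stp; rw [mul_div_cancel₀ _ hN']
  have hfirst := h.first
  have hlast := h.last
  have key := abs_stair_sub_le_sum' h.arr (hT.arr h.pos) (ι := e / c) (by positivity) (by
    rw [div_le_div_iff₀ (by linarith) hc]
    simp only [Nat.cast_zero, zero_mul, add_zero, add_sub_cancel_left]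
    exact mul_le_mul_of_nonneg_left (by linarith) he.le) (by
    intro k hk
    have h5 := h.sep k hk
    rw [div_le_div_iff₀ (by linarith) hc]
    push_cast
    have e1 : al + ((k:ℝ) + 1) * stp N al be + e - (al + (k + 1) * stp N al be - e) = 2 * e := by
      ring
    rw [e1]
    nlinarith) (by
    rw [div_le_div_iff₀ (by linarith) hc]
    show (be - (al + (((N - 1 : ℕ) : ℝ) + 1) * stp N al be - e)) * c ≤ _
    rw [hcast, hNs]
    have e1 : be - (al + (be - al) - e) = e := by ring
    rw [e1]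
    exact mul_le_mul_of_nonneg_left (by linarith) he.le) hs ht
  refine key.trans (le_of_eq ?_)
  congr 1
  rw [Finset.mul_sum]
  refine Finset.sum_congr rfl fun k _ => ?_
  rw [fl_eq_clam, fl_eq_clam]
  congr 2 <;> ring

variable {E : Type*} [NormedAddCommGroup E] [NormedSpace ℝ E] {ι : Type*}
  {Ω : Set E} {Λ : Set (Fin 3 → ℝ)} {F : BFam 3 ι Λ} {g : ConHomeo Ω Λ} {S : ConHomeo Λ Λ}
  {b : ι} {k : ℕ} {x y : E}

/-- **(T6)**: the coordinate of the box in the full zone -/
theorem BFam.IsS.sub_le (hS : F.IsS S) (hx : F.FullK b (g.toFun x)) (hy : F.FullK b (g.toFun y)) :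
    |(g.trans S).toFun x (F.B b).j - (g.trans S).toFun y (F.B b).j| ≤
      (F.om b - 2 * F.e b) / (2 * (F.B b).c) * ∑ k ∈ Finset.range (F.B b).N,
        |fl (F.B b).c ((F.B b).a k) (g.toFun x (F.B b).j) -
          fl (F.B b).c ((F.B b).a k) (g.toFun y (F.B b).j)| +
      F.e b / (F.B b).c * |g.toFun x (F.B b).j - g.toFun y (F.B b).j| := by
  show |S.toFun (g.toFun x) (F.B b).j - S.toFun (g.toFun y) (F.B b).j| ≤ _
  rw [hS.full hx, hS.full hy, Function.update_self, Function.update_self]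
  exact abs_sm_sub_le_win (F.B b).lvs (F.he b) (F.heo b) hx.1 hy.1

/-- **(T6)**, from the face estimate of [PFACE] / [HFACE] -/
theorem BFam.IsS.lip (hS : F.IsS S) (hx : F.FullK b (g.toFun x)) (hy : F.FullK b (g.toFun y)) {K₁ K₂ : ℝ}
    (h1 : F.om b * ∑ k ∈ Finset.range (F.B b).N,
      |fl (F.B b).c ((F.B b).a k) (g.toFun x (F.B b).j) -
        fl (F.B b).c ((F.B b).a k) (g.toFun y (F.B b).j)| / (2 * (F.B b).c) ≤ K₁ * ‖x - y‖)
    (h2 : |g.toFun x (F.B b).j - g.toFun y (F.B b).j| ≤ K₂ * ‖x - y‖) :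
    |(g.trans S).toFun x (F.B b).j - (g.trans S).toFun y (F.B b).j| ≤
      (K₁ + F.e b / (F.B b).c * K₂) * ‖x - y‖ := by
  refine (hS.sub_le hx hy).trans ?_
  have hc := (F.B b).lvs.c0
  have he := F.he b
  have h0 : 0 ≤ ∑ k ∈ Finset.range (F.B b).N,
      |fl (F.B b).c ((F.B b).a k) (g.toFun x (F.B b).j) -
        fl (F.B b).c ((F.B b).a k) (g.toFun y (F.B b).j)| :=
    Finset.sum_nonneg fun _ _ => abs_nonneg _
  have h3 : (F.om b - 2 * F.e b) / (2 * (F.B b).c) * ∑ k ∈ Finset.range (F.B b).N,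
        |fl (F.B b).c ((F.B b).a k) (g.toFun x (F.B b).j) -
          fl (F.B b).c ((F.B b).a k) (g.toFun y (F.B b).j)| ≤ K₁ * ‖x - y‖ := by
    refine le_trans ?_ h1
    rw [← Finset.sum_div, ← mul_div_assoc, div_mul_eq_mul_div]
    gcongr
    linarith
  have h4 : F.e b / (F.B b).c * |g.toFun x (F.B b).j - g.toFun y (F.B b).j| ≤
      F.e b / (F.B b).c * (K₂ * ‖x - y‖) := by gcongr
  linarith

end P073.H236
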