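import Vale.Agent.P073.Conical

/-!
# P073, H236, STAIR (S): piecewise linear homeomorphisms of the line

`pl n x v` is affine on `[x j, x (j+1)]`, `j < n`, with `pl (x j) = v j`, and a translation outside.
-/

open Set Metric Topology Filter

namespace P073.H236

open P073

/-- the length of `[l, r] ∩ (-∞, t]` -/
def clam (l r t : ℝ) : ℝ := max 0 (min (t - l) (r - l))

theorem clam_of_le {l r t : ℝ} (h : t ≤ l) : clam l r t = 0 :=
  max_eq_left (min_le_of_left_le (by linarith))

theorem clam_of_ge {l r t : ℝ} (hlr : l ≤ r) (h : r ≤ t) : clam l r t = r - l := by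
  unfold clam; rw [min_eq_right (by linarith), max_eq_right (by linarith)]

theorem clam_of_mem {l r t : ℝ} (h1 : l ≤ t) (h2 : t ≤ r) : clam l r t = t - l := by
  unfold clam; rw [min_eq_left (by linarith), max_eq_right (by linarith)]

theorem clam_mono (l r : ℝ) : Monotone (clam l r) := fun s t h =>
  max_le_max le_rfl (min_le_min (by linarith) le_rfl)

theorem clam_nonneg (l r t : ℝ) : 0 ≤ clam l r t := le_max_left _ _

theorem clam_continuous (l r : ℝ) : Continuous (clam l r) := by unfold clam; fun_prop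

theorem clam_conicalOn (l r : ℝ) : ConicalOn (clam l r) univ := by
  have hu : ConicalSet (univ : Set ℝ) := isOpen_univ.conicalSet
  have hid : ConicalOn (fun r : ℝ => r) univ := conicalOn_id hu
  have h0 : ConicalOn (fun _ : ℝ => (0:ℝ)) univ := conicalOn_const 0 hu
  have e0 : ContinuousOn (fun _ : ℝ => (0:ℝ)) univ := by fun_prop
  have e1 : ContinuousOn (fun t : ℝ => t - l) univ := by fun_prop
  have e2 : ContinuousOn (fun _ : ℝ => r - l) univ := by fun_prop
  have e3 : ContinuousOn (fun t : ℝ => min (t - l) (r - l)) univ := by fun_prop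
  exact h0.rmax ((hid.sub (conicalOn_const l hu)).rmin (conicalOn_const (r - l) hu) e1 e2) e0 e3

/-- additivity of `clam` -/
theorem clam_add {a b : ℝ} (hab : a ≤ b) (t : ℝ) :
    clam a b t + max 0 (t - b) = max 0 (t - a) := by
  rcases le_total t a with h | h
  · rw [clam_of_le h, max_eq_left (by linarith), max_eq_left (by linarith), add_zero]
  · rcases le_total t b with h2 | h2
    · rw [clam_of_mem h h2, max_eq_left (by linarith), max_eq_right (by linarith), add_zero]
    · rw [clam_of_ge hab h2, max_eq_right (by linarith), max_eq_right (by linarith)]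
      ring

/-- slopes -/
noncomputable def slp (x v : ℕ → ℝ) (j : ℕ) : ℝ := (v (j + 1) - v j) / (x (j + 1) - x j)

/-- the piecewise linear map -/
noncomputable def pl (n : ℕ) (x v : ℕ → ℝ) (t : ℝ) : ℝ :=
  v 0 + min 0 (t - x 0) + ∑ j ∈ Finset.range n, slp x v j * clam (x j) (x (j + 1)) t +
    max 0 (t - x n)

/-- increasing breakpoints -/
def Inc (n : ℕ) (x : ℕ → ℝ) : Prop := ∀ j < n, x j < x (j + 1)

theorem Inc.mono {n : ℕ} {x : ℕ → ℝ} (h : Inc n x) : ∀ {i j : ℕ}, i ≤ j → j ≤ n → x i ≤ x j := by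
  intro i j hij
  induction hij with
  | refl => intro _; exact le_rfl
  | step _ ih => intro hj; exact (ih (by omega)).trans (h _ (by omega)).le

theorem Inc.of_le {n m : ℕ} {x : ℕ → ℝ} (h : Inc n x) (hm : m ≤ n) : Inc m x :=
  fun j hj => h j (by omega)

/-- the sum of the pieces -/
theorem sum_clam {n : ℕ} {x : ℕ → ℝ} (h : Inc n x) (t : ℝ) :
    ∑ j ∈ Finset.range n, clam (x j) (x (j + 1)) t + max 0 (t - x n) = max 0 (t - x 0) := by
  induction n with
  | zero => simp
  | succ n ih =>
    rw [Finset.sum_range_succ, add_assoc, clam_add (h n (by omega)).le]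
    exact ih (h.of_le (by omega))

theorem min_add_max (a : ℝ) : min 0 a + max 0 a = a := by
  rcases le_total 0 a with h | h
  · rw [min_eq_left h, max_eq_right h, zero_add]
  · rw [min_eq_right h, max_eq_left h, add_zero]

section
variable {n : ℕ} {x v : ℕ → ℝ}

theorem pl_of_le (h : Inc n x) {t : ℝ} (ht : t ≤ x 0) : pl n x v t = v 0 + (t - x 0) := by
  have h1 : ∑ j ∈ Finset.range n, slp x v j * clam (x j) (x (j + 1)) t = 0 := by
    apply Finset.sum_eq_zero
    intro j hj
    rw [Finset.mem_range] at hj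
    rw [clam_of_le (ht.trans (h.mono (Nat.zero_le _) hj.le)), mul_zero]
  unfold pl
  rw [h1, min_eq_right (by linarith),
    max_eq_left (by linarith [h.mono (Nat.zero_le n) le_rfl])]
  ring

theorem sum_of_ge (h : Inc n x) {i : ℕ} (hi : i ≤ n) {t : ℝ} (ht : x i ≤ t) :
    ∑ j ∈ Finset.range i, slp x v j * clam (x j) (x (j + 1)) t = v i - v 0 := by
  rw [← Finset.sum_range_sub v i]
  apply Finset.sum_congr rfl
  intro j hj
  rw [Finset.mem_range] at hj
  have h1 := h j (by omega)
  rw [clam_of_ge h1.le ((h.mono (by omega : j + 1 ≤ i) hi).trans ht)]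
  unfold slp
  rw [div_mul_cancel₀ _ (by linarith)]

theorem sum_of_le (h : Inc n x) {i m : ℕ} (hm : m ≤ n) (him : i ≤ m) {t : ℝ} (ht : t ≤ x i) :
    ∑ j ∈ Finset.range m, slp x v j * clam (x j) (x (j + 1)) t =
      ∑ j ∈ Finset.range i, slp x v j * clam (x j) (x (j + 1)) t := by
  symm
  apply Finset.sum_subset
  · intro j hj
    rw [Finset.mem_range] at *
    omega
  · intro j hj hj2
    rw [Finset.mem_range] at *
    rw [clam_of_le (ht.trans (h.mono (by omega : i ≤ j) (by omega))), mul_zero]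

theorem pl_of_ge (h : Inc n x) {t : ℝ} (ht : x n ≤ t) : pl n x v t = v n + (t - x n) := by
  have h0 := h.mono (Nat.zero_le n) le_rfl
  unfold pl
  rw [sum_of_ge h le_rfl ht, min_eq_left (by linarith), max_eq_right (by linarith)]
  ring

theorem pl_piece (h : Inc n x) {i : ℕ} (hi : i < n) {t : ℝ} (h1 : x i ≤ t) (h2 : t ≤ x (i + 1)) :
    pl n x v t = v i + slp x v i * (t - x i) := by
  have h0 := h.mono (Nat.zero_le i) hi.le
  have hn := h.mono (by omega : i + 1 ≤ n) le_rfl
  unfold pl
  rw [sum_of_le h le_rfl (by omega : i + 1 ≤ n) h2, Finset.sum_range_succ, sum_of_ge h hi.le h1,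
    clam_of_mem h1 h2, min_eq_left (by linarith), max_eq_left (by linarith)]
  ring

theorem pl_apply (h : Inc n x) {i : ℕ} (hi : i ≤ n) : pl n x v (x i) = v i := by
  rcases hi.lt_or_eq with h1 | h1
  · rw [pl_piece h h1 le_rfl (h i h1).le]; ring
  · subst h1; rw [pl_of_ge h le_rfl]; ring

theorem pl_continuous (n : ℕ) (x v : ℕ → ℝ) : Continuous (pl n x v) := by
  have := fun j => clam_continuous (x j) (x (j + 1))
  unfold pl; fun_prop

theorem pl_conicalOn (n : ℕ) (x v : ℕ → ℝ) : ConicalOn (pl n x v) univ := by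
  have hu : ConicalSet (univ : Set ℝ) := isOpen_univ.conicalSet
  have hid : ConicalOn (fun r : ℝ => r) univ := conicalOn_id hu
  have h0 : ConicalOn (fun _ : ℝ => (0:ℝ)) univ := conicalOn_const 0 hu
  have e0 : ContinuousOn (fun _ : ℝ => (0:ℝ)) univ := by fun_prop
  have e1 : ContinuousOn (fun t : ℝ => t - x 0) univ := by fun_prop
  have e2 : ContinuousOn (fun t : ℝ => t - x n) univ := by fun_prop
  have h2 : ∀ m : ℕ, ConicalOn (fun t : ℝ => ∑ j ∈ Finset.range m,
      slp x v j * clam (x j) (x (j + 1)) t) univ := by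
    intro m
    induction m with
    | zero => simpa using h0
    | succ m ih =>
      simp only [Finset.sum_range_succ]
      exact ih.add ((clam_conicalOn _ _).const_smul (slp x v m))
  have h3 : ConicalOn (fun t : ℝ => v 0 + min 0 (t - x 0)) univ :=
    (conicalOn_const (v 0) hu).add (h0.rmin (hid.sub (conicalOn_const _ hu)) e0 e1)
  exact (h3.add (h2 n)).add (h0.rmax (hid.sub (conicalOn_const _ hu)) e0 e2)

theorem slp_pos (hx : Inc n x) (hv : Inc n v) {j : ℕ} (hj : j < n) : 0 < slp x v j :=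
  div_pos (sub_pos.2 (hv j hj)) (sub_pos.2 (hx j hj))

/-- the difference of two values -/
theorem pl_sub (n : ℕ) (x v : ℕ → ℝ) (s t : ℝ) : pl n x v t - pl n x v s =
    (min 0 (t - x 0) - min 0 (s - x 0)) +
    ∑ j ∈ Finset.range n, slp x v j * (clam (x j) (x (j + 1)) t - clam (x j) (x (j + 1)) s) +
    (max 0 (t - x n) - max 0 (s - x n)) := by
  unfold pl
  simp only [mul_sub, Finset.sum_sub_distrib]
  ring

theorem sub_eq_pl (h : Inc n x) (s t : ℝ) : t - s =
    (min 0 (t - x 0) - min 0 (s - x 0)) +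
    ∑ j ∈ Finset.range n, (clam (x j) (x (j + 1)) t - clam (x j) (x (j + 1)) s) +
    (max 0 (t - x n) - max 0 (s - x n)) := by
  have h1 := sum_clam h t
  have h2 := sum_clam h s
  have h3 := min_add_max (t - x 0)
  have h4 := min_add_max (s - x 0)
  rw [Finset.sum_sub_distrib]
  linarith

/-- **the upper estimate**: slopes `≤ L` -/
theorem pl_sub_le (h : Inc n x) {L : ℝ} (hL : 1 ≤ L) (hs : ∀ j < n, slp x v j ≤ L) {s t : ℝ}
    (hst : s ≤ t) : pl n x v t - pl n x v s ≤ L * (t - s) := by
  have a1 : 0 ≤ min 0 (t - x 0) - min 0 (s - x 0) := by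
    have : min 0 (s - x 0) ≤ min 0 (t - x 0) := min_le_min le_rfl (by linarith)
    linarith
  have a2 : 0 ≤ max 0 (t - x n) - max 0 (s - x n) := by
    have : max 0 (s - x n) ≤ max 0 (t - x n) := max_le_max le_rfl (by linarith)
    linarith
  have a3 : ∑ j ∈ Finset.range n, slp x v j *
        (clam (x j) (x (j + 1)) t - clam (x j) (x (j + 1)) s) ≤
      L * ∑ j ∈ Finset.range n, (clam (x j) (x (j + 1)) t - clam (x j) (x (j + 1)) s) := by
    rw [Finset.mul_sum]
    apply Finset.sum_le_sum
    intro j hj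
    exact mul_le_mul_of_nonneg_right (hs j (Finset.mem_range.1 hj))
      (sub_nonneg.2 (clam_mono _ _ hst))
  rw [pl_sub, sub_eq_pl h s t]
  nlinarith

/-- **the lower estimate**: slopes `≥ l` -/
theorem le_pl_sub (h : Inc n x) {l : ℝ} (hl : l ≤ 1) (hs : ∀ j < n, l ≤ slp x v j) {s t : ℝ}
    (hst : s ≤ t) : l * (t - s) ≤ pl n x v t - pl n x v s := by
  have a1 : 0 ≤ min 0 (t - x 0) - min 0 (s - x 0) := by
    have : min 0 (s - x 0) ≤ min 0 (t - x 0) := min_le_min le_rfl (by linarith)
    linarith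
  have a2 : 0 ≤ max 0 (t - x n) - max 0 (s - x n) := by
    have : max 0 (s - x n) ≤ max 0 (t - x n) := max_le_max le_rfl (by linarith)
    linarith
  have a3 : l * ∑ j ∈ Finset.range n, (clam (x j) (x (j + 1)) t - clam (x j) (x (j + 1)) s) ≤
      ∑ j ∈ Finset.range n, slp x v j *
        (clam (x j) (x (j + 1)) t - clam (x j) (x (j + 1)) s) := by
    rw [Finset.mul_sum]
    apply Finset.sum_le_sum
    intro j hj
    exact mul_le_mul_of_nonneg_right (hs j (Finset.mem_range.1 hj))
      (sub_nonneg.2 (clam_mono _ _ hst))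
  rw [pl_sub, sub_eq_pl h s t]
  nlinarith

theorem pl_monotone (hx : Inc n x) (hv : ∀ j < n, v j ≤ v (j + 1)) : Monotone (pl n x v) := by
  intro s t hst
  have := le_pl_sub (v := v) hx zero_le_one (fun j hj =>
    div_nonneg (sub_nonneg.2 (hv j hj)) (sub_pos.2 (hx j hj)).le) hst
  linarith

theorem pl_strictMono (hx : Inc n x) (hv : Inc n v) : StrictMono (pl n x v) := by
  obtain ⟨l, hl0, hl1, hl⟩ : ∃ l : ℝ, 0 < l ∧ l ≤ 1 ∧ ∀ j < n, l ≤ slp x v j := by
    rcases Nat.eq_zero_or_pos n with h0 | h0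
    · subst h0; exact ⟨1, one_pos, le_rfl, fun j hj => absurd hj (Nat.not_lt_zero j)⟩
    · have hne : (Finset.range n).Nonempty := ⟨0, Finset.mem_range.2 h0⟩
      refine ⟨min 1 ((Finset.range n).inf' hne (slp x v)), ?_, min_le_left _ _, fun j hj => ?_⟩
      · refine lt_min one_pos ((Finset.lt_inf'_iff hne).2 fun j hj =>
          slp_pos hx hv (Finset.mem_range.1 hj))
      · exact (min_le_right _ _).trans (Finset.inf'_le _ (Finset.mem_range.2 hj))
  intro s t hst
  have := le_pl_sub (v := v) hx hl1 hl hst.le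
  nlinarith

theorem abs_pl_sub_le (h : Inc n x) (hv : ∀ j < n, v j ≤ v (j + 1)) {L : ℝ} (hL : 1 ≤ L)
    (hs : ∀ j < n, slp x v j ≤ L) (s t : ℝ) : |pl n x v s - pl n x v t| ≤ L * |s - t| := by
  wlog hst : t ≤ s generalizing s t
  · rw [abs_sub_comm, abs_sub_comm s t]
    exact this t s (le_of_not_ge hst)
  have h1 := pl_monotone h hv hst
  rw [abs_of_nonneg (by linarith), abs_of_nonneg (by linarith)]
  exact pl_sub_le h hL hs hst

theorem exists_piece (h : Inc n x) (t : ℝ) :
    t ≤ x 0 ∨ x n ≤ t ∨ ∃ i < n, x i ≤ t ∧ t ≤ x (i + 1) := by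
  induction n with
  | zero => rcases le_total t (x 0) with h1 | h1 <;> simp [h1]
  | succ n ih =>
    rcases ih (h.of_le (by omega)) with h1 | h1 | ⟨i, hi, h1⟩
    · exact Or.inl h1
    · rcases le_total t (x (n + 1)) with h2 | h2
      · exact Or.inr (Or.inr ⟨n, by omega, h1, h2⟩)
      · exact Or.inr (Or.inl h2)
    · exact Or.inr (Or.inr ⟨i, by omega, h1⟩)

/-- **the inverse** -/
theorem pl_pl (hx : Inc n x) (hv : Inc n v) (t : ℝ) : pl n v x (pl n x v t) = t := by
  rcases exists_piece hx t with h1 | h1 | ⟨i, hi, h1, h2⟩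
  · rw [pl_of_le hx h1, pl_of_le hv (by linarith)]; ring
  · rw [pl_of_ge hx h1, pl_of_ge hv (by linarith)]; ring
  · have a1 := hx i hi
    have a2 := hv i hi
    have a3 : slp x v i * (x (i + 1) - x i) = v (i + 1) - v i :=
      div_mul_cancel₀ _ (by linarith)
    have a4 := slp_pos hx hv hi
    rw [pl_piece hx hi h1 h2, pl_piece hv hi (by nlinarith) (by nlinarith)]
    have a5 : slp v x i * slp x v i = 1 := by
      unfold slp
      rw [div_mul_div_comm, mul_comm, div_self]
      exact mul_ne_zero (by linarith) (by linarith)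
    have : slp v x i * (v i + slp x v i * (t - x i) - v i) =
        (slp v x i * slp x v i) * (t - x i) := by ring
    rw [this, a5]
    ring

/-- displacement -/
theorem abs_pl_sub_self_le (hx : Inc n x) {D : ℝ} (hD : ∀ j ≤ n, |v j - x j| ≤ D) (t : ℝ) :
    |pl n x v t - t| ≤ D := by
  rcases exists_piece hx t with h1 | h1 | ⟨i, hi, h1, h2⟩
  · rw [pl_of_le hx h1]
    have := hD 0 (Nat.zero_le _)
    have e : v 0 + (t - x 0) - t = v 0 - x 0 := by ring
    rwa [e]
  · rw [pl_of_ge hx h1]
    have := hD n le_rfl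
    have e : v n + (t - x n) - t = v n - x n := by ring
    rwa [e]
  · rw [pl_piece hx hi h1 h2]
    have a1 := hx i hi
    have b1 := abs_le.1 (hD i hi.le)
    have b2 := abs_le.1 (hD (i + 1) hi)
    set w := (t - x i) / (x (i + 1) - x i) with hw
    have w0 : 0 ≤ w := div_nonneg (by linarith) (by linarith)
    have w1 : w ≤ 1 := by rw [hw, div_le_one (by linarith)]; linarith
    have w2 : w * (x (i + 1) - x i) = t - x i := div_mul_cancel₀ _ (by linarith)
    have e1 : slp x v i * (t - x i) = w * (v (i + 1) - v i) := by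
      rw [← w2]; unfold slp
      rw [mul_comm w, ← mul_assoc, div_mul_cancel₀ _ (by linarith)]
      ring
    have e2 : v i + slp x v i * (t - x i) - t =
        (1 - w) * (v i - x i) + w * (v (i + 1) - x (i + 1)) := by
      rw [e1]; linear_combination w2
    rw [e2, abs_le]
    constructor <;> nlinarith

/-- **the decomposition in the zone of the breakpoints**: the pieces outside `J` have slopes
`≤ ι` -/
theorem abs_pl_sub_le_sum (hx : Inc n x) (hv : ∀ j < n, v j ≤ v (j + 1)) (J : Finset ℕ) {ι : ℝ}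
    (hι : 0 ≤ ι) (hJ : ∀ j < n, j ∉ J → slp x v j ≤ ι) {s t : ℝ} (hs : s ∈ Icc (x 0) (x n))
    (ht : t ∈ Icc (x 0) (x n)) : |pl n x v s - pl n x v t| ≤
      ∑ j ∈ Finset.range n with j ∈ J, slp x v j *
        |clam (x j) (x (j + 1)) s - clam (x j) (x (j + 1)) t| + ι * |s - t| := by
  classical
  wlog hst : t ≤ s generalizing s t
  · rw [abs_sub_comm, abs_sub_comm s t]
    have := this ht hs (le_of_not_ge hst)
    simp only [abs_sub_comm (clam _ _ t)] at this
    exact this
  have h1 := pl_monotone hx hv hst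
  rw [abs_of_nonneg (by linarith), abs_of_nonneg (by linarith : 0 ≤ s - t), pl_sub,
    min_eq_left (by linarith [hs.1]), min_eq_left (by linarith [ht.1]),
    max_eq_left (by linarith [hs.2]), max_eq_left (by linarith [ht.2])]
  have e := sub_eq_pl hx t s
  rw [min_eq_left (by linarith [hs.1]), min_eq_left (by linarith [ht.1]),
    max_eq_left (by linarith [hs.2]), max_eq_left (by linarith [ht.2])] at e
  have hd : ∀ j, 0 ≤ clam (x j) (x (j + 1)) s - clam (x j) (x (j + 1)) t := fun j =>
    sub_nonneg.2 (clam_mono _ _ hst)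
  rw [← Finset.sum_filter_add_sum_filter_not (Finset.range n) (fun j => j ∈ J)]
  have a1 : ∑ j ∈ Finset.range n with j ∉ J, slp x v j *
      (clam (x j) (x (j + 1)) s - clam (x j) (x (j + 1)) t) ≤
      ι * ∑ j ∈ Finset.range n, (clam (x j) (x (j + 1)) s - clam (x j) (x (j + 1)) t) := by
    rw [Finset.mul_sum]
    refine (Finset.sum_le_sum fun j hj => ?_).trans
      (Finset.sum_le_sum_of_subset_of_nonneg (Finset.filter_subset _ _)
        fun j _ _ => mul_nonneg hι (hd j))
    rw [Finset.mem_filter, Finset.mem_range] at hj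
    exact mul_le_mul_of_nonneg_right (hJ j hj.1 hj.2) (hd j)
  have a2 : ∀ j ∈ (Finset.range n).filter (fun j => j ∈ J),
      slp x v j * (clam (x j) (x (j + 1)) s - clam (x j) (x (j + 1)) t) =
      slp x v j * |clam (x j) (x (j + 1)) s - clam (x j) (x (j + 1)) t| := fun j _ => by
    rw [abs_of_nonneg (hd j)]
  rw [Finset.sum_congr rfl a2]
  have e2 : ∑ j ∈ Finset.range n, (clam (x j) (x (j + 1)) s - clam (x j) (x (j + 1)) t) = s - t := by
    linarith
  rw [e2] at a1
  linarith

end

end P073.H236
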