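import Vale.Agent.P073.H579.Ins

/-!
# P073, H236, STAIR (V): vertical clip maps

`vc j k m y` changes only the coordinate `y j`, into `max (y j - m y) (min (y j + m y) (k (y j)))`,
i.e. `y j + clip (k (y j) - y j, -m y, m y)`. Here `k` is a monotone conical function of one
variable and `m` a nonnegative conical function which does not depend on `y j`.
-/

open Set Metric Topology Filter

namespace P073.H236

open P073

variable {n : ℕ}

/-- the one dimensional clip -/
def cl (k : ℝ → ℝ) (m t : ℝ) : ℝ := max (t - m) (min (t + m) (k t))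

theorem cl_eq_add (k : ℝ → ℝ) (m t : ℝ) : cl k m t = t + max (-m) (min m (k t - t)) := by
  unfold cl
  rw [← max_add_add_left, ← min_add_add_left]
  congr 1
  congr 1
  ring

theorem cl_zero (k : ℝ → ℝ) (t : ℝ) : cl k 0 t = t := by
  unfold cl
  rw [sub_zero, add_zero]
  exact max_eq_left (min_le_left _ _)

theorem cl_eq {k : ℝ → ℝ} {m t : ℝ} (h : |k t - t| ≤ m) : cl k m t = k t := by
  unfold cl
  obtain ⟨h1, h2⟩ := abs_le.1 h
  rw [min_eq_right (by linarith), max_eq_right (by linarith)]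

theorem cl_fix {k : ℝ → ℝ} {m t : ℝ} (hm : 0 ≤ m) (h : k t = t) : cl k m t = t := by
  rw [cl_eq (by rw [h, sub_self, abs_zero]; exact hm), h]

theorem abs_cl_sub_le {k : ℝ → ℝ} {m t : ℝ} (hm : 0 ≤ m) : |cl k m t - t| ≤ m := by
  unfold cl
  rw [abs_le]
  constructor
  · have := le_max_left (t - m) (min (t + m) (k t)); linarith
  · have h1 : max (t - m) (min (t + m) (k t)) ≤ t + m :=
      max_le (by linarith) (min_le_left _ _)
    linarith

theorem abs_cl_sub_le' {k : ℝ → ℝ} {m t : ℝ} (hm : 0 ≤ m) : |cl k m t - t| ≤ |k t - t| := by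
  by_cases h : |k t - t| ≤ m
  · rw [cl_eq h]
  · exact (abs_cl_sub_le hm).trans (not_le.1 h).le

/-- the clip lies between `t` and `k t` -/
theorem cl_mem_uIcc {k : ℝ → ℝ} {m t : ℝ} (hm : 0 ≤ m) : cl k m t ∈ uIcc t (k t) := by
  unfold cl
  rcases le_total t (k t) with h | h
  · rw [uIcc_of_le h]
    exact ⟨le_max_of_le_right (le_min (by linarith) h), max_le (by linarith) (min_le_right _ _)⟩
  · rw [uIcc_of_ge h]
    refine ⟨?_, max_le (by linarith) ((min_le_right _ _).trans h)⟩
    rw [min_eq_right (by linarith)]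
    exact le_max_right _ _

theorem cl_mono {k : ℝ → ℝ} (hk : Monotone k) (m : ℝ) : Monotone (cl k m) := fun s t h =>
  max_le_max (by linarith) (min_le_min (by linarith) (hk h))

theorem cl_strictMono {k : ℝ → ℝ} (hk : StrictMono k) (m : ℝ) : StrictMono (cl k m) := fun s t h =>
  max_lt_max (by linarith) (min_lt_min (by linarith) (hk h))

theorem cl_continuous {k : ℝ → ℝ} (hk : Continuous k) (m : ℝ) : Continuous (cl k m) := by
  unfold cl; fun_prop

/-- Lipschitz estimate -/
theorem abs_cl_sub_cl_le {k : ℝ → ℝ} {L m m' t t' : ℝ} (hL : 1 ≤ L)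
    (hk : |k t - k t'| ≤ L * |t - t'|) : |cl k m t - cl k m' t'| ≤ L * |t - t'| + |m - m'| := by
  unfold cl
  have h0 : |t - t'| ≤ L * |t - t'| := by nlinarith [abs_nonneg (t - t')]
  have h1 := abs_max_sub_max_le_max (t - m) (min (t + m) (k t)) (t' - m') (min (t' + m') (k t'))
  have h2 := abs_min_sub_min_le_max (t + m) (k t) (t' + m') (k t')
  have h3 : |t - m - (t' - m')| ≤ |t - t'| + |m - m'| := by
    have : t - m - (t' - m') = (t - t') - (m - m') := by ring
    rw [this]; exact abs_sub _ _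
  have h4 : |t + m - (t' + m')| ≤ |t - t'| + |m - m'| := by
    have : t + m - (t' + m') = (t - t') + (m - m') := by ring
    rw [this]; exact abs_add_le _ _
  refine h1.trans (max_le (by linarith) (h2.trans (max_le (by linarith) ?_)))
  linarith [abs_nonneg (m - m')]

/-- the inverse of a clip is the clip of the inverse -/
theorem cl_cl {k k' : ℝ → ℝ} (hk : StrictMono k) (hk' : ∀ t, k' (k t) = t) (hk'm : Monotone k')
    {m : ℝ} (hm : 0 ≤ m) (t : ℝ) : cl k' m (cl k m t) = t := by
  have h2 : ∀ s, cl k' m s = max (s - m) (min (s + m) (k' s)) := fun s => rfl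
  rcases le_or_gt (|k t - t|) m with h | h
  · rw [cl_eq h]
    rw [cl_eq (by rw [hk', abs_sub_comm]; exact h), hk']
  · rcases lt_abs.1 h with h | h
    · -- `t + m < k t`
      have h3 : cl k m t = t + m := by
        unfold cl
        rw [min_eq_left (by linarith), max_eq_right (by linarith)]
      rw [h3, h2]
      have h4 : k' (t + m) ≤ t := by
        have := hk'm (by linarith : t + m ≤ k t)
        rwa [hk'] at this
      rw [min_eq_right (by linarith), max_eq_left (by linarith)]
      ring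
    · have h3 : cl k m t = t - m := by
        unfold cl
        rw [min_eq_right (by linarith), max_eq_left (by linarith)]
      rw [h3, h2]
      have h4 : t ≤ k' (t - m) := by
        have := hk'm (by linarith : k t ≤ t - m)
        rwa [hk'] at this
      rw [min_eq_left (by linarith), max_eq_right (by linarith)]
      ring

/-- a clip is onto, with control of the displacement -/
theorem exists_cl_eq {k : ℝ → ℝ} (hk : Continuous k) {m : ℝ} (hm : 0 ≤ m) (s : ℝ) :
    ∃ t, |t - s| ≤ m ∧ cl k m t = s := by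
  have h1 : cl k m (s - m) ≤ s := by
    have := (abs_le.1 (abs_cl_sub_le (k := k) (t := s - m) hm)).2; linarith
  have h2 : s ≤ cl k m (s + m) := by
    have := (abs_le.1 (abs_cl_sub_le (k := k) (t := s + m) hm)).1; linarith
  obtain ⟨t, ht, hts⟩ := intermediate_value_Icc (f := cl k m) (by linarith : s - m ≤ s + m)
    (cl_continuous hk m).continuousOn ⟨h1, h2⟩
  exact ⟨t, abs_le.2 ⟨by linarith [ht.1], by linarith [ht.2]⟩, hts⟩

/-- the vertical clip map -/
def vc (j : Fin n) (k : ℝ → ℝ) (m : (Fin n → ℝ) → ℝ) (y : Fin n → ℝ) : Fin n → ℝ :=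
  Function.update y j (cl k (m y) (y j))

variable {j : Fin n} {k : ℝ → ℝ} {m : (Fin n → ℝ) → ℝ}

theorem vc_same (y : Fin n → ℝ) : vc j k m y j = cl k (m y) (y j) := by simp [vc]

theorem vc_ne {i : Fin n} (hi : i ≠ j) (y : Fin n → ℝ) : vc j k m y i = y i := by
  simp [vc, hi]

/-- the data of a vertical clip map -/
structure VD (j : Fin n) (k : ℝ → ℝ) (m : (Fin n → ℝ) → ℝ) : Prop where
  kc : Continuous k
  kk : ConicalOn k univ
  km : Monotone k
  mc : Continuous m
  mcon : ConicalOn m univ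
  m0 : ∀ y, 0 ≤ m y
  mj : ∀ y t, m (Function.update y j t) = m y

namespace VD

theorem m_congr (h : VD j k m) {y y' : Fin n → ℝ} (hy : ∀ i, i ≠ j → y i = y' i) : m y = m y' := by
  have : Function.update y j (y' j) = y' := by
    ext i
    by_cases hi : i = j
    · subst hi; simp
    · simp [hi, hy i hi]
  rw [← this, h.mj]

theorem m_vc (h : VD j k m) {k' : ℝ → ℝ} {m' : (Fin n → ℝ) → ℝ} (y : Fin n → ℝ) :
    m (vc j k' m' y) = m y := h.mj _ _

theorem continuous (h : VD j k m) : Continuous (vc j k m) := by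
  have h1 := h.kc
  have h2 := h.mc
  unfold vc cl
  exact continuous_id.update j (by fun_prop)

theorem conicalOn (h : VD j k m) : ConicalOn (vc j k m) univ := by
  have hu : ConicalSet (univ : Set (Fin n → ℝ)) := isOpen_univ.conicalSet
  have hj : ConicalOn (fun y : Fin n → ℝ => y j) univ :=
    conicalOn_linear (LinearMap.proj j : (Fin n → ℝ) →ₗ[ℝ] ℝ) hu
  have hjc : ContinuousOn (fun y : Fin n → ℝ => y j) univ := by fun_prop
  have hmc : ContinuousOn m univ := h.mc.continuousOn
  have hkj : ConicalOn (fun y : Fin n → ℝ => k (y j)) univ :=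
    ConicalOn.comp (g := k) h.kk hj (mapsTo_univ _ _) hjc
  have hkjc : ContinuousOn (fun y : Fin n → ℝ => k (y j)) univ :=
    (h.kc.comp (continuous_apply j)).continuousOn
  have hc1 : ContinuousOn (fun y : Fin n → ℝ => y j + m y) univ := hjc.add hmc
  have hc2 : ContinuousOn (fun y : Fin n → ℝ => y j - m y) univ := hjc.sub hmc
  have hc3 : ContinuousOn (fun y : Fin n → ℝ => min (y j + m y) (k (y j))) univ :=
    ContinuousOn.inf hc1 hkjc
  have hcl : ConicalOn (fun y : Fin n → ℝ => cl k (m y) (y j)) univ :=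
    ConicalOn.rmax (hj.sub h.mcon) ((hj.add h.mcon).rmin hkj hc1 hkjc) hc2 hc3
  intro x _
  refine conicalWithinAt_pi (hu x (mem_univ x)) fun i => ?_
  by_cases hi : i = j
  · subst hi
    exact (hcl x (mem_univ x)).congr_of_eqOn (fun y _ => vc_same y) (mem_univ x)
  · exact ((conicalOn_linear (LinearMap.proj i : (Fin n → ℝ) →ₗ[ℝ] ℝ) hu) x
      (mem_univ x)).congr_of_eqOn (fun y _ => vc_ne hi y) (mem_univ x)

theorem eq_self (h : VD j k m) {y : Fin n → ℝ} (hy : m y = 0 ∨ k (y j) = y j) :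
    vc j k m y = y := by
  have : cl k (m y) (y j) = y j := by
    rcases hy with hy | hy
    · rw [hy, cl_zero]
    · exact cl_fix (h.m0 y) hy
  unfold vc
  rw [this, Function.update_eq_self]

theorem eq_full {y : Fin n → ℝ} (hy : |k (y j) - y j| ≤ m y) :
    vc j k m y = Function.update y j (k (y j)) := by
  unfold vc; rw [cl_eq hy]

theorem abs_sub_le (h : VD j k m) (y : Fin n → ℝ) : |vc j k m y j - y j| ≤ m y := by
  rw [vc_same]; exact abs_cl_sub_le (h.m0 y)

theorem abs_sub_le' (h : VD j k m) (y : Fin n → ℝ) : |vc j k m y j - y j| ≤ |k (y j) - y j| := by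
  rw [vc_same]; exact abs_cl_sub_le' (h.m0 y)

theorem norm_sub_le (h : VD j k m) (y : Fin n → ℝ) : ‖vc j k m y - y‖ ≤ m y := by
  rw [pi_norm_le_iff_of_nonneg (h.m0 y)]
  intro i
  by_cases hi : i = j
  · subst hi; exact h.abs_sub_le y
  · rw [Pi.sub_apply, vc_ne hi, sub_self, norm_zero]; exact h.m0 y

theorem norm_sub_le' (h : VD j k m) (y : Fin n → ℝ) : ‖vc j k m y - y‖ ≤ |k (y j) - y j| := by
  rw [pi_norm_le_iff_of_nonneg (abs_nonneg _)]
  intro i
  by_cases hi : i = j
  · subst hi; exact h.abs_sub_le' y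
  · rw [Pi.sub_apply, vc_ne hi, sub_self, norm_zero]; exact abs_nonneg _

/-- monotone on every vertical line -/
theorem mono (h : VD j k m) {y y' : Fin n → ℝ} (hy : ∀ i, i ≠ j → y i = y' i) (hj : y j ≤ y' j) :
    vc j k m y j ≤ vc j k m y' j := by
  rw [vc_same, vc_same, h.m_congr hy]
  exact cl_mono h.km _ hj

/-- Lipschitz estimate for the vertical coordinate -/
theorem abs_vc_sub_vc_le {L : ℝ} (hL : 1 ≤ L) {y y' : Fin n → ℝ}
    (hk : |k (y j) - k (y' j)| ≤ L * |y j - y' j|) :
    |vc j k m y j - vc j k m y' j| ≤ L * |y j - y' j| + |m y - m y'| := by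
  rw [vc_same, vc_same]; exact abs_cl_sub_cl_le hL hk

/-- two points with the same image lie on a vertical line -/
theorem eq_update (_h : VD j k m) {y y' : Fin n → ℝ} (hy : vc j k m y = vc j k m y') :
    y' = Function.update y j (y' j) := by
  ext i
  by_cases hi : i = j
  · subst hi; simp
  · have := congrFun hy i
    rw [vc_ne hi, vc_ne hi] at this
    simp [hi, this]

/-- the fibres are points or vertical segments -/
theorem fibre (h : VD j k m) {y y' : Fin n → ℝ} (hy : vc j k m y = vc j k m y') {t : ℝ}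
    (ht : t ∈ Icc (y j) (y' j)) : vc j k m (Function.update y j t) = vc j k m y := by
  have h1 := h.eq_update hy
  ext i
  by_cases hi : i = j
  · subst hi
    have e1 : ∀ l, l ≠ i → y l = Function.update y i t l := fun l hl => by simp [hl]
    have e2 : ∀ l, l ≠ i → Function.update y i t l = y' l := fun l hl => by
      rw [h1]; simp [hl]
    have a1 := h.mono e1 (by simpa using ht.1)
    have a2 := h.mono e2 (by simpa using ht.2)
    have a3 := congrFun hy i
    exact le_antisymm (a2.trans a3.ge) a1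
  · rw [vc_ne hi, vc_ne hi]; simp [hi]

/-- onto, with control of the displacement -/
theorem exists_eq (h : VD j k m) (y : Fin n → ℝ) :
    ∃ t, |t - y j| ≤ m y ∧ vc j k m (Function.update y j t) = y := by
  obtain ⟨t, ht, hts⟩ := exists_cl_eq h.kc (h.m0 y) (y j)
  refine ⟨t, ht, ?_⟩
  ext i
  by_cases hi : i = j
  · subst hi
    rw [vc_same, h.mj, Function.update_self, hts]
  · rw [vc_ne hi]; simp [hi]

/-- `Λ` is stable under the vertical moves of length at most `m` -/
def Stab (j : Fin n) (m : (Fin n → ℝ) → ℝ) (Λ : Set (Fin n → ℝ)) : Prop :=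
  ∀ y ∈ Λ, ∀ t, |t - y j| ≤ m y → Function.update y j t ∈ Λ

theorem mapsTo (h : VD j k m) {Λ : Set (Fin n → ℝ)} (hΛ : Stab j m Λ) :
    MapsTo (vc j k m) Λ Λ := fun y hy =>
  hΛ y hy _ (abs_cl_sub_le (h.m0 y))

theorem mem_of_vc_mem (h : VD j k m) {Λ : Set (Fin n → ℝ)} (hΛ : Stab j m Λ) {y : Fin n → ℝ}
    (hy : vc j k m y ∈ Λ) : y ∈ Λ := by
  have h1 : y = Function.update (vc j k m y) j (y j) := by simp [vc]
  rw [h1]
  refine hΛ _ hy _ ?_
  rw [h.m_vc, abs_sub_comm]
  exact h.abs_sub_le y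

theorem surjOn (h : VD j k m) {Λ : Set (Fin n → ℝ)} (hΛ : Stab j m Λ) :
    SurjOn (vc j k m) Λ Λ := by
  intro y hy
  obtain ⟨t, ht, hty⟩ := h.exists_eq y
  exact ⟨_, hΛ y hy t ht, hty⟩

theorem norm_le_of (h : VD j k m) (y : Fin n → ℝ) : ‖y‖ ≤ ‖vc j k m y‖ + m y := by
  have h4 := h.norm_sub_le y
  have h5 : ‖y‖ ≤ ‖vc j k m y‖ + ‖y - vc j k m y‖ := norm_le_norm_add_norm_sub' _ _
  rw [norm_sub_rev] at h5
  linarith

/-- preimages of compact sets are compact -/
theorem isCompact_pre (h : VD j k m) {Λ : Set (Fin n → ℝ)} (hΛ : Stab j m Λ)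
    {C : Set (Fin n → ℝ)} (hC : IsCompact C) (hCΛ : C ⊆ Λ) :
    IsCompact (Λ ∩ vc j k m ⁻¹' C) := by
  have h1 : Λ ∩ vc j k m ⁻¹' C = vc j k m ⁻¹' C :=
    Set.inter_eq_right.2 fun y hy => h.mem_of_vc_mem hΛ (hCΛ hy)
  rw [h1]
  obtain ⟨R, hR⟩ := hC.isBounded.exists_norm_le
  obtain ⟨M, hM⟩ := (hC.image h.mc).isBounded.exists_norm_le
  have hb : Bornology.IsBounded (vc j k m ⁻¹' C) := by
    rw [isBounded_iff_forall_norm_le]
    refine ⟨R + M, fun y hy => ?_⟩
    have h2 := hR _ hy
    have h3 := hM _ (mem_image_of_mem m hy)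
    have h6 : m (vc j k m y) = m y := h.m_vc y
    rw [h6] at h3
    have h4 := h.norm_le_of y
    have h5 : m y ≤ ‖m y‖ := Real.le_norm_self _
    linarith
  exact Metric.isCompact_of_isClosed_isBounded (hC.isClosed.preimage h.continuous) hb

/-- **a vertical clip map is an insertion map** -/
theorem insMap (h : VD j k m) {Λ : Set (Fin n → ℝ)} (hΛo : IsOpen Λ) (hΛ : Stab j m Λ) :
    H579.InsMap (vc j k m) Λ Λ where
  isOpen := hΛo
  cont := h.continuous.continuousOn
  maps := h.mapsTo hΛ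
  surj := h.surjOn hΛ
  proper := fun _ hC hCΛ => h.isCompact_pre hΛ hC hCΛ

/-- sets which are invariant under vertical moves inside the bands `R` are invariant under the
clip map, if `k` moves points only inside bands -/
theorem mem_iff (h : VD j k m) {R : ℝ → ℝ → Prop} {X : Set (Fin n → ℝ)}
    (hX : ∀ y ∈ X, ∀ t, R (y j) t → Function.update y j t ∈ X) (hsym : ∀ s t, R s t → R t s)
    (hR : ∀ t, ∀ t' ∈ uIcc t (k t), R t t') (y : Fin n → ℝ) : vc j k m y ∈ X ↔ y ∈ X := by
  have h1 : R (y j) (vc j k m y j) := by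
    rw [vc_same]; exact hR _ _ (cl_mem_uIcc (h.m0 y))
  constructor
  · intro hy
    have := hX _ hy (y j) (hsym _ _ h1)
    rwa [show Function.update (vc j k m y) j (y j) = y by simp [vc]] at this
  · intro hy
    have := hX _ hy _ h1
    rwa [vc_same] at this

/-- **strictly monotone profile: a conical homeomorphism** -/
noncomputable def homeo (h : VD j k m) {k' : ℝ → ℝ} (h' : VD j k' m) (hk : StrictMono k)
    (hk'' : StrictMono k') (hl : ∀ t, k' (k t) = t) (hr : ∀ t, k (k' t) = t)
    {Λ : Set (Fin n → ℝ)} (hΛo : IsOpen Λ) (hΛ : Stab j m Λ) : ConHomeo Λ Λ where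
  toFun := vc j k m
  invFun := vc j k' m
  mapsTo := h.mapsTo hΛ
  mapsTo_inv := h'.mapsTo hΛ
  left_inv := fun y _ => by
    have h1 : vc j k' m (vc j k m y) j = y j := by
      rw [vc_same, h.m_vc, vc_same, cl_cl hk hl hk''.monotone (h.m0 y)]
    ext i
    by_cases hi : i = j
    · subst hi; exact h1
    · rw [vc_ne hi, vc_ne hi]
  right_inv := fun y _ => by
    have h1 : vc j k m (vc j k' m y) j = y j := by
      rw [vc_same, h'.m_vc, vc_same, cl_cl hk'' hr hk.monotone (h.m0 y)]
    ext i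
    by_cases hi : i = j
    · subst hi; exact h1
    · rw [vc_ne hi, vc_ne hi]
  cont := h.continuous.continuousOn
  cont_inv := h'.continuous.continuousOn
  conical := h.conicalOn.mono hΛo.conicalSet (subset_univ _)

@[simp] theorem homeo_toFun (h : VD j k m) {k' : ℝ → ℝ} (h' : VD j k' m) (hk : StrictMono k)
    (hk'' : StrictMono k') (hl : ∀ t, k' (k t) = t) (hr : ∀ t, k (k' t) = t)
    {Λ : Set (Fin n → ℝ)} (hΛo : IsOpen Λ) (hΛ : Stab j m Λ) :
    (h.homeo h' hk hk'' hl hr hΛo hΛ).toFun = vc j k m := rfl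

@[simp] theorem homeo_invFun (h : VD j k m) {k' : ℝ → ℝ} (h' : VD j k' m) (hk : StrictMono k)
    (hk'' : StrictMono k') (hl : ∀ t, k' (k t) = t) (hr : ∀ t, k (k' t) = t)
    {Λ : Set (Fin n → ℝ)} (hΛo : IsOpen Λ) (hΛ : Stab j m Λ) :
    (h.homeo h' hk hk'' hl hr hΛo hΛ).invFun = vc j k' m := rfl

end VD

/-- composition of insertion maps -/
theorem insMap_comp {κ κ' : (Fin n → ℝ) → Fin n → ℝ} {Λ Λ' Λ'' : Set (Fin n → ℝ)}
    (h : H579.InsMap κ Λ' Λ) (h' : H579.InsMap κ' Λ'' Λ') : H579.InsMap (κ ∘ κ') Λ'' Λ where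
  isOpen := h'.isOpen
  cont := h.cont.comp h'.cont h'.maps
  maps := h.maps.comp h'.maps
  surj := h.surj.comp h'.surj
  proper := by
    intro C hC hCΛ
    have h1 := h'.proper _ (h.proper C hC hCΛ) inter_subset_left
    convert h1 using 1
    ext y
    constructor
    · rintro ⟨hy, hyC⟩
      exact ⟨hy, h'.maps hy, hyC⟩
    · rintro ⟨hy, -, hyC⟩
      exact ⟨hy, hyC⟩

end P073.H236
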