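import Vale.Agent.P073.H267.K3St1
import Vale.Agent.P073.H193.EdgCx

/-!
# P073, H236: numbers of the squares from numbers of the edges, faces, cells

The slot (2) of the choice of the numbers of `K3C`: the map `h1` is not known yet.

* `exists_min_over`: a locally finite family over compact sets.
* `h_mem_PX`: the value of `h` at a point which `h1` maps to the plate.
* `exists_mPe`, `exists_mPk`, `exists_mPi`: numbers of the squares from numbers of the edges, faces,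
  cells; `exists_mT*`: numbers of the boxes of ROUND T.
* `exists_mPτ`: the form `8 * mP s / τ s ≤ m e`.
-/

open Set Metric Topology Filter

namespace Vale.Agent.P073.H236.Slot

open _root_.P073 _root_.P073.Net _root_.P073.PA691
open Vale.Agent.P073.St (V)
open Vale.Agent.P073.H471 Vale.Agent.P073.H267
open Vale.Agent.P073.H73 (Mesh)
open Vale.Agent.P073.H193 (Edges mesh_sub)
open Vale.Agent.P073.H926
open _root_.P073.H345 (PK)

/-- positive numbers on a finite set have a positive lower bound -/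
theorem exists_lb {α : Type*} {S : Set α} (hS : S.Finite) {m : α → ℝ} (hm : ∀ a, 0 < m a) :
    ∃ r : ℝ, 0 < r ∧ ∀ a ∈ S, r ≤ m a := by
  rcases S.eq_empty_or_nonempty with rfl | hne
  · exact ⟨1, one_pos, fun a ha => absurd ha (notMem_empty a)⟩
  · obtain ⟨a, -, ha⟩ := Set.exists_min_image S m hS hne
    exact ⟨m a, hm a, ha⟩

section gen

variable {Ω Λ : Set V}

/-- **a locally finite family over compact sets** -/
theorem exists_min_over (h : ConHomeo Ω Λ) {α β : Type*} {A : α → Set V} (hA : ∀ a, A a ⊆ Ω)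
    (hfin : ∀ S ⊆ Ω, IsCompact S → {a | (A a ∩ S).Nonempty}.Finite) {N : β → Set V}
    (hN : ∀ b, IsCompact (N b)) (hNΛ : ∀ b, N b ⊆ Λ) {m : α → ℝ} (hm : ∀ a, 0 < m a) :
    ∃ r : β → ℝ, (∀ b, 0 < r b) ∧ ∀ b a, (h.toFun '' A a ∩ N b).Nonempty → r b ≤ m a := by
  have hf : ∀ b, {a | (h.toFun '' A a ∩ N b).Nonempty}.Finite := by
    intro b
    refine (hfin (h.invFun '' N b) ?_ ((hN b).image_of_continuousOn
      (h.cont_inv.mono (hNΛ b)))).subset ?_
    · rintro _ ⟨y, hy, rfl⟩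
      exact h.mapsTo_inv (hNΛ b hy)
    · rintro a ⟨_, ⟨x, hx, rfl⟩, hxN⟩
      exact ⟨x, hx, h.toFun x, hxN, h.left_inv (hA a hx)⟩
  choose r h0 h1 using fun b => exists_lb (hf b) hm
  exact ⟨r, h0, fun b a ha => h1 b a ha⟩

end gen

section geo

variable {Λ : Set V} {v : V} {K : BoxCx Λ v} {S : Rad K} {W : Wid K S} {B : Boxes W}

/-- the enlarged plate is compact -/
theorem isCompact_PX (G : Geo B) (s : K.S) : IsCompact (PX G s) := by
  classical
  have e : PX G s = Icc (fun j => if j = K.nrm s then K.slo s j - 7 / 4 * B.τ s else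
      K.slo s j + 1 / 2 * G.p s) (fun j => if j = K.nrm s then K.slo s j + 7 / 4 * B.τ s else
      K.shi s j - 1 / 2 * G.p s) := by
    ext y
    constructor
    · rintro ⟨h1, h2⟩
      have h3 := abs_le.1 h2
      refine ⟨fun j => ?_, fun j => ?_⟩ <;> by_cases hj : j = K.nrm s
      · subst hj; simp only [if_true]; linarith [h3.1]
      · simp only [if_neg hj]; exact (h1 j hj).1
      · subst hj; simp only [if_true]; linarith [h3.2]
      · simp only [if_neg hj]; exact (h1 j hj).2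
    · rintro ⟨h1, h2⟩
      refine ⟨fun j hj => ?_, ?_⟩
      · have h3 := h1 j
        have h4 := h2 j
        simp only [if_neg hj] at h3 h4
        exact ⟨h3, h4⟩
      · have h3 := h1 (K.nrm s)
        have h4 := h2 (K.nrm s)
        simp only [if_true] at h3 h4
        rw [abs_le]
        constructor <;> linarith
  rw [e]
  exact isCompact_Icc

theorem PX_sub_Λ (G : Geo B) (s : K.S) : PX G s ⊆ Λ := fun _ hy =>
  ss_subset (W := W) s (PX_sub_ss s hy)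

end geo

variable {c₀ n δ : ℝ} {j : ℕ} {Ω Λ : Set V} {v w : V} {ρ : V → ℝ} {M : Mesh Ω} {h : ConHomeo Ω Λ}
  {J₀ J : Set (ℕ × (Fin 3 → ℤ))} {P Z : Set M.ι} {K : BoxCx Λ w}

section

variable (D : KIn3 c₀ n j δ v w ρ M h J₀ J P Z) (C : Cells ρ w K)
include D

/-- **the value of `h` at a point which `h1` maps to the plate** -/
theorem h_mem_PX {h1 : V → V}
    (hn : ∀ x ∈ Ω, ∀ q, h.toFun x ∈ K.cube q → ‖h1 x - h.toFun x‖ ≤ (D.G C).om q) {x : V}
    (hx : x ∈ Ω) {s : K.S} (hxs : h1 x ∈ PK (D.G C) s) : h.toFun x ∈ PX (D.G C) s := by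
  have hxΛ : h1 x ∈ Λ := ss_subset (W := D.W C) s (_root_.P073.H345.PK_sub_ss s hxs)
  obtain ⟨q, hq⟩ := K.cover _ (h.mapsTo hx)
  obtain ⟨q₁, hq₁⟩ := K.cover _ hxΛ
  have e1 := hn x hx q hq
  have hqs := tile_PX (PK_sub_PX s hxs) hq₁
  have ho := o3_pos D.pos
  have hT := C.sT_pos q
  have hT1 := C.sT_pos q₁
  have hκ := D.κ_lt
  have hoκ := o3_eq (n := n)
  have e2 : C.sT q ≤ 4 * C.sT q₁ := by
    refine sT_comp' C D.hρ (x := h.toFun x) (y := h1 x) hq hq₁ (e1.trans ?_)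
    show o3 n * C.sT q ≤ _
    nlinarith
  have e3 : (D.G C).om q ≤ 4 * (D.G C).om q₁ := by
    show o3 n * C.sT q ≤ 4 * (o3 n * C.sT q₁)
    nlinarith
  have e4 := (D.G C).om_oS q₁ s hqs
  have e5 := (D.G C).oS_τ s
  have hτ := (D.B C).τ_pos s
  refine PX_of_near hxs ?_
  rw [norm_sub_rev]
  linarith

/-- **numbers of the squares from numbers of a locally finite family, before `h1`** -/
theorem exists_mP_gen {α : Type*} {A : α → Set V} (hA : ∀ a, A a ⊆ Ω)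
    (hfin : ∀ S ⊆ Ω, IsCompact S → {a | (A a ∩ S).Nonempty}.Finite) {m : α → ℝ}
    (hm : ∀ a, 0 < m a) :
    ∃ mP : K.S → ℝ, (∀ s, 0 < mP s) ∧ ∀ h1 : V → V,
      (∀ x ∈ Ω, ∀ q, h.toFun x ∈ K.cube q → ‖h1 x - h.toFun x‖ ≤ (D.G C).om q) →
      ∀ s a, (PK (D.G C) s ∩ h1 '' A a).Nonempty → mP s ≤ m a := by
  obtain ⟨r, h0, h1⟩ := exists_min_over h hA hfin (isCompact_PX (D.G C)) (PX_sub_Λ (D.G C)) hm
  refine ⟨r, h0, fun f hf s a ha => h1 s a ?_⟩
  obtain ⟨_, hy, x, hx, rfl⟩ := ha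
  exact ⟨_, ⟨x, hx, rfl⟩, h_mem_PX D C hf (hA a hx) hy⟩

/-- **(a)**: edges -/
theorem exists_mPe (E : Edges M) {m : E.ε → ℝ} (hm : ∀ e, 0 < m e) :
    ∃ mP : K.S → ℝ, (∀ s, 0 < mP s) ∧ ∀ h1 : V → V,
      (∀ x ∈ Ω, ∀ q, h.toFun x ∈ K.cube q → ‖h1 x - h.toFun x‖ ≤ (D.G C).om q) →
      ∀ s e, (PK (D.G C) s ∩ h1 '' E.seg e).Nonempty → mP s ≤ m e :=
  exists_mP_gen D C (fun e => E.seg_sub_Ω e) E.fin hm

/-- **(b)**: faces -/
theorem exists_mPk {m : M.κ → ℝ} (hm : ∀ k, 0 < m k) :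
    ∃ mP : K.S → ℝ, (∀ s, 0 < mP s) ∧ ∀ h1 : V → V,
      (∀ x ∈ Ω, ∀ q, h.toFun x ∈ K.cube q → ‖h1 x - h.toFun x‖ ≤ (D.G C).om q) →
      ∀ s k, (PK (D.G C) s ∩ h1 '' M.F k).Nonempty → mP s ≤ m k :=
  exists_mP_gen D C (mesh_sub M) M.ffin hm

/-- **(b)**: cells -/
theorem exists_mPi {m : M.ι → ℝ} (hm : ∀ i, 0 < m i) :
    ∃ mP : K.S → ℝ, (∀ s, 0 < mP s) ∧ ∀ h1 : V → V,
      (∀ x ∈ Ω, ∀ q, h.toFun x ∈ K.cube q → ‖h1 x - h.toFun x‖ ≤ (D.G C).om q) →
      ∀ s i, (PK (D.G C) s ∩ h1 '' M.Q i).Nonempty → mP s ≤ m i :=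
  exists_mP_gen D C M.sub M.fin hm

/-- the demand of `exists_tvP2`: `8 * mP s / τ s ≤ m e` -/
theorem exists_mPτ (E : Edges M) {N : ℝ} (hN : 0 < N) {m : E.ε → ℝ} (hm : ∀ e, 0 < m e) :
    ∃ mP : K.S → ℝ, (∀ s, 0 < mP s) ∧ ∀ h1 : V → V,
      (∀ x ∈ Ω, ∀ q, h.toFun x ∈ K.cube q → ‖h1 x - h.toFun x‖ ≤ (D.G C).om q) →
      ∀ s e, (PK (D.G C) s ∩ h1 '' E.seg e).Nonempty →
        ∀ t, t ≤ mP s → N * t / (D.B C).τ s ≤ m e := by
  obtain ⟨r, h0, h1⟩ := exists_mPe D C E hm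
  refine ⟨fun s => r s * (D.B C).τ s / N, fun s => ?_, fun f hf s e he t ht => ?_⟩
  · have h2 := h0 s
    have h3 := (D.B C).τ_pos s
    positivity
  · have h3 := (D.B C).τ_pos s
    have h4 := h1 f hf s e he
    refine le_trans ?_ h4
    rw [div_le_iff₀ h3]
    rw [le_div_iff₀ hN] at ht
    linarith

end

end Vale.Agent.P073.H236.Slot
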