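import Vale.Agent.P073.H236.GOut4
import Vale.Agent.P073.H579.OutS
import Vale.Agent.P073.H669.TLevC

/-!
# P073, H236, **[T3OUT-G]**, part 6: the data of H579 (`St2W`) give `St2G`; staircases of H669 with
uniform cells and unfilled end zones; composition with further maps
-/

open Set Metric Topology Filter

namespace P073.H236

open _root_.P073 _root_.P073.Net _root_.P073.PA691 _root_.P073.H579
open _root_.P073.PR720 (LF)
open Vale.Agent.P073.St (V)
open Vale.Agent.P073.H471 Vale.Agent.P073.H267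
open Vale.Agent.P073.H73 (Mesh)
open Vale.Agent.P073.H193 (Edges)
open Vale.Agent.P073.H238 (oT TMid TMid_sub TAct skel mesh_sub)
open Vale.Agent.P073.H579 (TStageW)
open Vale.Agent.P073.H669 (TLv)

variable {Ω Λ : Set V} {v : V} {K : BoxCx Λ v} {S₀ : Rad K} {Wd : Wid K S₀} {B : Boxes Wd}
  {G : Geo B} {M : Mesh Ω} {E : Edges M} {h h' : ConHomeo Ω Λ} {ω : TBx K → ℝ}
  {T : TBx K → Finset (ℝ × ℝ)} {η : ℝ} {τ : Type*} {A : τ → Set V} {C : Set ℝ} {εE : E.ε → ℝ}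
  {δ : TBx K → ℝ} {L : TLv G E h ω T η A C εE δ} {c : TBx K → ℝ} {hc0 : ∀ b, 0 < c b}
  {hc : ∀ b, c b ≤ δ b / 8} {Pr W : Set M.ι} {Act₀ : Set M.κ} {G₀ : Set (TBx K)} {κ : V → V}
  {g : ConHomeo Ω Λ}

theorem actB_iff {b : G₀} {k : M.κ} :
    ActB G M h' G₀ (fun b : G₀ => L.bxQ c hc0 hc b.1) b k ↔ TAct G M h' L.lev b.1 k := by
  constructor
  · rintro ⟨x, hx, h1, i, hi, h2⟩
    exact ⟨x, hx, h1, i, hi, h2⟩
  · rintro ⟨x, hx, h1, i, hi, h2⟩
    exact ⟨x, hx, h1, i, hi, h2⟩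

theorem TB_nonempty' (L : TLv G E h ω T η A C εE δ) (b : TBx K) : (G.TB true b).Nonempty :=
  Vale.Agent.P073.H669.TB_nonempty G b (L.ω0 b) (L.ωo b) true

/-- STAGE 1 in the form of H267, boxes of `G₀`, any supports between `K` and `TB false` -/
theorem rl_ks (O : TStageW G M h h' Pr W Act₀ G₀ L.lev ω) {Ks : G₀ → Set V}
    (h1 : ∀ b : G₀, (L.bxQ c hc0 hc b.1).K ⊆ Ks b) (h2 : ∀ b : G₀, Ks b ⊆ G.TB false b.1) :
    Rl Ks (fun b : G₀ => 12 * ω b.1) Ω h.toFun h'.toFun where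
  mem := by
    intro b x hx hb
    by_cases h3 : ∃ b' ∈ G₀, h.toFun x ∈ interior (TMid G b' (ω b'))
    · obtain ⟨b', hbG, hb'⟩ := h3
      have h4 := (O.memM b' x hx).2 hb'
      have h5 : h'.toFun x ∈ interior (G.TB false b') :=
        interior_mono (TMid_sub G b' (L.ω0 b') (L.ωo b')) h4
      by_cases hbb : b' = b.1
      · subst hbb
        exact h1 b (tmid_sub_K L hc0 hc (interior_subset hb'))
      · exact absurd (h2 b hb) ((Geo.disjoint_TB (G := G) hbb).notMem_of_mem_left h5)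
    · push Not at h3
      rw [← (O.off' x hx h3).self_of_nhds]
      exact hb
  near := fun b x hx hb => by
    rw [← dist_eq_norm]
    exact O.all b.1 x hx (h2 b hb)
  off := fun x hx hno => (O.off' x hx fun b hbG hb =>
    hno ⟨b, hbG⟩ (h1 _ (tmid_sub_K L hc0 hc (interior_subset hb)))).self_of_nhds

/-- the data of H579 -/
theorem St2W.st2G (D : St2W L hc0 hc Pr W Act₀ G₀ h' κ g) {Ks : G₀ → Set V}
    (h1 : ∀ b : G₀, (L.bxQ c hc0 hc b.1).K ⊆ Ks b) (h2 : ∀ b : G₀, Ks b ⊆ G.TB false b.1) :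
    St2G G M E h h' ω G₀ Act₀ (fun b : G₀ => L.bxQ c hc0 hc b.1) Ks κ g where
  hΩ := D.hΩ
  hΛ := D.hΛ
  ω0 := L.ω0
  j := fun _ => rfl
  al := fun _ => rfl
  be := fun _ => rfl
  full := by
    intro b i hi
    have h0 := L.ω0 b.1
    have key : ∀ y : V, (∀ i, i ≠ b.1.ax → G.tlo true b.1 i - 20 * ω b.1 ≤ y i ∧
        y i ≤ G.thi true b.1 i + 20 * ω b.1) → (L.bxQ c hc0 hc b.1).Full y :=
      fun y hy => L.full_of hc0 hc hy
    have hle : ∀ i, G.tlo true b.1 i ≤ G.thi true b.1 i := fun i => by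
      obtain ⟨y, hy⟩ := TB_nonempty' L b.1
      exact (hy.1 i).trans (hy.2 i)
    have h3 := (key (G.tlo true b.1) fun i _ => ⟨by linarith, by linarith [hle i]⟩) i hi
    have h4 := (key (G.thi true b.1) fun i _ => ⟨by linarith [hle i], by linarith⟩) i hi
    exact ⟨h3.1, h4.2⟩
  sub := h1
  subT := h2
  fam := D.fam
  isQ := D.isQ
  rl := rl_ks D.O h1 h2
  nov := by
    intro x hx b hb i hi
    have hreg : H345.RegB M E h' (fun b : G₀ => L.bxQ c hc0 hc b.1) :=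
      L.regBG D.O hc0 hc D.osc
    refine hreg.vert hx (g := b) ?_ hi
    rw [L.mem_K hc0 hc]
    have h0 := L.ω0 b.1
    exact ⟨⟨hb.1 _, hb.2 _⟩, fun i _ => ⟨by linarith [hb.1 i], by linarith [hb.2 i]⟩⟩
  noc := by
    intro k hk b i hi σ hσ hσk hall
    obtain ⟨x₁, hx₁⟩ := circle_ne hσ
    have hact : TAct G M h' L.lev b.1 k :=
      ⟨x₁, hσk hx₁, (hall x₁ hx₁).1, by rw [(hall x₁ hx₁).2]; exact ⟨i, hi, rfl⟩⟩
    exact D.O.noCircV L.lev_fin b.2 hk (D.O.act b.1 k hact) hσ hσk fun x hx => by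
      rw [(hall x hx).2]; exact ⟨i, hi, rfl⟩
  face := D.face
  edge := D.edge
  cell := D.cell
  vert := D.vert

/-- a map of an `HFam` whose full zones contain those of the box -/
theorem IsF.of_isH {n : ℕ} {ι : Type*} {Λ : Set (Fin n → ℝ)} {F : HFam n ι Λ} {S : ConHomeo Λ Λ}
    (hS : F.IsH S) (i : ι) {B : BX n} {τ : TG B} (hj : (F.X i).j = B.j)
    (hf : ∀ y, FullB B y → (F.X i).Full y) (hK : B.K ⊆ Λ) (hk : ∀ t, τ.σ t = (F.X i).k t) :
    IsF τ S :=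
  IsF.of_full hK fun y hy => by rw [hS.full (hf y hy), hj, hk]

section cells

variable (L : TLv G E h ω T η A C εE δ) (hc0 : ∀ b, 0 < c b) (hc : ∀ b, c b ≤ δ b / 8)

/-- **uniform cells of length `δ b`, the end zones are not filled** (H669's `l1'`, `hfam`) -/
noncomputable def tgC (b : G₀) {e : ℝ} (he : 0 < e) (he2 : 2 * e < δ b.1) :
    TG (Bsm G (fun b : G₀ => L.bxQ c hc0 hc b.1) b) :=
  TG.of_tgt _ (t₀ := G.tlo true b.1 b.1.ax + 30 * ω b.1) (om := δ b.1) (e := e)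
    (show Tgt (L.N b.1) (G.tlo true b.1 b.1.ax) (G.thi true b.1 b.1.ax) _ _ _ from
      Tgt.of_cells (L.cells b.1) he he2 (by linarith [L.ω0 b.1]) (by linarith [L.ω0 b.1]))

theorem tgC_wt (b : G₀) {e : ℝ} (he : 0 < e) (he2 : 2 * e < δ b.1) :
    (tgC L hc0 hc b he he2).Wt 1 (e / c b.1) (L.a b.1 0 - c b.1)
      (L.a b.1 (L.N b.1 - 1) + c b.1) :=
  TG.Wt.of_tgt _ _ (L.stp_ge b.1)

include L in
theorem a_first_le (b : TBx K) :
    L.a b 0 ≤ G.tlo true b b.ax + 30 * ω b + dsp (T b) (δ b) := by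
  have h1 := (L.cells b).disp_le 0 (L.pos b)
  have h2 := (L.cells b).lt_a (L.δ0 b) L.η4 0
  have h3 := L.δ0 b
  have h4 : dsp (T b) (δ b) = ∑ p ∈ T b, (p.2 - p.1) + 2 * (T b).card * δ b + δ b := by
    unfold dsp; ring
  rw [h4]
  push_cast at h1
  linarith [h2.2]

include L in
theorem le_a_last (b : TBx K) :
    G.thi true b b.ax - 30 * ω b - dsp (T b) (δ b) - δ b ≤ L.a b (L.N b - 1) := by
  have hN := L.pos b
  have h1 := (L.cells b).disp_nonneg (L.N b - 1) (by omega)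
  have h2 := (L.cells b).lt_a (L.δ0 b) L.η4 (L.N b - 1)
  have h3 := L.δ0 b
  have h4 := (L.cells b).le_num
  have h5 : ((L.N b - 1 : ℕ) : ℝ) = L.N b - 1 := by
    rw [Nat.cast_sub (by omega : 1 ≤ L.N b)]; simp
  rw [h5] at h1
  unfold dsp
  linarith [h2.1]

end cells

end P073.H236
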