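import Vale.Agent.P073.H669.TLevC
import Vale.Agent.P073.H196.PProt
import Vale.Agent.P073.H236.GOut5

/-!
# P073, H236, **[SALPHA] + [RT-FIX]**, part 1: families of vertical maps in the boxes of ROUND T

`rtX L b u w k`: in the box `b` the one-variable map `k` in the direction of the box, full in
`TB true b` enlarged by `u ω b`, fading out in `w ω b`. Supports: `rtK L b (u + w)`.
-/

open Set Metric Topology Filter

namespace P073.H236

open _root_.P073 _root_.P073.Net _root_.P073.PA691 _root_.P073.H579 _root_.P073.H196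
open _root_.P073.PR720 (LF)
open Vale.Agent.P073.St (V)
open Vale.Agent.P073.H471 Vale.Agent.P073.H267 Vale.Agent.P073.H267.Geo
open Vale.Agent.P073.H73 (Mesh)
open Vale.Agent.P073.H193 (Edges)
open Vale.Agent.P073.H238 (oT TMid marg)
open Vale.Agent.P073.H669 (TLv)

variable {Ω Λ : Set V} {v : V} {K : BoxCx Λ v} {S₀ : Rad K} {Wd : Wid K S₀} {B : Boxes Wd}
  {G : Geo B} {M : Mesh Ω} {E : Edges M} {h h' : ConHomeo Ω Λ} {ω : TBx K → ℝ}
  {T : TBx K → Finset (ℝ × ℝ)} {η : ℝ} {τ : Type*} {A : τ → Set V} {C : Set ℝ} {εE : E.ε → ℝ}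
  {δ : TBx K → ℝ} (L : TLv G E h ω T η A C εE δ) {G₀ : Set (TBx K)}

include L in
theorem tlo_lt_thi (b : TBx K) : G.tlo true b b.ax < G.thi true b b.ax := by
  have h1 := (L.cells b).num_le
  have h2 := L.ω0 b
  have h3 := L.δ0 b
  have h4 : (0:ℝ) < L.N b := by exact_mod_cast L.pos b
  nlinarith [mul_pos h4 h3]

/-- the box `b`, enlarged by `u ω b` across its direction -/
def rtK (G : Geo B) (ω : TBx K → ℝ) (b : TBx K) (u : ℝ) : Set V :=
  {y | (G.tlo true b b.ax ≤ y b.ax ∧ y b.ax ≤ G.thi true b b.ax) ∧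
    ∀ i, i ≠ b.ax → G.tlo true b i - u * ω b ≤ y i ∧ y i ≤ G.thi true b i + u * ω b}

include L in
theorem rtK_mono {b : TBx K} {u u' : ℝ} (hu : u ≤ u') : rtK G ω b u ⊆ rtK G ω b u' := by
  rintro y ⟨h1, h2⟩
  have h3 := mul_le_mul_of_nonneg_right hu (L.ω0 b).le
  exact ⟨h1, fun i hi => ⟨by linarith [(h2 i hi).1], by linarith [(h2 i hi).2]⟩⟩

include L in
theorem rtK_sub {b : TBx K} {u : ℝ} (hu : u ≤ 100) : rtK G ω b u ⊆ G.TB false b := by
  rintro y ⟨h1, h2⟩
  have h0 := L.ω0 b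
  have h3 := L.ωo b
  rw [Vale.Agent.P073.H669.mem_TB]
  intro i
  by_cases hi : i = b.ax
  · rw [hi, (tlo_ax G).1, (tlo_ax G).2]
    exact h1
  · obtain ⟨h4, h5⟩ := marg G b hi
    obtain ⟨h6, h7⟩ := h2 i hi
    have h8 : u * ω b ≤ 100 * oT G b := by nlinarith
    constructor <;> linarith

include L in
theorem TB_sub_rtK {b : TBx K} {u : ℝ} (hu : 0 ≤ u) : G.TB true b ⊆ rtK G ω b u := by
  intro y hy
  have h0 : 0 ≤ u * ω b := mul_nonneg hu (L.ω0 b).le
  exact ⟨⟨hy.1 _, hy.2 _⟩, fun i _ => ⟨by linarith [hy.1 i], by linarith [hy.2 i]⟩⟩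

theorem bxQ_K {c : TBx K → ℝ} (hc0 : ∀ b, 0 < c b) (hc : ∀ b, c b ≤ δ b / 8) (b : TBx K) :
    (L.bxQ c hc0 hc b).K = rtK G ω b 40 := by
  ext y
  rw [L.mem_K hc0 hc]
  rfl

theorem bxQ_full {c : TBx K → ℝ} (hc0 : ∀ b, 0 < c b) (hc : ∀ b, c b ≤ δ b / 8) {b : TBx K}
    {y : V} : FullB (L.bxQ c hc0 hc b) y ↔ y ∈ rtK G ω b 20 := Iff.rfl

/-- a vertical map in the box `b` -/
noncomputable def rtX (b : TBx K) (u w : ℝ) (hw : 0 < w) {k k' : ℝ → ℝ}
    (l1 : L1 (G.tlo true b b.ax) (G.thi true b b.ax) k k') (D : ℝ) (hD : ∀ t, |k t - t| ≤ D) :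
    HX 3 where
  j := b.ax
  al := G.tlo true b b.ax
  be := G.thi true b b.ax
  k := k
  k' := k'
  l1 := l1
  hab := (tlo_lt_thi L b).le
  lo := fun i => G.tlo true b i - u * ω b
  hi := fun i => G.thi true b i + u * ω b
  r := fun _ => w * ω b
  hr := fun _ => mul_pos hw (L.ω0 b)
  D := D
  hD := hD

section X

variable {b : TBx K} {u w : ℝ} {hw : 0 < w} {k k' : ℝ → ℝ}
  {l1 : L1 (G.tlo true b b.ax) (G.thi true b b.ax) k k'} {D : ℝ} {hD : ∀ t, |k t - t| ≤ D}

theorem rtX_K : (rtX L b u w hw l1 D hD).K = rtK G ω b (u + w) := by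
  ext y
  constructor
  · rintro ⟨h1, h2⟩
    refine ⟨h1, fun i hi => ?_⟩
    obtain ⟨h3, h4⟩ := h2 i hi
    change G.tlo true b i - u * ω b - w * ω b ≤ y i at h3
    change y i ≤ G.thi true b i + u * ω b + w * ω b at h4
    constructor <;> linarith
  · rintro ⟨h1, h2⟩
    refine ⟨h1, fun i hi => ?_⟩
    obtain ⟨h3, h4⟩ := h2 i hi
    constructor
    · change G.tlo true b i - u * ω b - w * ω b ≤ y i
      linarith
    · change y i ≤ G.thi true b i + u * ω b + w * ω b
      linarith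

theorem rtX_full {y : V} : (rtX L b u w hw l1 D hD).Full y ↔ y ∈ rtK G ω b u := Iff.rfl

/-- where the height is positive -/
theorem rtX_m {y : V} (hy : 0 < (rtX L b u w hw l1 D hD).m y) :
    ∀ i, i ≠ b.ax → G.tlo true b i - (u + w) * ω b ≤ y i ∧
      y i ≤ G.thi true b i + (u + w) * ω b := by
  intro i hi
  have hr := (rtX L b u w hw l1 D hD).hr
  by_contra hcon
  refine absurd hy (not_lt.2 (le_of_eq ?_))
  refine bmp_zero hr (i := i) hi ?_
  by_contra h2
  push Not at h2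
  obtain ⟨h3, h4⟩ := h2
  change G.tlo true b i - u * ω b - w * ω b < y i at h3
  change y i < G.thi true b i + u * ω b + w * ω b at h4
  exact hcon ⟨by linarith, by linarith⟩

/-- the height in the full zone -/
theorem rtX_m_full {y : V} (hy : ∀ i, i ≠ b.ax → G.tlo true b i - u * ω b ≤ y i ∧
    y i ≤ G.thi true b i + u * ω b) : (rtX L b u w hw l1 D hD).m y = D :=
  bmp_full (rtX L b u w hw l1 D hD).hr hy

end X

/-- the family of these maps over `G₀` -/
noncomputable def rtFam (u w : ℝ) (hw : 0 < w) (huw : u + w ≤ 60) {k k' : G₀ → ℝ → ℝ}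
    (l1 : ∀ b : G₀, L1 (G.tlo true b.1 b.1.ax) (G.thi true b.1 b.1.ax) (k b) (k' b))
    (D : G₀ → ℝ) (hD : ∀ b t, |k b t - t| ≤ D b) : HFam 3 G₀ Λ where
  X := fun b => rtX L b.1 u w hw (l1 b) (D b) (hD b)
  sub := fun b => by
    rw [rtX_K]
    exact (rtK_sub L (by linarith)).trans (TB_sub b.1)
  lf := fun z hz => by
    obtain ⟨U, hU, hf⟩ := lf_TB G z hz
    refine ⟨U, hU, (hf.preimage (f := fun b : G₀ => b.1) Subtype.val_injective.injOn).subset ?_⟩
    rintro b ⟨x, hx, hxU⟩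
    rw [rtX_K] at hx
    exact ⟨x, rtK_sub L (by linarith) hx, hxU⟩
  dis := fun b b' hne => by
    rw [rtX_K, rtX_K]
    exact (disjoint_TB (G := G) fun hh => hne (Subtype.ext hh)).mono
      (interior_mono (rtK_sub L (by linarith))) (rtK_sub L (by linarith))

section fam

variable {u w : ℝ} {hw : 0 < w} {huw : u + w ≤ 60} {k k' : G₀ → ℝ → ℝ}
  {l1 : ∀ b : G₀, L1 (G.tlo true b.1 b.1.ax) (G.thi true b.1 b.1.ax) (k b) (k' b)}
  {D : G₀ → ℝ} {hD : ∀ b t, |k b t - t| ≤ D b} {S : ConHomeo Λ Λ}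

/-- in the common big boxes, for the stacks of H196 -/
theorem over_rt : Over (rtFam L u w hw huw l1 D hD) (fun b => b.1.ax)
    (fun b => G.tlo true b.1 b.1.ax) (fun b => G.thi true b.1 b.1.ax)
    (fun b i => G.tlo true b.1 i - 60 * ω b.1) (fun b i => G.thi true b.1 i + 60 * ω b.1) where
  hj := fun _ => rfl
  hal := fun _ => rfl
  hbe := fun _ => rfl
  hlo := fun b i _ => by
    have h0 := L.ω0 b.1
    show _ ≤ G.tlo true b.1 i - u * ω b.1 - w * ω b.1
    nlinarith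
  hhi := fun b i _ => by
    have h0 := L.ω0 b.1
    show G.thi true b.1 i + u * ω b.1 + w * ω b.1 ≤ _
    nlinarith
  dis := fun b b' hne y hy hy' => by
    have e : ((rtFam L u w hw huw l1 D hD).X b').K = rtK G ω b'.1 (u + w) :=
      rtX_K L (hw := hw) (l1 := l1 b') (D := D b') (hD := hD b')
    rw [e] at hy
    exact (disjoint_TB (G := G) fun hh => hne (Subtype.ext hh.symm)).notMem_of_mem_left
      (interior_mono (rtK_sub L (by linarith)) hy)
      (rtK_sub L (u := 60) (by norm_num) hy')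

theorem rtFam_K (b : G₀) : ((rtFam L u w hw huw l1 D hD).X b).K = rtK G ω b.1 (u + w) :=
  rtX_K L (hw := hw) (l1 := l1 b) (D := D b) (hD := hD b)

theorem rtFam_full {b : G₀} {y : V} :
    ((rtFam L u w hw huw l1 D hD).X b).Full y ↔ y ∈ rtK G ω b.1 u := Iff.rfl

/-- inside the supports `rtK b 60` -/
theorem mv_rt (hS : (rtFam L u w hw huw l1 D hD).IsH S) :
    Mv (fun b : G₀ => rtK G ω b.1 60) D S.toFun where
  mem := fun b y hy => (over_rt L).mem hS hy
  near := fun b y hy => by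
    have h1 := (over_rt L).eq hS (b := b) hy
    rw [h1]
    have h2 : (((rtFam L u w hw huw l1 D hD).X b)).H.toFun y =
        Function.update y b.1.ax (cl ((rtFam L u w hw huw l1 D hD).X b).k
          (((rtFam L u w hw huw l1 D hD).X b).m y) (y b.1.ax)) := rfl
    rw [← h2]
    exact ((rtFam L u w hw huw l1 D hD).X b).norm_sub_le y
  off := fun y hy => hS.off y fun b hb => hy b (by
    rw [rtFam_K] at hb
    exact rtK_mono L huw hb)

/-- the full zone -/
theorem full_rt (hS : (rtFam L u w hw huw l1 D hD).IsH S) {b : G₀} {y : V}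
    (hy : y ∈ rtK G ω b.1 u) : S.toFun y = Function.update y b.1.ax (k b (y b.1.ax)) :=
  hS.full ((rtFam_full L).2 hy)

end fam

end P073.H236
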