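import Vale.Agent.P073.H236.SA2
import Vale.Agent.P073.H196.PStair

/-!
# P073, H236, **[SALPHA] + [RT-FIX]**, part 3: vertical formula, displacement, local estimates,
`Mv`, `TileIff` for `S = T ∘ H₁ ∘ H_α`
-/

open Set Metric Topology Filter

namespace P073.H196

open P073 P073.H236

variable {n : ℕ} {ι : Type*} {j : ι → Fin n} {al be : ι → ℝ} {lo hi : ι → Fin n → ℝ}
  {Λ : Set (Fin n → ℝ)}

/-- near a point: a common box, or both points fixed -/
theorem Vrt.local_cases {G : (Fin n → ℝ) → Fin n → ℝ} {φ : ι → (Fin n → ℝ) → ℝ → ℝ}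
    (H : Vrt G j al be lo hi φ) (hΛ : IsOpen Λ) (hG : ContinuousOn G Λ)
    (lf : ∀ z ∈ Λ, ∃ U ∈ 𝓝 z, {b | (bigBox (j b) (al b) (be b) (lo b) (hi b) ∩ U).Nonempty}.Finite)
    {y : Fin n → ℝ} (hy : y ∈ Λ) :
    ∀ᶠ y' in 𝓝 y, (∃ b, y ∈ bigBox (j b) (al b) (be b) (lo b) (hi b) ∧
      y' ∈ bigBox (j b) (al b) (be b) (lo b) (hi b)) ∨ (G y' = y' ∧ G y = y) := by
  classical
  set P : ι → Set (Fin n → ℝ) := fun b => bigBox (j b) (al b) (be b) (lo b) (hi b) with hP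
  obtain ⟨U, hU, hfin⟩ := lf y hy
  have hev : ∀ᶠ y' in 𝓝 y, ∀ b, y' ∈ P b → y ∈ P b := by
    have h1 : ∀ b ∈ {b | (P b ∩ U).Nonempty}, ∀ᶠ y' in 𝓝 y, y' ∈ P b → y ∈ P b := by
      intro b _
      by_cases hb : y ∈ P b
      · exact Eventually.of_forall fun _ _ => hb
      · have h2 : (P b)ᶜ ∈ 𝓝 y := (isClosed_bigBox _ _ _ _ _).isOpen_compl.mem_nhds hb
        filter_upwards [h2] with y' hy' hy''
        exact absurd hy'' hy'
    have h2 := (hfin.eventually_all).2 h1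
    filter_upwards [h2, hU] with y' h3 hyU b hb
    exact h3 b ⟨y', hb, hyU⟩ hb
  by_cases hcl : ∀ᶠ y' in 𝓝 y, ∃ b, y' ∈ P b
  · filter_upwards [hev, hcl] with y' h1 ⟨b, hb⟩
    exact Or.inl ⟨b, h1 b hb, hb⟩
  · have hfr : ∃ᶠ y' in 𝓝 y, ∀ b, y' ∉ P b := by
      intro hcon
      exact hcl (hcon.mono fun y' h => by push Not at h; exact h)
    have hGy : G y = y := by
      have hc : ContinuousAt G y := hG.continuousAt (hΛ.mem_nhds hy)
      by_contra hne
      have h3 : ∀ᶠ y' in 𝓝 y, G y' ≠ y' := by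
        have h4 : Tendsto (fun y' => (G y', y')) (𝓝 y) (𝓝 (G y, y)) := hc.prodMk_nhds tendsto_id
        have h5 : {p : (Fin n → ℝ) × (Fin n → ℝ) | p.1 ≠ p.2} ∈ 𝓝 (G y, y) :=
          (isOpen_ne_fun continuous_fst continuous_snd).mem_nhds hne
        exact h4 h5
      obtain ⟨y', h4, h5⟩ := (hfr.and_eventually h3).exists
      exact h5 (H.off y' h4)
    filter_upwards [hev] with y' h1
    by_cases hb : ∃ b, y' ∈ P b
    · obtain ⟨b, hb⟩ := hb
      exact Or.inl ⟨b, h1 b hb, hb⟩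
    · push Not at hb
      exact Or.inr ⟨H.off y' hb, hGy⟩

/-- composition of an increasing Lipschitz map with a clip -/
theorem abs_comp_cl_le {k θ : ℝ → ℝ} (hk : Monotone k) (hθ : Monotone θ) {A U m m' s t : ℝ}
    (hA : 0 ≤ A) (hkA : ∀ s t, |k s - k t| ≤ A * |s - t|) (hm : 0 ≤ m) (hU1 : A * |s - t| ≤ U)
    (hU2 : |k (θ s) - k (θ t)| ≤ U) :
    |k (cl θ m s) - k (cl θ m' t)| ≤ U + A * |m - m'| := by
  have key : ∀ s t : ℝ, t ≤ s → A * |s - t| ≤ U → |k (θ s) - k (θ t)| ≤ U →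
      k (cl θ m s) - k (cl θ m t) ≤ U := by
    intro s t hts hU1 hU2
    have hd : ∀ p q : ℝ, p - q ≤ s - t → k p - k q ≤ U := by
      intro p q hpq
      rcases le_total p q with h | h
      · have := hk h
        have h3 : 0 ≤ A * |s - t| := mul_nonneg hA (abs_nonneg _)
        linarith
      · refine (le_abs_self _).trans ((hkA p q).trans (le_trans ?_ hU1))
        rw [abs_of_nonneg (by linarith : (0:ℝ) ≤ p - q), abs_of_nonneg (by linarith : 0 ≤ s - t)]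
        exact mul_le_mul_of_nonneg_left hpq hA
    by_cases h1 : cl θ m s ≤ s - m
    · have h2 : t - m ≤ cl θ m t := le_max_left _ _
      exact hd _ _ (by linarith)
    · have h3 : cl θ m s ≤ θ s := by
        rcases le_max_iff.1 (le_refl (cl θ m s)) with h | h
        · exact absurd h h1
        · exact h.trans (min_le_right _ _)
      by_cases h4 : t + m ≤ cl θ m t
      · have h5 : cl θ m s ≤ s + m := by
          have := (abs_le.1 (abs_cl_sub_le (k := θ) (t := s) hm)).2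
          linarith
        exact hd _ _ (by linarith)
      · have h5 : θ t ≤ cl θ m t := by
          have h6 : min (t + m) (θ t) ≤ cl θ m t := le_max_right _ _
          rcases min_choice (t + m) (θ t) with h7 | h7
          · rw [h7] at h6; exact absurd h6 h4
          · rwa [h7] at h6
        have h6 := hk h3
        have h7 := hk h5
        linarith [le_abs_self (k (θ s) - k (θ t))]
  have h1 : |k (cl θ m s) - k (cl θ m t)| ≤ U := by
    rw [abs_le]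
    rcases le_total t s with h | h
    · have h2 := key s t h hU1 hU2
      have h3 := hk (cl_mono hθ m h)
      have h4 : 0 ≤ U := (abs_nonneg _).trans hU2
      constructor <;> linarith
    · have h2 := key t s h (by rwa [abs_sub_comm]) (by rwa [abs_sub_comm])
      have h3 := hk (cl_mono hθ m h)
      have h4 : 0 ≤ U := (abs_nonneg _).trans hU2
      constructor <;> linarith
  have h2 : |cl θ m t - cl θ m' t| ≤ |m - m'| := by
    have := abs_cl_sub_cl_le (k := θ) (L := 1) (m := m) (m' := m') (t := t) (t' := t) le_rfl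
      (by simp)
    simpa using this
  have h3 := (hkA (cl θ m t) (cl θ m' t)).trans (mul_le_mul_of_nonneg_left h2 hA)
  exact (abs_sub_le _ (k (cl θ m t)) _).trans (add_le_add h1 h3)

/-- **three step estimate**: `θ` (height `m`) acts only where `k` (height `h`) is full -/
theorem abs_comp_V {k θ τ : ℝ → ℝ} (hk : Monotone k) (hθ : Monotone θ) {A T U D m m' h h' s t : ℝ}
    (hA : 1 ≤ A) (hkA : ∀ s t, |k s - k t| ≤ A * |s - t|) (hT : 1 ≤ T)
    (hτ : ∀ s t, |τ s - τ t| ≤ T * |s - t|) (hD : ∀ t, |k t - t| ≤ D) (hm : 0 ≤ m) (hm' : 0 ≤ m')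
    (hf : 0 < m → h = D) (hf' : 0 < m' → h' = D)
    (hU1 : A * |s - t| ≤ U) (hU2 : |k (θ s) - k (θ t)| ≤ U) :
    |cl τ h (cl k h (cl θ m s)) - cl τ h' (cl k h' (cl θ m' t))| ≤
      T * (U + A * |m - m'| + |h - h'|) + |h - h'| := by
  have hA0 : (0:ℝ) ≤ A := by linarith
  have hcl : ∀ (h h' p : ℝ), |cl k h p - cl k h' p| ≤ |h - h'| := by
    intro h h' p
    have := abs_cl_sub_cl_le (k := k) (L := 1) (m := h) (m' := h') (t := p) (t' := p) le_rfl
      (by simp)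
    simpa using this
  have h1 : |cl k h (cl θ m s) - cl k h' (cl θ m' t)| ≤ U + A * |m - m'| + |h - h'| := by
    have hmm : 0 ≤ A * |m - m'| := mul_nonneg hA0 (abs_nonneg _)
    have hkk := abs_comp_cl_le hk hθ hA0 hkA (m' := m') hm hU1 hU2
    rcases hm.eq_or_lt with hm0 | hm0
    · rcases hm'.eq_or_lt with hm0' | hm0'
      · rw [← hm0, ← hm0', cl_zero, cl_zero]
        have h5 := abs_cl_sub_cl_le (m := h) (m' := h') hA (hkA s t)
        rw [← hm0, ← hm0'] at hmm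
        linarith
      · have e1 : cl k h' (cl θ m' t) = k (cl θ m' t) := by
          rw [hf' hm0']; exact cl_eq (hD _)
        have e2 : k (cl θ m s) = cl k h' (cl θ m s) := by
          rw [hf' hm0']; exact (cl_eq (hD _)).symm
        rw [e1]
        have h5 := abs_sub_le (cl k h (cl θ m s)) (k (cl θ m s)) (k (cl θ m' t))
        have h6 := hcl h h' (cl θ m s)
        rw [← e2] at h6
        linarith
    · have e1 : cl k h (cl θ m s) = k (cl θ m s) := by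
        rw [hf hm0]; exact cl_eq (hD _)
      have e2 : k (cl θ m' t) = cl k h (cl θ m' t) := by
        rw [hf hm0]; exact (cl_eq (hD _)).symm
      rw [e1]
      have h5 := abs_sub_le (k (cl θ m s)) (k (cl θ m' t)) (cl k h' (cl θ m' t))
      have h6 := hcl h h' (cl θ m' t)
      rw [← e2] at h6
      linarith
  have h2 := abs_cl_sub_cl_le (m := h) (m' := h') hT (hτ (cl k h (cl θ m s)) (cl k h' (cl θ m' t)))
  refine h2.trans (add_le_add_left (mul_le_mul_of_nonneg_left h1 (by linarith)) _)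

end P073.H196

namespace P073.H236

open _root_.P073 _root_.P073.Net _root_.P073.PA691 _root_.P073.H579 _root_.P073.H196
open _root_.P073.PR720 (LF)
open Vale.Agent.P073.St (V)
open Vale.Agent.P073.H471 Vale.Agent.P073.H267 Vale.Agent.P073.H267.Geo
open Vale.Agent.P073.H73 (Mesh)
open Vale.Agent.P073.H193 (Edges)
open Vale.Agent.P073.H669 (TLv)
open Vale.Agent.P073.H581 (TileIff Sat sat_TB tileIff_of_boxes)

variable {Ω Λ : Set V} {v : V} {K : BoxCx Λ v} {S₀ : Rad K} {Wd : Wid K S₀} {B : Boxes Wd}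
  {G : Geo B} {M : Mesh Ω} {E : Edges M} {h h' : ConHomeo Ω Λ} {ω : TBx K → ℝ}
  {T : TBx K → Finset (ℝ × ℝ)} {η : ℝ} {τ : Type*} {A : τ → Set V} {C : Set ℝ} {εE : E.ε → ℝ}
  {δ : TBx K → ℝ} {L : TLv G E h ω T η A C εE δ} {G₀ : Set (TBx K)}

/-- compositions of moves -/
theorem mv_comp {ι : Type*} {Ks : ι → Set V} {r r' : ι → ℝ} {T T' : V → V} (h : Mv Ks r T)
    (h' : Mv Ks r' T') : Mv Ks (fun b => r b + r' b) fun y => T' (T y) where
  mem := fun b y hy => h'.mem b _ (h.mem b y hy)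
  near := fun b y hy => by
    have e : T' (T y) - y = (T' (T y) - T y) + (T y - y) := by abel
    rw [e]
    refine (norm_add_le _ _).trans ?_
    linarith [h.near b y hy, h'.near b _ (h.mem b y hy)]
  off := fun y hy => by
    show T' (T y) = y
    rw [h.off y hy, h'.off y hy]

/-- the common boxes -/
abbrev jR (b : G₀) : Fin 3 := b.1.ax
noncomputable abbrev alR (G : Geo B) (b : G₀) : ℝ := G.tlo true b.1 b.1.ax
noncomputable abbrev beR (G : Geo B) (b : G₀) : ℝ := G.thi true b.1 b.1.ax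
noncomputable abbrev loR (G : Geo B) (ω : TBx K → ℝ) (b : G₀) (i : Fin 3) : ℝ := G.tlo true b.1 i - 60 * ω b.1
noncomputable abbrev hiR (G : Geo B) (ω : TBx K → ℝ) (b : G₀) (i : Fin 3) : ℝ := G.thi true b.1 i + 60 * ω b.1

theorem bigBox_rtK (b : G₀) :
    bigBox (jR b) (alR G b) (beR G b) (loR G ω b) (hiR G ω b) = rtK G ω b.1 60 := rfl

/-- vertical maps of the common boxes, small displacement -/
theorem mv_of_vrt {F : V → V} {φ : G₀ → V → ℝ → ℝ}
    (H : Vrt F jR (alR G) (beR G) (loR G ω) (hiR G ω) φ) {r : G₀ → ℝ} (hr : ∀ b, 0 ≤ r b)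
    (hφ : ∀ b, ∀ y ∈ rtK G ω b.1 60, |φ b y (y b.1.ax) - y b.1.ax| ≤ r b) :
    Mv (fun b : G₀ => rtK G ω b.1 60) r F where
  mem := fun b y hy => H.mem hy
  near := fun b y hy => by
    rw [H.on b y hy, pi_norm_le_iff_of_nonneg (hr b)]
    intro i
    by_cases hi : i = b.1.ax
    · subst hi
      rw [Pi.sub_apply, Function.update_self, Real.norm_eq_abs]
      exact hφ b y hy
    · rw [Pi.sub_apply, Function.update_of_ne hi, sub_self, norm_zero]
      exact hr b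
  off := fun y hy => H.off y hy

/-- vertical maps of the common boxes preserve the tiles -/
theorem tileIff_of_vrt {ρ : V → ℝ} (hC : Cells ρ v K) (L : TLv G E h ω T η A C εE δ) {F : V → V}
    {φ : G₀ → V → ℝ → ℝ} (H : Vrt F jR (alR G) (beR G) (loR G ω) (hiR G ω) φ) :
    TileIff Λ ρ v F :=
  tileIff_of_boxes (fun b : G₀ => rtK G ω b.1 60) (fun b => {b.1.ax})
    (fun b => (sat_TB hC G b.1).mono (rtK_sub L (by norm_num)) Subset.rfl)
    (fun b => (rtK_sub L (by norm_num)).trans (Geo.TB_sub b.1)) (fun y _ hy => H.off y hy)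
    fun b y hy => ⟨H.mem hy, fun k hk => by
      rw [H.on b y hy, Function.update_of_ne (by simpa using hk)]⟩

/-! ### `S = T ∘ H₁ ∘ H_α` -/

theorem lf_rtK (L : TLv G E h ω T η A C εE δ) : ∀ z ∈ Λ, ∃ U ∈ 𝓝 z,
    {b : G₀ | (bigBox (jR b) (alR G b) (beR G b) (loR G ω b) (hiR G ω b) ∩ U).Nonempty}.Finite := by
  intro z hz
  obtain ⟨U, hU, hf⟩ := lf_TB G z hz
  refine ⟨U, hU, (hf.preimage (f := fun b : G₀ => b.1) Subtype.val_injective.injOn).subset ?_⟩
  rintro b ⟨x, hx, hxU⟩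
  exact ⟨x, rtK_sub L (u := 60) (by norm_num) hx, hxU⟩

variable {c : TBx K → ℝ} {hc0 : ∀ b, 0 < c b} {hc : ∀ b, c b ≤ δ b / 8}
  {e : TBx K → ℝ} {he : ∀ b, 0 < e b} {he2 : ∀ b, 2 * e b < δ b}
  {V₀ : G₀ → Finset ℝ}
  {X : FixD (F1 L hc0 hc he he2 G₀) V₀} {Hα H₁ Tf : ConHomeo Λ Λ}

/-- **[LvLip]** the stair of the thin flats: slope at most 2 off the flats -/
theorem lvLip_sm1 (hc0 : ∀ b, 0 < c b) (hc : ∀ b, c b ≤ δ b / 8) (he : ∀ b, 0 < e b)
    (he8 : ∀ b, e b ≤ δ b / 8) (b : TBx K) (hd : dsp (T b) (δ b) + e b ≤ 30 * ω b) :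
    LvLip (thk L b).lvs.L (c b) ((δ b - 2 * e b) / (2 * c b)) 2 (sm1 L c e b) := by
  have hδ := L.δ0 b
  have hcb := hc b
  have heb := he8 b
  have he2 : 2 * e b < δ b := by linarith [he b]
  have hω := L.ω0 b
  have hT : Tgt (L.N b) (G.tlo true b b.ax) (G.thi true b b.ax) (G.tlo true b b.ax + 30 * ω b)
      (δ b) (e b) := Tgt.of_cells (L.cells b) (he b) he2 (by linarith) (by linarith)
  have hN := L.pos b
  have hLv : Lvs (L.N b) (L.a b) (c b) (G.tlo true b b.ax) (G.thi true b b.ax) :=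
    (L.lev236 c hc0 hc).lvs b
  refine lvLip_sm hLv hT (by norm_num) ?_ (fun k hk => ?_) ?_
  · have h1 := (L.cells b).ge 0 hN
    have h2 := (L.cells b).lt_a hδ L.η4 0
    linarith [h2.1]
  · have h1 := (L.cells b).lt_a hδ L.η4 k
    have h2 := (L.cells b).lt_a hδ L.η4 (k + 1)
    have h3 := (L.cells b).succ k hk
    linarith [h1.2, h2.1]
  · have h1 := (L.cells b).le_num
    have h2 := (L.cells b).le (L.N b - 1) (by omega)
    have h3 := (L.cells b).lt_a hδ L.η4 (L.N b - 1)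
    have h4 : dsp (T b) (δ b) = ∑ p ∈ T b, (p.2 - p.1) + 2 * (T b).card * δ b + δ b := by
      unfold dsp; ring
    rw [h4] at hd
    have h5 : (2 * ((T b).card : ℝ) + 1) * δ b = 2 * (T b).card * δ b + δ b := by ring
    rw [h5] at h1
    linarith [h3.2]

/-- `sm ∘ th` is `8`-Lipschitz -/
theorem abs_sm_tha_le (hc0 : ∀ b, 0 < c b) (hc : ∀ b, c b ≤ δ b / 8) (he : ∀ b, 0 < e b)
    (he8 : ∀ b, e b ≤ δ b / 8) (b : TBx K) (hd : dsp (T b) (δ b) + e b ≤ 30 * ω b) (s t : ℝ) :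
    |sm1 L c e b (tha L c b s) - sm1 L c e b (tha L c b t)| ≤ 8 * |s - t| := by
  have h1 := lvLip_sm1 (L := L) hc0 hc he he8 b hd
  have hc1 := hc0 b
  have hδ := L.δ0 b
  have heb := he8 b
  refine (h1.comp_th (thk L b).lvs.c0.le (thk L b).lvs.sepd (lT_pos L hc0 b) (lT_le L hc b)
    (c := c b) (W := (δ b - 2 * e b) / (2 * c b)) (B := 2) ?_
    (div_nonneg (by linarith) (by linarith)) (by norm_num) s t).trans ?_
  · show c b = 8 * c b / δ b * (δ b / 8)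
    field_simp
  refine mul_le_mul_of_nonneg_right ?_ (abs_nonneg _)
  have h2 : (δ b - 2 * e b) / (2 * c b) * lT δ c b ≤ 4 := by
    show (δ b - 2 * e b) / (2 * c b) * (8 * c b / δ b) ≤ 4
    rw [div_mul_div_comm, div_le_iff₀ (by positivity)]
    nlinarith [he b, mul_pos (he b) hc1]
  linarith

/-- the heights -/
noncomputable def hgtA (L : TLv G E h ω T η A C εE δ) (hc0 : ∀ b, 0 < c b)
    (hc : ∀ b, c b ≤ δ b / 8) (b : G₀) (y : V) : ℝ := ((FA L hc0 hc G₀).X b).m y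

noncomputable def hgt1 (L : TLv G E h ω T η A C εE δ) (hc0 : ∀ b, 0 < c b)
    (hc : ∀ b, c b ≤ δ b / 8) (he : ∀ b, 0 < e b) (he2 : ∀ b, 2 * e b < δ b)
    (b : G₀) (y : V) : ℝ :=
  ((F1 L hc0 hc he he2 G₀).X b).m y

theorem overA : Over (FA L hc0 hc G₀) jR (alR G) (beR G) (loR G ω) (hiR G ω) := over_rt L

theorem over1 : Over (F1 L hc0 hc he he2 G₀) jR (alR G) (beR G) (loR G ω) (hiR G ω) :=
  over_rt L

theorem overT : Over X.hfam jR (alR G) (beR G) (loR G ω) (hiR G ω) := by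
  have o₁ := over1 (L := L) (hc0 := hc0) (hc := hc) (he := he) (he2 := he2) (G₀ := G₀)
  exact ⟨o₁.hj, o₁.hal, o₁.hbe, o₁.hlo, o₁.hhi, o₁.dis⟩

theorem hgtA_nonneg (b : G₀) (y : V) : 0 ≤ hgtA L hc0 hc b y := ((FA L hc0 hc G₀).X b).vd.m0 y

theorem hgt1_nonneg (b : G₀) (y : V) : 0 ≤ hgt1 L hc0 hc he he2 b y :=
  ((F1 L hc0 hc he he2 G₀).X b).vd.m0 y

/-- laterally in `rtK 50` the height of `H₁` is full -/
theorem hgt1_full {b : G₀} {y : V} (hy : ∀ i, i ≠ b.1.ax → G.tlo true b.1 i - 50 * ω b.1 ≤ y i ∧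
    y i ≤ G.thi true b.1 i + 50 * ω b.1) :
    hgt1 L hc0 hc he he2 b y = dsp (T b.1) (δ b.1) + δ b.1 / 8 :=
  rtX_m_full L (hw := by norm_num) hy

/-- where `H_α` acts, `H₁` is full -/
theorem hgt1_eq {b : G₀} {y : V} (hy : 0 < hgtA L hc0 hc b y) :
    hgt1 L hc0 hc he he2 b y = dsp (T b.1) (δ b.1) + δ b.1 / 8 := by
  have h1 : ∀ i, i ≠ b.1.ax → G.tlo true b.1 i - (12 + 7) * ω b.1 ≤ y i ∧
      y i ≤ G.thi true b.1 i + (12 + 7) * ω b.1 := rtX_m L (hw := by norm_num) hy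
  have h0 := L.ω0 b.1
  exact hgt1_full fun i hi => by
    obtain ⟨h2, h3⟩ := h1 i hi
    constructor <;> linarith

/-- laterally in `rtK 12` the height of `H_α` is full -/
theorem hgtA_full {b : G₀} {y : V} (hy : ∀ i, i ≠ b.1.ax → G.tlo true b.1 i - 12 * ω b.1 ≤ y i ∧
    y i ≤ G.thi true b.1 i + 12 * ω b.1) : hgtA L hc0 hc b y = δ b.1 / 8 :=
  rtX_m_full L (hw := by norm_num) hy

/-- off `rtK 19` the height of `H_α` vanishes -/
theorem hgtA_eq_zero {b : G₀} {y : V} (hy : ∃ i, i ≠ b.1.ax ∧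
    (y i < G.tlo true b.1 i - 19 * ω b.1 ∨ G.thi true b.1 i + 19 * ω b.1 < y i)) :
    hgtA L hc0 hc b y = 0 := by
  by_contra hne
  have h1 : 0 < hgtA L hc0 hc b y := lt_of_le_of_ne (hgtA_nonneg b y) (Ne.symm hne)
  have h2 : ∀ i, i ≠ b.1.ax → G.tlo true b.1 i - (12 + 7) * ω b.1 ≤ y i ∧
      y i ≤ G.thi true b.1 i + (12 + 7) * ω b.1 := rtX_m L (hw := by norm_num) h1
  obtain ⟨i, hi, h3⟩ := hy
  obtain ⟨h4, h5⟩ := h2 i hi
  have h0 := L.ω0 b.1
  rcases h3 with h3 | h3 <;> linarith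

/-- the vertical function of `S` -/
noncomputable def ph (X : FixD (F1 L hc0 hc he he2 G₀) V₀) (b : G₀) (y : V) (t : ℝ) : ℝ :=
  cl (X.τ b) (hgt1 L hc0 hc he he2 b y)
    (cl (sm1 L c e b.1 ∘ tha L c b.1) (hgt1 L hc0 hc he he2 b y)
      (cl (thai L hc0 hc b.1) (hgtA L hc0 hc b y) t))

/-- where `H_α` does not act -/
theorem ph_zero {b : G₀} {y : V} (hy : hgtA L hc0 hc b y = 0) (t : ℝ) :
    ph X b y t = cl (X.τ b) (hgt1 L hc0 hc he he2 b y)
      (cl (sm1 L c e b.1 ∘ tha L c b.1) (hgt1 L hc0 hc he he2 b y) t) := by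
  unfold ph
  rw [hy, cl_zero]

namespace RTS

/-- **the vertical formula** -/
theorem vrt (H : RTS L hc0 hc he he2 X Hα H₁ Tf) :
    Vrt ((Hα.trans H₁).trans Tf).toFun jR (alR G) (beR G) (loR G ω) (hiR G ω) (ph X) :=
  (overT.vrt H.hT).comp ((over1.vrt H.h₁).comp (overA.vrt H.hα))

end RTS

/-- small displacement -/
theorem abs_ph_sub_self_le (b : G₀) (y : V) (t : ℝ) :
    |ph X b y t - t| ≤ δ b.1 / 8 + (dsp (T b.1) (δ b.1) + δ b.1 / 8) + X.d b := by
  set p := cl (thai L hc0 hc b.1) (hgtA L hc0 hc b y) t with hp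
  set p' := cl (sm1 L c e b.1 ∘ tha L c b.1) (hgt1 L hc0 hc he he2 b y) p with hp'
  have h1 : |p - t| ≤ δ b.1 / 8 :=
    (abs_cl_sub_le' (hgtA_nonneg b y)).trans (thai_near L hc0 hc b.1 t)
  have h2 : |p' - p| ≤ dsp (T b.1) (δ b.1) + δ b.1 / 8 :=
    (abs_cl_sub_le' (hgt1_nonneg b y)).trans (((F1 L hc0 hc he he2 G₀).X b).hD p)
  have h3 : |ph X b y t - p'| ≤ X.d b :=
    (abs_cl_sub_le' (hgt1_nonneg b y)).trans ((X.fix b).disp _)
  have h4 := abs_sub_le (ph X b y t) p' t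
  have h5 := abs_sub_le p' p t
  linarith

/-- the numbers -/
structure SNum (X : FixD (F1 L hc0 hc he he2 G₀) V₀) : Prop where
  he8 : ∀ b, e b ≤ δ b / 8
  hω : ∀ b : G₀, dsp (T b.1) (δ b.1) + δ b.1 / 8 ≤ 7 * ω b.1
  eps : ∀ b, 4 * X.d b / X.g b ≤ 1

/-- lateral Lipschitz constant of the height of `H_α` (small) -/
theorem hgtA_lat {b : G₀} {d : ℝ} (hd0 : 0 ≤ d) {y y' : V}
    (hd : ∀ i, i ≠ b.1.ax → |y i - y' i| ≤ d) :
    |hgtA L hc0 hc b y - hgtA L hc0 hc b y'| ≤ δ b.1 / 8 * (d / (7 * ω b.1)) :=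
  abs_bmp_sub_le ((FA L hc0 hc G₀).X b).D0 (mul_pos (by norm_num) (L.ω0 b.1))
    (fun _ => le_rfl) hd hd0

/-- lateral Lipschitz constant of the height of `H₁` -/
theorem hgt1_lat {b : G₀} {d : ℝ} (hd0 : 0 ≤ d) {y y' : V}
    (hd : ∀ i, i ≠ b.1.ax → |y i - y' i| ≤ d) :
    |hgt1 L hc0 hc he he2 b y - hgt1 L hc0 hc he he2 b y'| ≤
      (dsp (T b.1) (δ b.1) + δ b.1 / 8) * (d / (10 * ω b.1)) :=
  abs_bmp_sub_le ((F1 L hc0 hc he he2 G₀).X b).D0 (mul_pos (by norm_num) (L.ω0 b.1))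
    (fun _ => le_rfl) hd hd0

theorem hgtA_lip {b : G₀} (hω : dsp (T b.1) (δ b.1) + δ b.1 / 8 ≤ 7 * ω b.1) (y y' : V) :
    |hgtA L hc0 hc b y - hgtA L hc0 hc b y'| ≤ ‖y - y'‖ := by
  refine HX.abs_m_sub_le ((FA L hc0 hc G₀).X b) (fun i => ?_) y y'
  have h1 := L.dsp_nonneg b.1
  have h2 := L.ω0 b.1
  show δ b.1 / 8 ≤ 7 * ω b.1
  linarith

theorem hgt1_lip {b : G₀} (hω : dsp (T b.1) (δ b.1) + δ b.1 / 8 ≤ 7 * ω b.1) (y y' : V) :
    |hgt1 L hc0 hc he he2 b y - hgt1 L hc0 hc he he2 b y'| ≤ ‖y - y'‖ :=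
  HX.abs_m_sub_le ((F1 L hc0 hc he he2 G₀).X b) (fun _ => by
    have h2 := L.ω0 b.1
    show dsp (T b.1) (δ b.1) + δ b.1 / 8 ≤ 10 * ω b.1
    linarith) y y'

theorem SNum.hd (N : SNum X) (b : G₀) : dsp (T b.1) (δ b.1) + e b.1 ≤ 30 * ω b.1 := by
  linarith [N.hω b, N.he8 b.1, L.ω0 b.1, L.δ0 b.1]

/-- **the pair estimate**, general form -/
theorem abs_ph_sub_le (N : SNum X) (b : G₀) (y y' : V) {s t U : ℝ} (hU1 : 8 * |s - t| ≤ U)
    (hU2 : |sm1 L c e b.1 s - sm1 L c e b.1 t| ≤ U) :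
    |ph X b y s - ph X b y' t| ≤ 2 * U + 16 * |hgtA L hc0 hc b y - hgtA L hc0 hc b y'| +
      3 * |hgt1 L hc0 hc he he2 b y - hgt1 L hc0 hc he he2 b y'| := by
  have hτ : ∀ s t, |X.τ b s - X.τ b t| ≤ 2 * |s - t| := fun s t =>
    ((X.fix b).lip s t).trans (mul_le_mul_of_nonneg_right (by linarith [N.eps b])
      (abs_nonneg _))
  have key := abs_comp_V (k := sm1 L c e b.1 ∘ tha L c b.1) (θ := thai L hc0 hc b.1)
    (τ := X.τ b) (A := 8) (T := 2) (U := U) (D := dsp (T b.1) (δ b.1) + δ b.1 / 8)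
    (m := hgtA L hc0 hc b y) (m' := hgtA L hc0 hc b y') (h := hgt1 L hc0 hc he he2 b y)
    (h' := hgt1 L hc0 hc he he2 b y') (s := s) (t := t)
    ((F1 L hc0 hc he he2 G₀).X b).l1.km.monotone (l1_tha L hc0 hc b.1).km'.monotone
    (by norm_num) (abs_sm_tha_le hc0 hc he N.he8 b.1 (N.hd b)) (by norm_num) hτ
    ((F1 L hc0 hc he he2 G₀).X b).hD (hgtA_nonneg b y) (hgtA_nonneg b y')
    hgt1_eq hgt1_eq hU1 (by
      simp only [Function.comp_apply, (l1_tha L hc0 hc b.1).right]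
      exact hU2)
  refine key.trans (le_of_eq ?_)
  ring

/-- **the pair estimate** (581: S-fade), both points anywhere -/
theorem abs_ph_sub_le_fl (N : SNum X) (b : G₀) (y y' : V) (s t : ℝ) :
    |ph X b y s - ph X b y' t| ≤ 2 * ((δ b.1 - 2 * e b.1) / (2 * c b.1) *
      ∑ a ∈ (thk L b.1).lvs.L, |fl (c b.1) a s - fl (c b.1) a t|) + 16 * |s - t| +
      16 * |hgtA L hc0 hc b y - hgtA L hc0 hc b y'| +
      3 * |hgt1 L hc0 hc he he2 b y - hgt1 L hc0 hc he he2 b y'| := by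
  have h1 := lvLip_sm1 (L := L) hc0 hc he N.he8 b.1 (N.hd b) s t
  have hW : 0 ≤ (δ b.1 - 2 * e b.1) / (2 * c b.1) *
      ∑ a ∈ (thk L b.1).lvs.L, |fl (c b.1) a s - fl (c b.1) a t| :=
    mul_nonneg (div_nonneg (by linarith [he2 b.1]) (by linarith [hc0 b.1]))
      (Finset.sum_nonneg fun _ _ => abs_nonneg _)
  refine (abs_ph_sub_le N b y y' (U := (δ b.1 - 2 * e b.1) / (2 * c b.1) *
      ∑ a ∈ (thk L b.1).lvs.L, |fl (c b.1) a s - fl (c b.1) a t| + 8 * |s - t|) (by linarith)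
    (by linarith [abs_nonneg (s - t)])).trans ?_
  linarith

/-- both points off `rtK 19`: only `H₁` and the correction -/
theorem abs_ph_sub_le_zero (N : SNum X) {b : G₀} {y y' : V}
    (hy : hgtA L hc0 hc b y = 0) (hy' : hgtA L hc0 hc b y' = 0) (s t : ℝ) :
    |ph X b y s - ph X b y' t| ≤ 16 * |s - t| +
      3 * |hgt1 L hc0 hc he he2 b y - hgt1 L hc0 hc he he2 b y'| := by
  rw [ph_zero hy, ph_zero hy']
  have h1 := abs_sm_tha_le (L := L) hc0 hc he N.he8 b.1 (N.hd b) s t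
  have h2 := abs_cl_sub_cl_le (m := hgt1 L hc0 hc he he2 b y) (m' := hgt1 L hc0 hc he he2 b y')
    (k := sm1 L c e b.1 ∘ tha L c b.1) (by norm_num : (1:ℝ) ≤ 8) h1
  have h3 := abs_cl_sub_cl_le (m := hgt1 L hc0 hc he he2 b y) (m' := hgt1 L hc0 hc he he2 b y')
    (k := X.τ b) (by norm_num : (1:ℝ) ≤ 2) (((X.fix b).lip _ _).trans
      (mul_le_mul_of_nonneg_right (by linarith [N.eps b]) (abs_nonneg
        (cl (sm1 L c e b.1 ∘ tha L c b.1) (hgt1 L hc0 hc he he2 b y) s -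
          cl (sm1 L c e b.1 ∘ tha L c b.1) (hgt1 L hc0 hc he he2 b y') t))))
  linarith

namespace RTS

variable (H : RTS L hc0 hc he he2 X Hα H₁ Tf) (N : SNum X)
include H N

/-- **`Mv`** -/
theorem mv : Mv (fun b : G₀ => rtK G ω b.1 60) (fun b => 21 * ω b.1)
    ((Hα.trans H₁).trans Tf).toFun :=
  mv_of_vrt H.vrt (fun b => by have := L.ω0 b.1; positivity) fun b y _ => by
    refine (abs_ph_sub_self_le b y _).trans ?_
    have h1 : X.d b ≤ dsp (T b.1) (δ b.1) + δ b.1 / 8 := X.dD b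
    have h2 := N.hω b
    have h3 := L.dsp_nonneg b.1
    linarith

end RTS

end P073.H236
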