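import Vale.Agent.P073.H267.K3St2
import Vale.Agent.P073.H155.NumT2
import Vale.Agent.P073.H236.SlotP

/-!
# P073, H236: **[TopG]**, the numbers of the drawn faces which are not peeled (`GivNum` of H142)

* `lamH`: Lipschitz numbers of the faces from those of the cells.
* `exists_givSlots`: bounds of `muP`, `dP` before ROUND T.
* `exists_givTol4`: the bound of the tolerance of the second staircases.
-/

open Set Metric Topology Filter

set_option linter.unusedSectionVars false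

namespace Vale.Agent.P073.H236.Slot

open _root_.P073 _root_.P073.Net _root_.P073.PA691
open Vale.Agent.P073.St (V)
open Vale.Agent.P073.H471 Vale.Agent.P073.H267
open Vale.Agent.P073.H73 (Mesh)
open Vale.Agent.P073.H193 (Edges mesh_sub edges)
open Vale.Agent.P073.H926
open Vale.Agent.P073.H238.K3
open Vale.Agent.P073.H267.K3
open _root_.P073.H345 (PK)

section lam

variable {Ω : Set V}

/-- a face is contained in a cell -/
theorem face_cell (M : Mesh Ω) (k : M.κ) : ∃ i, M.F k ⊆ M.Q i := by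
  obtain ⟨i, j, -, h⟩ := M.two k
  exact ⟨i, h.trans inter_subset_left⟩

/-- Lipschitz numbers of the faces from those of the cells -/
noncomputable def lamH (M : Mesh Ω) (Lh : M.ι → ℝ) (k : M.κ) : ℝ := Lh (face_cell M k).choose

theorem lamH_nonneg {M : Mesh Ω} {Lh : M.ι → ℝ} (h : ∀ i, 0 ≤ Lh i) (k : M.κ) :
    0 ≤ lamH M Lh k := h _

theorem lamH_lip {M : Mesh Ω} {Lh : M.ι → ℝ} {f : V → V} (h : LipH M Lh f) (k : M.κ) :
    ∀ x ∈ M.F k, ∀ y ∈ M.F k, ‖f y - f x‖ ≤ lamH M Lh k * ‖y - x‖ := fun x hx y hy =>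
  h _ y ((face_cell M k).choose_spec hy) x ((face_cell M k).choose_spec hx)

end lam

variable {c₀ n δ : ℝ} {j : ℕ} {Ω Λ : Set V} {v w : V} {ρ : V → ℝ} {M : Mesh Ω} {h : ConHomeo Ω Λ}
  {J₀ J : Set (ℕ × (Fin 3 → ℤ))} {P Z : Set M.ι} {K : BoxCx Λ w}

/-- **the bounds of `muP` and `dP`** -/
theorem exists_givSlots (D : KIn3 c₀ n j δ v w ρ M h J₀ J P Z) (C : Cells ρ w K)
    {Lam τ : M.κ → ℝ} (hLam : ∀ k, 0 ≤ Lam k) (hτ : ∀ k, 0 < τ k) {η : pG C J₀ → ℝ}
    (hη : ∀ b, 0 < η b) :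
    ∃ mG dG : K.S → ℝ, (∀ s, 0 < mG s) ∧ (∀ s, 0 < dG s) ∧
      ∀ {C₀ μT : ℝ} (X : S1 D C C₀ μT) (muP dP : K.S → ℝ), (∀ s, muP s ≤ mG s) →
      (∀ s, dP s ≤ dG s) →
      (∀ s q, (q = K.sm s ∨ q = K.sp s) → dP s ≤ (D.G C).om q) ∧
      (∀ (b : pG C J₀) s, K.edge b.1 ⊆ K.sq s → muP s ≤ η b ∧ dP s ≤ η b) ∧
      ∀ s k, (∃ x ∈ M.F k, X.h1.toFun x ∈ PK (D.G C) s) →
        (6 * muP s + dP s) * (4 / (D.B C).τ s) * (2000 * (Lam k + 1)) ≤ τ k := by
  obtain ⟨e₁, e0, he⟩ := _root_.P073.H155.exists_sq_lb K η hη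
  obtain ⟨r, r0, hr⟩ := exists_mPk D C (m := fun k => τ k / (8000 * (Lam k + 1)))
    (fun k => by have := hLam k; have := hτ k; positivity)
  have hB : ∀ s, 0 < (D.B C).τ s := (D.B C).τ_pos
  have hom : ∀ q, 0 < (D.G C).om q := (D.G C).om_pos
  refine ⟨fun s => min (e₁ s) (r s * (D.B C).τ s / 12),
    fun s => min (min (e₁ s) (r s * (D.B C).τ s / 2)) (min ((D.G C).om (K.sm s))
      ((D.G C).om (K.sp s))), fun s => ?_, fun s => ?_, fun X muP dP hm hd => ?_⟩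
  · exact lt_min (e0 s) (by have := hB s; have := r0 s; positivity)
  · exact lt_min (lt_min (e0 s) (by have := hB s; have := r0 s; positivity))
      (lt_min (hom _) (hom _))
  refine ⟨fun s q hq => ?_, fun b s hb => ⟨?_, ?_⟩, fun s k hk => ?_⟩
  · rcases hq with rfl | rfl
    · exact (hd s).trans ((min_le_right _ _).trans (min_le_left _ _))
    · exact (hd s).trans ((min_le_right _ _).trans (min_le_right _ _))
  · exact (hm s).trans ((min_le_left _ _).trans (he s b hb))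
  · exact (hd s).trans ((min_le_left _ _).trans ((min_le_left _ _).trans (he s b hb)))
  · have h1 := (hm s).trans (min_le_right _ _)
    have h2 := (hd s).trans ((min_le_left _ _).trans (min_le_right _ _))
    obtain ⟨x, hx, hxs⟩ := hk
    have h3 := hr X.h1.toFun X.out.near3 s k ⟨_, hxs, x, hx, rfl⟩
    have hτs := hB s
    have hL := hLam k
    have h4 : (6 * muP s + dP s) * (4 / (D.B C).τ s) ≤ 4 * r s := by
      rw [mul_div_assoc', div_le_iff₀ hτs]
      nlinarith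
    calc (6 * muP s + dP s) * (4 / (D.B C).τ s) * (2000 * (Lam k + 1))
        ≤ 4 * r s * (2000 * (Lam k + 1)) := mul_le_mul_of_nonneg_right h4 (by positivity)
      _ = r s * (8000 * (Lam k + 1)) := by ring
      _ ≤ τ k := by rwa [le_div_iff₀ (by positivity)] at h3

/-- **the bound of the tolerance of the second staircases** -/
theorem exists_givTol4 {D : KIn3 c₀ n j δ v w ρ M h J₀ J P Z} {C : Cells ρ w K}
    (f : ConHomeo Ω Λ) {τ : M.κ → ℝ} (hτ : ∀ k, 0 < τ k) :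
    ∃ t : (D.dat C).S₀ → ℝ, (∀ s, 0 < t s) ∧ ∀ (s : (D.dat C).S₀) k,
      (∃ x ∈ M.F k, f.toFun x ∈ PK (D.G C) s.1) → ∀ e ≤ t s, 16 * e ≤ τ k := by
  obtain ⟨r, r0, hr⟩ := exists_min_over f (A := M.F) (mesh_sub M) M.ffin
    (N := fun s : (D.dat C).S₀ => PK (D.G C) s.1)
    (fun s => _root_.P073.H919.isCompact_PK (D.G C) s.1)
    (fun s => fun y hy => PX_sub_Λ (D.G C) s.1 (PK_sub_PX s.1 hy)) (m := fun k => τ k / 16)
    (fun k => by have := hτ k; positivity)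
  refine ⟨r, r0, fun s k hk e he => ?_⟩
  obtain ⟨x, hx, hxs⟩ := hk
  have h1 := hr s k ⟨_, ⟨x, hx, rfl⟩, hxs⟩
  linarith

/-- **`X.h1` instead of `h4`** (for the numbers over the peeled faces) -/
theorem exists_givTolP {D : KIn3 c₀ n j δ v w ρ M h J₀ J P Z} {C : Cells ρ w K}
    (f : ConHomeo Ω Λ) {τ : M.κ → ℝ} (hτ : ∀ k, 0 < τ k) :
    ∃ t : (D.dat C).S₀ → ℝ, (∀ s, 0 < t s) ∧ ∀ (s : (D.dat C).S₀) k,
      (D.dat C).PkS (D.G C) f s.1 k → ∀ e ≤ t s, 16 * e ≤ τ k := by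
  obtain ⟨t, t0, ht⟩ := exists_givTol4 (D := D) (C := C) f hτ
  refine ⟨t, t0, fun s k hk e he => ht s k ?_ e he⟩
  obtain ⟨-, -, x, hx, hxs⟩ := hk
  exact ⟨x, hx, _root_.P073.H345.PB_sub_PK (by norm_num) s.1 hxs⟩

end Vale.Agent.P073.H236.Slot
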