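import Vale.Agent.P073.H880.TopN
import Vale.Agent.P073.H236.TopG

/-!
# P073, H236: **[TopG]**, the numbers of the drawn faces which are not peeled, from the slots of
`H880.TopN`

* `exists_tau`: the tolerance of the faces, a function of the weights of the edges.
* `row_givNum`: the fields of `GivNum` of H142.
-/

open Set Metric Topology Filter

set_option linter.unusedSectionVars false

namespace Vale.Agent.P073.H236.Slot

open _root_.P073 _root_.P073.Net _root_.P073.PA691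
open Vale.Agent.P073.St (V)
open Vale.Agent.P073.H471 Vale.Agent.P073.H267
open Vale.Agent.P073.H73 (Mesh)
open Vale.Agent.P073.H193 (Edges mesh_sub edges)
open Vale.Agent.P073.H926
open Vale.Agent.P073.H238.K3
open Vale.Agent.P073.H267.K3
open Vale.Agent.P073.Top880
open _root_.P073.H345 (PK)

section tau

variable {Ω : Set V}

/-- **the tolerance of the faces**, a function of the weights of the edges -/
theorem exists_tau (M : Mesh Ω) {τ₀ ε : M.κ → ℝ} (hτ₀ : ∀ k, 0 < τ₀ k) (hε : ∀ k, 0 < ε k) :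
    ∃ τ : ((edges M).ε → ℝ) → M.κ → ℝ, ∀ bn : (edges M).ε → ℝ, (∀ e, 0 < bn e) →
      (∀ k, 0 < τ bn k) ∧
      (∀ k e, (edges M).seg e ⊆ M.F k → τ bn k * ‖(edges M).b e - (edges M).a e‖ ≤ bn e) ∧
      (∀ k, τ bn k ≤ τ₀ k) ∧ ∀ k, τ bn k * (1 + diam (M.F k)) ≤ ε k / 4 := by
  have key : ∀ (bn : (edges M).ε → ℝ) k, ∃ r : ℝ, (∀ e, 0 < bn e) → 0 < r ∧
      ∀ e, (edges M).seg e ⊆ M.F k → r * ‖(edges M).b e - (edges M).a e‖ ≤ bn e := by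
    intro bn k
    by_cases hb : ∀ e, 0 < bn e
    · have hn : ∀ e, 0 < ‖(edges M).b e - (edges M).a e‖ := fun e =>
        norm_pos_iff.2 (sub_ne_zero.2 ((edges M).ne e).symm)
      obtain ⟨r, h0, h1⟩ := exists_lb ((edges M).fin_face k)
        (m := fun e => bn e / ‖(edges M).b e - (edges M).a e‖)
        (fun e => div_pos (hb e) (hn e))
      refine ⟨r, fun _ => ⟨h0, fun e he => ?_⟩⟩
      have h2 := h1 e he
      rwa [le_div_iff₀ (hn e)] at h2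
    · exact ⟨1, fun h => absurd h hb⟩
  choose r hr using key
  refine ⟨fun bn k => min (r bn k) (min (τ₀ k) (ε k / (4 * (1 + diam (M.F k))))), fun bn hb =>
    ⟨fun k => ?_, fun k e he => ?_, fun k => (min_le_right _ _).trans (min_le_left _ _),
      fun k => ?_⟩⟩
  · have h1 : 0 ≤ diam (M.F k) := diam_nonneg
    have h2 := hε k
    exact lt_min (hr bn k hb).1 (lt_min (hτ₀ k) (by positivity))
  · exact (mul_le_mul_of_nonneg_right (min_le_left _ _) (norm_nonneg _)).trans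
      ((hr bn k hb).2 e he)
  · have h1 : 0 ≤ diam (M.F k) := diam_nonneg
    have h2 : min (r bn k) (min (τ₀ k) (ε k / (4 * (1 + diam (M.F k))))) ≤
        ε k / (4 * (1 + diam (M.F k))) := (min_le_right _ _).trans (min_le_right _ _)
    calc _ ≤ ε k / (4 * (1 + diam (M.F k))) * (1 + diam (M.F k)) :=
          mul_le_mul_of_nonneg_right h2 (by linarith)
      _ = ε k / 4 := by field_simp

end tau

section lamX

variable {Ω : Set V}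

open Classical in
/-- some Lipschitz number of `f` on the face `k` -/
noncomputable def lamF (M : Mesh Ω) (f : V → V) (k : M.κ) : ℝ :=
  if h : ∃ L : ℝ, 0 ≤ L ∧ ∀ x ∈ M.F k, ∀ y ∈ M.F k, ‖f y - f x‖ ≤ L * ‖y - x‖ then h.choose else 0

theorem lamF_nonneg (M : Mesh Ω) (f : V → V) (k : M.κ) : 0 ≤ lamF M f k := by
  unfold lamF
  split_ifs with h
  · exact h.choose_spec.1
  · exact le_rfl

theorem lamF_lip {M : Mesh Ω} {Lh : M.ι → ℝ} (hL : ∀ i, 0 ≤ Lh i) {f : V → V}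
    (h : LipH M Lh f) (k : M.κ) :
    ∀ x ∈ M.F k, ∀ y ∈ M.F k, ‖f y - f x‖ ≤ lamF M f k * ‖y - x‖ := by
  have h1 : ∃ L : ℝ, 0 ≤ L ∧ ∀ x ∈ M.F k, ∀ y ∈ M.F k, ‖f y - f x‖ ≤ L * ‖y - x‖ :=
    ⟨lamH M Lh k, lamH_nonneg hL k, lamH_lip h k⟩
  unfold lamF
  rw [dif_pos h1]
  exact h1.choose_spec.2

end lamX

variable {c₀ n δ : ℝ} {j : ℕ} {Ω Λ : Set V} {v w : V} {ρ : V → ℝ} {M : Mesh Ω} {h : ConHomeo Ω Λ}
  {J₀ J : Set (ℕ × (Fin 3 → ℤ))} {P Z : Set M.ι} {K : BoxCx Λ w}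
  {D : KIn3 c₀ n j δ v w ρ M h J₀ J P Z} {C : Cells ρ w K}

/-- the fields of `GivNum` (H142/FaceJ) -/
structure Giv {C₀ μT : ℝ} {X : S1 D C C₀ μT} {Y₂ : S2 X} {Ys : Set M.κ} {sc : Sharp}
    {Y₃ : S3 Y₂ Ys sc} (Y₄ : S4 Y₃) (Lam τ : M.κ → ℝ) (η : pG C J₀ → ℝ) : Prop where
  J : ∀ s ∈ pS C J₀, Y₂.J s ≤ 2048 * ω3S δ C s
  mu : ∀ s ∈ pS C J₀, Y₂.muP s ≤ 2048 * ω3S δ C s
  dP : ∀ s ∈ pS C J₀, ∀ q, (q = K.sm s ∨ q = K.sp s) → Y₂.dP s ≤ (D.G C).om q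
  q : ∀ s, 1 - n / 2048 ≤ Y₄.q s
  r : ∀ s, 1 - n / 2048 ≤ Y₄.r s
  η0 : ∀ b, 0 < η b
  ηm : ∀ (b : pG C J₀) s, K.edge b.1 ⊆ K.sq s → Y₂.muP s ≤ η b ∧ Y₂.dP s ≤ η b
  lam0 : ∀ k, 0 ≤ Lam k
  τ0 : ∀ k, 0 < τ k
  lip : ∀ k, ∀ x ∈ M.F k, ∀ y ∈ M.F k, ‖X.h1.toFun y - X.h1.toFun x‖ ≤ Lam k * ‖y - x‖
  θ : ∀ s ∈ pS C J₀, ∀ k, (∃ x ∈ M.F k, X.h1.toFun x ∈ PK (D.G C) s) →
    (6 * Y₂.muP s + Y₂.dP s) * (4 / (D.B C).τ s) * (2000 * (Lam k + 1)) ≤ τ k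
  ε : ∀ (s : (D.dat C).S₀) k, (∃ x ∈ M.F k, Y₃.h4.toFun x ∈ PK (D.G C) s.1) →
    16 * Y₄.ε s ≤ τ k

theorem theta_arith {m d t L₁ L₂ r : ℝ} (hm : 0 ≤ m) (hd : 0 ≤ d) (ht : 0 < t)
    (h1 : 6 * m * t * (2000 * (L₁ + 1)) ≤ r / 2) (h2 : d * t * (2000 * (L₂ + 1)) ≤ r / 2) :
    (6 * m + d) * t * (2000 * (min L₁ L₂ + 1)) ≤ r := by
  have h3 : 6 * m * t * (2000 * (min L₁ L₂ + 1)) ≤ 6 * m * t * (2000 * (L₁ + 1)) := by
    refine mul_le_mul_of_nonneg_left ?_ (by positivity)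
    linarith [min_le_left L₁ L₂]
  have h4 : d * t * (2000 * (min L₁ L₂ + 1)) ≤ d * t * (2000 * (L₂ + 1)) := by
    refine mul_le_mul_of_nonneg_left ?_ (by positivity)
    linarith [min_le_right L₁ L₂]
  calc (6 * m + d) * t * (2000 * (min L₁ L₂ + 1)) =
      6 * m * t * (2000 * (min L₁ L₂ + 1)) + d * t * (2000 * (min L₁ L₂ + 1)) := by ring
    _ ≤ r := by linarith

/-- **the numbers of the drawn faces which are not peeled, from the slots** -/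
theorem row_givNum {C₀ μT : ℝ} {Ys : Set M.κ} {sc : Sharp}
    (D : KIn3 c₀ n j δ v w ρ M h J₀ J P Z)
    (C : Cells ρ w K) {τ : ((edges M).ε → ℝ) → M.κ → ℝ}
    (hτ : ∀ bn, (∀ e, 0 < bn e) → ∀ k, 0 < τ bn k) :
    ∃ S : Slots D C C₀ μT Ys sc, ∀ {N : RTn M C J₀} {X : S1 D C C₀ μT} {Y₂ : S2 X}
      {Y₃ : S3 Y₂ Ys sc} {Y₄ : S4 Y₃}, Ok4 S N Y₄ → ∃ Lam, ∀ η : pG C J₀ → ℝ, (∀ b, 0 < η b) →
        (∀ (b : pG C J₀) s, K.edge b.1 ⊆ K.sq s → Y₂.muP s ≤ η b ∧ Y₂.dP s ≤ η b) →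
        Giv Y₄ Lam (τ X.bn) η := by
  have hη : ∀ b : pG C J₀, (0:ℝ) < (fun _ => 1 : pG C J₀ → ℝ) b := fun _ => one_pos
  -- slot (2)
  have k1 : ∀ N : RTn M C J₀, ∃ mG : K.S → ℝ, (∀ s, 0 < mG s) ∧
      ∀ (X : S1 D C C₀ μT) (muP dP : K.S → ℝ), (∀ s, muP s ≤ mG s) → (∀ s, dP s ≤ 0) →
      ∀ s k, (∃ x ∈ M.F k, X.h1.toFun x ∈ PK (D.G C) s) →
        (6 * muP s + dP s) * (4 / (D.B C).τ s) * (2000 * (lamH M N.Lh k + 1)) ≤
          τ N.bn k / 2 := by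
    intro N
    obtain ⟨mG, dG, m0, d0, H⟩ := exists_givSlots D C (Lam := lamH M N.Lh)
      (τ := fun k => τ N.bn k / 2) (lamH_nonneg N.Lh0) (fun k => half_pos (hτ _ N.bn0 k)) hη
    refine ⟨mG, m0, fun X muP dP hm hd => ?_⟩
    exact (H X muP dP hm fun s => (hd s).trans (d0 s).le).2.2
  choose mG mG0 hmG using k1
  -- slot (3)
  have k2 : ∀ X : S1 D C C₀ μT, ∃ dG : K.S → ℝ, (∀ s, 0 < dG s) ∧ ((∀ e, 0 < X.bn e) →
      ∀ (muP dP : K.S → ℝ), (∀ s, muP s ≤ 0) → (∀ s, dP s ≤ dG s) →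
      (∀ s q, (q = K.sm s ∨ q = K.sp s) → dP s ≤ (D.G C).om q) ∧
      ∀ s k, (∃ x ∈ M.F k, X.h1.toFun x ∈ PK (D.G C) s) →
        (6 * muP s + dP s) * (4 / (D.B C).τ s) * (2000 * (lamF M X.h1.toFun k + 1)) ≤
          τ X.bn k / 2) := by
    intro X
    by_cases hb : ∀ e, 0 < X.bn e
    · obtain ⟨mG, dG, m0, d0, H⟩ := exists_givSlots D C (Lam := lamF M X.h1.toFun)
        (τ := fun k => τ X.bn k / 2) (lamF_nonneg M _) (fun k => half_pos (hτ _ hb k)) hη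
      refine ⟨dG, d0, fun _ muP dP hm hd => ?_⟩
      obtain ⟨h1, -, h3⟩ := H X muP dP (fun s => (hm s).trans (m0 s).le) hd
      exact ⟨h1, h3⟩
    · exact ⟨fun _ => 1, fun _ => one_pos, fun h => absurd h hb⟩
  choose dG dG0 hdG using k2
  -- slot (6)
  have k3 : ∀ {X : S1 D C C₀ μT} {Y₂ : S2 X} (Y₃ : S3 Y₂ Ys sc), ∃ t : (D.dat C).S₀ → ℝ,
      (∀ s, 0 < t s) ∧ ((∀ e, 0 < X.bn e) → ∀ (s : (D.dat C).S₀) k,
        (∃ x ∈ M.F k, Y₃.h4.toFun x ∈ PK (D.G C) s.1) → ∀ e ≤ t s, 16 * e ≤ τ X.bn k) := by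
    intro X Y₂ Y₃
    by_cases hb : ∀ e, 0 < X.bn e
    · obtain ⟨t, t0, ht⟩ := exists_givTol4 (D := D) (C := C) Y₃.h4 (hτ _ hb)
      exact ⟨t, t0, fun _ => ht⟩
    · exact ⟨fun _ => 1, fun _ => one_pos, fun h => absurd h hb⟩
  choose tG tG0 htG using @k3
  refine ⟨{ (Slots.one : Slots D C C₀ μT Ys sc) with
    m := mG, m0 := mG0, dm := dG, dm0 := dG0,
    tol4 := fun Y₃ _ _ s => tG Y₃ s, tol40 := fun Y₃ _ _ s => tG0 Y₃ s }, ?_⟩
  intro N X Y₂ Y₃ Y₄ h4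
  have hbn : ∀ e, 0 < X.bn e := fun e => by rw [h4.bn]; exact N.bn0 e
  have a2 := hmG N X Y₂.muP (fun _ => 0) h4.muP fun _ => le_rfl
  obtain ⟨b1, b3⟩ := hdG X hbn (fun _ => 0) Y₂.dP (fun _ => le_rfl) h4.dP
  refine ⟨fun k => min (lamH M N.Lh k) (lamF M X.h1.toFun k), fun η hη' hηm => ?_⟩
  exact
    { J := fun s _ => (h4.J s).le
      mu := fun s _ => h4.muJ s
      dP := fun s _ => b1 s
      q := fun s => (h4.q4 s).ge
      r := fun s => (h4.r4 s).ge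
      η0 := hη'
      ηm := hηm
      lam0 := fun k => le_min (lamH_nonneg N.Lh0 k) (lamF_nonneg M _ k)
      τ0 := hτ _ hbn
      lip := fun k x hx y hy => by
        have h1 := lamH_lip h4.lip k x hx y hy
        have h2 := lamF_lip N.Lh0 h4.lip k x hx y hy
        rcases min_choice (lamH M N.Lh k) (lamF M X.h1.toFun k) with h | h <;> rw [h]
        · exact h1
        · exact h2
      θ := fun s hs k hk => by
        have h1 := a2 s k hk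
        have h2 := b3 s k hk
        rw [add_zero] at h1
        rw [mul_zero, zero_add] at h2
        rw [← h4.bn] at h1
        have h5 := (Y₂.muP0 s).le
        have h6 : 0 ≤ Y₂.dP s := by
          have e1 := Y₃.e0 false ⟨s, hs⟩
          have e2 := Y₃.e8 false ⟨s, hs⟩
          linarith
        have hτs : 0 < 4 / (D.B C).τ s := by have := (D.B C).τ_pos s; positivity
        exact theta_arith h5 h6 hτs h1 h2
      ε := fun s k hk => htG Y₃ hbn s k hk _ (h4.ε4 s) }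

end Vale.Agent.P073.H236.Slot
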