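import Vale.Agent.P073.H236.Stage3c
import Vale.Agent.P073.H236.GeoT
import Vale.Agent.P073.H345.QT

/-!
# P073, H236: `H345.IsQ` (the insertion map of ROUND T) gives `FlatK`, `FibK`; `H345.Fam` for the
boxes of `H267.Geo`
-/

open Set Metric Topology Filter

namespace P073.H236

open P073

section
variable {ι : Type*} {Λ : Set (Fin 3 → ℝ)} {F : BFam 3 ι Λ} {κ : (Fin 3 → ℝ) → Fin 3 → ℝ}

theorem flatK_of_isQ (hκ : H345.IsQ F.B κ) : FlatK F κ := by
  intro b y hy k hk hyk
  rw [hκ.on b y hy.mem, (F.B b).Q_full hy.2]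
  congr 1
  have hc := (F.B b).lvs.c0
  exact (qm_eq_iff hc (F.B b).lvs.sepd ((F.B b).lvs.mem_L.2 ⟨k, hk, rfl⟩) _).2
    (by obtain ⟨h1, h2⟩ := abs_le.1 hyk; constructor <;> linarith)

theorem fibK_of_isQ (hκ : H345.IsQ F.B κ) (H : H345.Fam Λ F.B) : FibK F κ := by
  intro b y hy k hk hyk z _ hz
  have hzK : z ∈ (F.B b).K := (hκ.mem_iff H).1 (hz.symm ▸ hy.mem)
  rw [hκ.on b z hzK] at hz
  have hzi : ∀ i, i ≠ (F.B b).j → z i = y i := fun i hi => by
    rw [← hz, (F.B b).Q_ne hi]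
  have hzf : (F.B b).Full z := fun i hi => by rw [hzi i hi]; exact hy.2 i hi
  rw [(F.B b).Q_full hzf] at hz
  have hq : qm (F.B b).lvs.L (F.B b).c (z (F.B b).j) = (F.B b).a k := by
    have := congrFun hz (F.B b).j
    rwa [Function.update_self, hyk] at this
  have h1 := (qm_eq_iff (F.B b).lvs.c0 (F.B b).lvs.sepd ((F.B b).lvs.mem_L.2 ⟨k, hk, rfl⟩) _).1 hq
  refine ⟨?_, by rw [abs_le]; constructor <;> linarith [h1.1, h1.2]⟩
  ext i
  by_cases hi : i = (F.B b).j
  · rw [hi, Function.update_self]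
  · rw [Function.update_of_ne hi, hzi i hi]

end

section geo

open _root_.P073 _root_.P073.Net _root_.P073.PA691
open _root_.P073.PR720 (LF)
open Vale.Agent.P073.St (V)
open Vale.Agent.P073.H471 Vale.Agent.P073.H267

variable {Λ : Set V} {v : V} {K : BoxCx Λ v} {S : Rad K} {W : Wid K S} {B : Boxes W} {y z : V}
  {G : Geo B}

/-- two boxes of round T meet only in end planes -/
theorem end_TB {b b' : TBx K} (hne : b ≠ b') (hy : y ∈ G.TB false b) (hy' : y ∈ G.TB false b') :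
    y b.ax ≤ G.tlo true b b.ax ∨ G.thi true b b.ax ≤ y b.ax := by
  rcases b with e | h <;> rcases b' with e' | h'
  · exact absurd hy' ((G.disjoint_TB_inl fun hh => hne (by rw [hh])).notMem_of_mem_left hy)
  · obtain ⟨hd, hj⟩ := Geo.junction hy hy'
    show y (K.dir e) ≤ _ ∨ _ ≤ y (K.dir e)
    rw [hd]
    rcases hj with ⟨hi, hj⟩ | ⟨hi, hj⟩
    · left
      simp only [Geo.tlo, TBx.ax, hd, if_true, ← hi]
      exact hj.le
    · right
      simp only [Geo.thi, TBx.ax, hd, if_true, ← hi]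
      exact hj.ge
  · obtain ⟨hd, hj⟩ := Geo.junction hy' hy
    show y h.l ≤ _ ∨ _ ≤ y h.l
    rcases hj with ⟨-, hj⟩ | ⟨-, hj⟩
    · right
      simp only [Geo.thi, TBx.ax, if_true]
      exact hj.ge
    · left
      simp only [Geo.tlo, TBx.ax, if_true]
      exact hj.le
  · exfalso
    by_cases hi : h.i = h'.i
    · have hs : h.s ≠ h'.s := fun hs => hne (by rw [Geo.hang_eq hi hs])
      exact (disjoint_ss (W := W) hs).notMem_of_mem_left
        (Zs_subset (Geo.TB_subset_Zs h hy)) (Zs_subset (Geo.TB_subset_Zs h' hy'))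
    · have hb := G.be_pos h.i
      have hb' := G.be_pos h'.i
      have h32 := G.be_r h.i
      have h32' := G.be_r h'.i
      refine (S.U_disj _ _ hi).notMem_of_mem_left
        (closedBall_subset_closedBall (by linarith) (Geo.TB_inr_ball h hy))
        (closedBall_subset_closedBall (by linarith) (Geo.TB_inr_ball h' hy'))

/-- the boxes of round T are a family in the sense of `H345` -/
theorem TLev.famT (L : TLev G) (hΛ : IsOpen Λ) : H345.Fam Λ L.bx where
  op := hΛ
  sub := fun b => (L.K_sub b).trans (G.TB_sub b)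
  dis := fun _ _ hne _ hy hy' => end_TB hne (L.K_sub _ hy) (L.K_sub _ hy')
  lf := fun z hz => by
    obtain ⟨U, hU, hf⟩ := G.lf_TB z hz
    refine ⟨U, hU, hf.subset ?_⟩
    rintro b ⟨x, hx, hxU⟩
    exact ⟨x, L.K_sub b hx, hxU⟩

/-- levels with smaller thickness -/
noncomputable def TLev.thin (L : TLev G) (c : TBx K → ℝ) (h0 : ∀ b, 0 < c b)
    (h1 : ∀ b, c b ≤ L.c b) : TLev G where
  N := L.N
  a := L.a
  c := c
  lvs := fun b => (H345.thin (L.bx b) (c b) (h0 b) (h1 b)).lvs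

theorem TLev.thin_bx (L : TLev G) (c : TBx K → ℝ) (h0 : ∀ b, 0 < c b) (h1 : ∀ b, c b ≤ L.c b)
    (b : TBx K) : (L.thin c h0 h1).bx b = H345.thin (L.bx b) (c b) (h0 b) (h1 b) := rfl

end geo

end P073.H236
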