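import Vale.Agent.P073.H236.TZero

/-!
# P073, H236: the squeeze `T₀` (II): several directions, several boxes
-/

open Set Metric Topology Filter

namespace P073.H236

open P073

/-- what a squeeze of the box `cor c a` in the directions `j ∈ l` does -/
structure IsSq {n : ℕ} (l : Finset (Fin n)) (c a : Fin n → ℝ) (ρ q lam : ℝ)
    (T : ConHomeo (univ : Set (Fin n → ℝ)) (univ : Set (Fin n → ℝ))) : Prop where
  supp : Supp T.toFun (cor c fun i => a i + q)
  core : ∀ y ∈ cor c a, ∀ i ∈ l, T.toFun y i = c i + lam * (y i - c i)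
  keep : ∀ y, ∀ i ∉ l, T.toFun y i = y i
  mem : ∀ y i, T.toFun y i ∈ uIcc (c i) (y i)
  disp : ∀ y i, |T.toFun y i - y i| ≤ ρ
  lip : ∀ y y' i, |T.toFun y i - T.toFun y' i| ≤ |y i - y' i| + 4 * (ρ / q) * ‖y - y'‖

theorem exists_isSq {n : ℕ} (l : Finset (Fin n)) {c a : Fin n → ℝ} {ρ q lam : ℝ} (hρ : 0 < ρ)
    (hq : 4 * ρ ≤ q) (hl : 0 < lam) (hl1 : lam ≤ 1) (ha : ∀ j ∈ l, a j = ρ) :
    ∃ T, IsSq l c a ρ q lam T := by
  classical
  have hq0 : 0 < q := by linarith
  have hrq : 0 < ρ / q := by positivity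
  have hrq1 : ρ / q ≤ 1 / 4 := by rw [div_le_iff₀ hq0]; linarith
  have hu : ConicalSet (univ : Set (Fin n → ℝ)) := isOpen_univ.conicalSet
  induction l using Finset.induction_on with
  | empty =>
    refine ⟨ConHomeo.refl hu, ⟨?_, ?_, ?_, ?_, ?_, ?_⟩⟩
    · exact ⟨continuous_id, conicalOn_id hu, fun _ _ => rfl, mapsTo_id _, surjOn_id _⟩
    · intro y _ i hi; exact absurd hi (Finset.notMem_empty i)
    · intro y i _; rfl
    · intro y i; exact right_mem_uIcc
    · intro y i
      show |y i - y i| ≤ ρ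
      rw [sub_self, abs_zero]; exact hρ.le
    · intro y y' i
      show |y i - y' i| ≤ _
      have : 0 ≤ 4 * (ρ / q) * ‖y - y'‖ := by positivity
      linarith
  | insert j l hj ih =>
    obtain ⟨T, hT⟩ := ih fun i hi => ha i (Finset.mem_insert_of_mem hi)
    have haj := ha j (Finset.mem_insert_self j l)
    have hcc : ∀ y ∈ cor c a, T.toFun y ∈ cor c a := by
      intro y hy i
      have h1 := hT.mem y i
      have h2 := hy i
      rw [abs_le] at h2 ⊢
      rcases le_total (c i) (y i) with h | h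
      · rw [uIcc_of_le h] at h1
        constructor <;> linarith [h1.1, h1.2]
      · rw [uIcc_of_ge h] at h1
        constructor <;> linarith [h1.1, h1.2]
    set S := sq1 j c a hρ hq0 hl hl1 with hS
    have hTj : ∀ y, T.toFun y j = y j := fun y => hT.keep y j hj
    have e : ∀ y, (T.trans S).toFun y = S.toFun (T.toFun y) := fun _ => rfl
    have hne : ∀ y i, i ≠ j → (T.trans S).toFun y i = T.toFun y i := fun y i hi => by
      rw [e, hS, sq1_ne hρ hq0 hl hl1 hi]
    refine ⟨T.trans S, ⟨?_, ?_, ?_, ?_, ?_, ?_⟩⟩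
    · have := supp_trans hT.supp (supp_sq1 (c := c) (a := a) hρ hq0 hl hl1 haj)
      rwa [union_self] at this
    · intro y hy i hi
      by_cases hij : i = j
      · subst hij
        rw [e, hS, sq1_core hρ hq0 hl hl1 haj (hcc y hy), Function.update_self, hTj]
      · rw [hne y i hij]
        exact hT.core y hy i (Finset.mem_of_mem_insert_of_ne hi hij)
    · intro y i hi
      rw [Finset.mem_insert, not_or] at hi
      rw [hne y i hi.1, hT.keep y i hi.2]
    · intro y i
      by_cases hij : i = j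
      · subst hij
        have := sq1_mem (c := c) (a := a) hρ hq0 hl hl1 (j := i) (T.toFun y)
        rw [hTj] at this
        exact this
      · rw [hne y i hij]; exact hT.mem y i
    · intro y i
      by_cases hij : i = j
      · subst hij
        have := sq1_sub_le (c := c) (a := a) hρ hq0 hl hl1 (j := i) (T.toFun y)
        rw [hTj] at this
        exact this
      · rw [hne y i hij]; exact hT.disp y i
    · intro y y' i
      by_cases hij : i = j
      · subst hij
        have h1 := sq1_lip (c := c) (a := a) hρ hq0 hl hl1 (j := i) (T.toFun y) (T.toFun y') i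
        rw [hTj, hTj] at h1
        have h2 : ‖T.toFun y - T.toFun y'‖ ≤ 2 * ‖y - y'‖ := by
          rw [pi_norm_le_iff_of_nonneg (by positivity)]
          intro k
          have h3 := hT.lip y y' k
          have h4 : |y k - y' k| ≤ ‖y - y'‖ := norm_le_pi_norm (y - y') k
          have h5 : 4 * (ρ / q) * ‖y - y'‖ ≤ 1 * ‖y - y'‖ := by gcongr; linarith
          rw [Pi.sub_apply, Real.norm_eq_abs]
          linarith
        have h3 : 2 * (ρ / q) * ‖T.toFun y - T.toFun y'‖ ≤ 2 * (ρ / q) * (2 * ‖y - y'‖) := by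
          gcongr
        rw [e, e]
        refine h1.trans ?_
        linarith
      · rw [hne y i hij, hne y' i hij]; exact hT.lip y y' i

/-- the Lipschitz bound of a map which is glued from maps with disjoint supports -/
theorem lip_glue {n : ℕ} {ι : Type*} {K : ι → Set (Fin n → ℝ)}
    {Θ : ι → (Fin n → ℝ) → Fin n → ℝ} {f : (Fin n → ℝ) → Fin n → ℝ}
    (hdis : ∀ b c, b ≠ c → Disjoint (K b) (K c)) (hc : ∀ b, Continuous (Θ b))
    (hid : ∀ b, ∀ x ∉ K b, Θ b x = x) (hf : ∀ b, ∀ x ∈ K b, f x = Θ b x)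
    (hf' : ∀ x, (∀ b, x ∉ K b) → f x = x) {ε : ℝ} {i : Fin n}
    (hlip : ∀ b y y', |Θ b y i - Θ b y' i| ≤ |y i - y' i| + ε * ‖y - y'‖) (hε : 0 ≤ ε)
    (y y' : Fin n → ℝ) : |f y i - f y' i| ≤ |y i - y' i| + ε * ‖y - y'‖ := by
  by_cases hy : ∃ b, y ∈ K b
  · obtain ⟨b, hb⟩ := hy
    by_cases hyb : y' ∈ K b
    · rw [hf b y hb, hf b y' hyb]; exact hlip b y y'
    by_cases hy' : ∃ c, y' ∈ K c
    · obtain ⟨c, hc'⟩ := hy'
      have hbc : b ≠ c := fun h => hyb (by rw [h]; exact hc')
      -- a common fixed point on the segment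
      have hγ : Continuous fun t : ℝ => AffineMap.lineMap y y' t := AffineMap.lineMap_continuous
      obtain ⟨t, ht, h1, h2⟩ := isPreconnected_closed_iff.1 (isPreconnected_Icc (a := (0:ℝ)) (b := 1))
        {t : ℝ | Θ b (AffineMap.lineMap y y' t) = AffineMap.lineMap y y' t}
        {t : ℝ | Θ c (AffineMap.lineMap y y' t) = AffineMap.lineMap y y' t}
        (isClosed_eq ((hc b).comp hγ) hγ) (isClosed_eq ((hc c).comp hγ) hγ)
        (fun t _ => by
          by_cases h : AffineMap.lineMap y y' t ∈ K b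
          · right
            exact hid c _ fun h' => Set.disjoint_left.1 (hdis b c hbc) h h'
          · left
            exact hid b _ h)
        ⟨1, ⟨zero_le_one, le_rfl⟩, by
          show Θ b (AffineMap.lineMap y y' (1:ℝ)) = AffineMap.lineMap y y' (1:ℝ)
          rw [AffineMap.lineMap_apply_one]
          exact hid b _ hyb⟩
        ⟨0, ⟨le_rfl, zero_le_one⟩, by
          show Θ c (AffineMap.lineMap y y' (0:ℝ)) = AffineMap.lineMap y y' (0:ℝ)
          rw [AffineMap.lineMap_apply_zero]
          exact hid c _ fun h' => Set.disjoint_left.1 (hdis b c hbc) hb h'⟩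
      simp only [mem_ofPred_eq] at h1 h2
      set z := AffineMap.lineMap y y' t with hz
      have hzi : ∀ k, z k = y k + t * (y' k - y k) := by
        intro k
        rw [hz, AffineMap.lineMap_apply]
        simp only [vsub_eq_sub, vadd_eq_add, Pi.add_apply, Pi.smul_apply, Pi.sub_apply,
          smul_eq_mul]
        ring
      have n1 : y - z = t • (y - y') := by
        ext k; simp only [Pi.sub_apply, Pi.smul_apply, smul_eq_mul, hzi]; ring
      have n2 : z - y' = (1 - t) • (y - y') := by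
        ext k; simp only [Pi.sub_apply, Pi.smul_apply, smul_eq_mul, hzi]; ring
      have m1 : ‖y - z‖ = t * ‖y - y'‖ := by
        rw [n1, norm_smul, Real.norm_of_nonneg ht.1]
      have m2 : ‖z - y'‖ = (1 - t) * ‖y - y'‖ := by
        rw [n2, norm_smul, Real.norm_of_nonneg (by linarith [ht.2])]
      have k1 : |y i - z i| = t * |y i - y' i| := by
        have : y i - z i = t * (y i - y' i) := by rw [hzi]; ring
        rw [this, abs_mul, abs_of_nonneg ht.1]
      have k2 : |z i - y' i| = (1 - t) * |y i - y' i| := by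
        have : z i - y' i = (1 - t) * (y i - y' i) := by rw [hzi]; ring
        rw [this, abs_mul, abs_of_nonneg (by linarith [ht.2])]
      have e1 := hlip b y z
      have e2 := hlip c z y'
      rw [h1, m1, k1] at e1
      rw [h2, m2, k2] at e2
      rw [hf b y hb, hf c y' hc']
      have e3 := abs_sub_le (Θ b y i) (z i) (Θ c y' i)
      nlinarith
    · push Not at hy'
      rw [hf b y hb, hf' y' hy']
      have := hlip b y y'
      rwa [hid b y' hyb] at this
  · push Not at hy
    by_cases hy' : ∃ c, y' ∈ K c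
    · obtain ⟨c, hc'⟩ := hy'
      rw [hf' y hy, hf c y' hc']
      have := hlip c y y'
      rwa [hid c y (hy c)] at this
    · push Not at hy'
      rw [hf' y hy, hf' y' hy']
      have : 0 ≤ ε * ‖y - y'‖ := by positivity
      linarith

/-- **the squeeze `T₀`** of a locally finite family of boxes `cor (c b) (a b)` with disjoint
neighbourhoods `cor (c b) (a b + R ρ b)` in `Λ`, in the directions `J` -/
theorem exists_squeeze {n : ℕ} {ι : Type*} {Λ : Set (Fin n → ℝ)} (hΛ : IsOpen Λ)
    (J : Finset (Fin n)) {lam R : ℝ} (hl : 0 < lam) (hl1 : lam ≤ 1) (hR : 4 ≤ R)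
    (c a : ι → Fin n → ℝ) (ρ : ι → ℝ) (hρ : ∀ b, 0 < ρ b) (ha : ∀ b, ∀ j ∈ J, a b j = ρ b)
    (hK : ∀ b, cor (c b) (fun i => a b i + R * ρ b) ⊆ Λ)
    (hdis : ∀ b b', b ≠ b' →
      Disjoint (cor (c b) fun i => a b i + R * ρ b) (cor (c b') fun i => a b' i + R * ρ b'))
    (hfin : ∀ z ∈ Λ, ∃ U ∈ 𝓝 z, {b | ((cor (c b) fun i => a b i + R * ρ b) ∩ U).Nonempty}.Finite) :
    ∃ T : ConHomeo Λ Λ,
      (∀ b, ∀ y ∈ cor (c b) (a b), ∀ i ∈ J, T.toFun y i = c b i + lam * (y i - c b i)) ∧
      (∀ y, ∀ i ∉ J, T.toFun y i = y i) ∧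
      (∀ y, (∀ b, y ∉ cor (c b) fun i => a b i + R * ρ b) → T.toFun y = y) ∧
      (∀ b, ∀ y ∈ cor (c b) (fun i => a b i + R * ρ b), ∀ i,
        T.toFun y i ∈ uIcc (c b i) (y i) ∧ |T.toFun y i - y i| ≤ ρ b) ∧
      (∀ y y' i, |T.toFun y i - T.toFun y' i| ≤ |y i - y' i| + 4 / R * ‖y - y'‖) := by
  have hR0 : 0 < R := by linarith
  have h1 : ∀ b, ∃ T, IsSq J (c b) (a b) (ρ b) (R * ρ b) lam T := fun b =>
    exists_isSq J (hρ b) (by have := hρ b; nlinarith) hl hl1 (ha b)
  choose Θ hΘ using h1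
  obtain ⟨T, hT1, hT2, -, -⟩ := exists_glue_homeo hΛ Θ
    (fun b => cor (c b) fun i => a b i + R * ρ b) (fun b => (hΘ b).supp) hK hfin
    (fun b b' hbb x hx hx' => absurd hx' (Set.disjoint_left.1 (hdis b b' hbb) hx))
  refine ⟨T, ?_, ?_, hT2, ?_, ?_⟩
  · intro b y hy i hi
    have h3 : y ∈ cor (c b) fun i => a b i + R * ρ b := fun k => by
      have := hy k
      have h4 := hρ b
      have : 0 ≤ R * ρ b := by positivity
      show |y k - c b k| ≤ a b k + R * ρ b
      linarith
    rw [hT1 b y h3]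
    exact (hΘ b).core y hy i hi
  · intro y i hi
    by_cases h : ∃ b, y ∈ cor (c b) fun i => a b i + R * ρ b
    · obtain ⟨b, hb⟩ := h
      rw [hT1 b y hb]; exact (hΘ b).keep y i hi
    · push Not at h
      rw [hT2 y h]
  · intro b y hy i
    rw [hT1 b y hy]
    exact ⟨(hΘ b).mem y i, (hΘ b).disp y i⟩
  · intro y y' i
    refine lip_glue hdis (fun b => (hΘ b).supp.cont) (fun b x hx => (hΘ b).supp.id x hx) hT1 hT2
      (fun b y y' => ?_) (by positivity) y y'
    have h4 := (hΘ b).lip y y' i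
    have h5 : 4 * (ρ b / (R * ρ b)) = 4 / R := by
      have := (hρ b).ne'
      field_simp
    rwa [h5] at h4

end P073.H236
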