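import Vale.Agent.P073.H236.Stage3L
import Vale.Agent.P073.H236.HFam
import Vale.Agent.P073.H236.TOutDefs

/-!
# P073, H236, [T3OUT-G], part 1: one box, general targets

`FullB B y`: `y` is in the full zone of `B` and in the window. `TG B`: a one-variable
homeomorphism which maps the flats `[a k - c, a k + c]` onto the bands `[T k, T' k]`. `IsF`: the
map is this one in the full zone. Slivers: the gaps between the bands and the two ends.
-/

open Set Metric Topology Filter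

namespace P073.H236

open P073 P073.H579

/-- full zone and window of a box -/
def FullB {n : ℕ} (B : BX n) (y : Fin n → ℝ) : Prop :=
  (B.al ≤ y B.j ∧ y B.j ≤ B.be) ∧ B.Full y

theorem FullB.mem {n : ℕ} {B : BX n} {y : Fin n → ℝ} (h : FullB B y) : y ∈ B.K := by
  refine ⟨h.1, fun i hi => ?_⟩
  obtain ⟨h1, h2⟩ := h.2 i hi
  have h3 := B.hr i
  constructor <;> linarith

theorem FullB.update {n : ℕ} {B : BX n} {y : Fin n → ℝ} (h : FullB B y) {t : ℝ}
    (ht : t ∈ Icc B.al B.be) : FullB B (Function.update y B.j t) := by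
  refine ⟨by simpa using ht, fun i hi => ?_⟩
  rw [Function.update_of_ne hi]
  exact h.2 i hi

/-- targets of a box -/
structure TG {n : ℕ} (B : BX n) where
  T : ℕ → ℝ
  T' : ℕ → ℝ
  σ : ℝ → ℝ
  σi : ℝ → ℝ
  l1 : L1 B.al B.be σ σi
  lo : ∀ k < B.N, σ (B.a k - B.c) = T k
  hi : ∀ k < B.N, σ (B.a k + B.c) = T' k

namespace TG

variable {n : ℕ} {B : BX n} (τ : TG B)

/-- the band -/
def bd (k : ℕ) : Set ℝ := Icc (τ.T k) (τ.T' k)

/-- the slivers: ends and gaps -/
noncomputable def sl : Finset (ℝ × ℝ) := by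
  classical exact {(B.al - B.c, τ.T 0), (τ.T' (B.N - 1), B.be + B.c)} ∪
    (Finset.range (B.N - 1)).image fun k => (τ.T' k, τ.T (k + 1))

theorem mem_sl {p : ℝ × ℝ} : p ∈ τ.sl ↔ p = (B.al - B.c, τ.T 0) ∨
    p = (τ.T' (B.N - 1), B.be + B.c) ∨ ∃ k, k + 1 < B.N ∧ p = (τ.T' k, τ.T (k + 1)) := by
  classical
  unfold sl
  simp only [Finset.mem_union, Finset.mem_insert, Finset.mem_singleton, Finset.mem_image,
    Finset.mem_range]
  constructor
  · rintro ((h | h) | ⟨k, hk, h⟩)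
    · exact Or.inl h
    · exact Or.inr (Or.inl h)
    · exact Or.inr (Or.inr ⟨k, by omega, h.symm⟩)
  · rintro (h | h | ⟨k, hk, h⟩)
    · exact Or.inl (Or.inl h)
    · exact Or.inl (Or.inr h)
    · exact Or.inr ⟨k, by omega, h.symm⟩

theorem mem_bd {k : ℕ} (hk : k < B.N) {t : ℝ} : τ.σ t ∈ τ.bd k ↔ |t - B.a k| ≤ B.c := by
  unfold bd
  rw [mem_Icc, ← τ.lo k hk, ← τ.hi k hk, τ.l1.km.le_iff_le, τ.l1.km.le_iff_le, abs_le]
  constructor <;> rintro ⟨h1, h2⟩ <;> constructor <;> linarith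

theorem abs_σi {k : ℕ} (hk : k < B.N) {t : ℝ} : |τ.σi t - B.a k| ≤ B.c ↔ t ∈ τ.bd k := by
  rw [← τ.mem_bd hk, τ.l1.right]

theorem flat_win {k : ℕ} (hk : k < B.N) {t : ℝ} (ht : |t - B.a k| ≤ B.c) : t ∈ Icc B.al B.be := by
  have h1 := B.lvs.first_le hk
  have h2 := B.lvs.le_last hk
  have h3 := B.lvs.c0
  obtain ⟨h4, h5⟩ := abs_le.1 ht
  constructor <;> linarith

include τ in
theorem bd_sub {k : ℕ} (hk : k < B.N) : τ.bd k ⊆ Icc B.al B.be := by
  intro t ht
  have h1 := flat_win hk ((τ.abs_σi hk).2 ht)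
  exact (τ.l1.symm.win_iff).1 h1

theorem T_lt {k : ℕ} (hk : k < B.N) : τ.T k < τ.T' k := by
  rw [← τ.lo k hk, ← τ.hi k hk]
  exact τ.l1.km (by linarith [B.lvs.c0])

theorem T'_lt {k l : ℕ} (hkl : k < l) (hl : l < B.N) : τ.T' k < τ.T l := by
  rw [← τ.lo l hl, ← τ.hi k (hkl.trans hl)]
  refine τ.l1.km ?_
  have h1 := B.lvs.add_le hkl hl
  linarith [B.lvs.c0]

theorem T'_le {k l : ℕ} (hkl : k ≤ l) (hl : l < B.N) : τ.T' k ≤ τ.T' l := by
  rcases hkl.eq_or_lt with rfl | h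
  · exact le_rfl
  · exact ((τ.T'_lt h hl).trans (τ.T_lt hl)).le

theorem T_le {k l : ℕ} (hkl : k ≤ l) (hl : l < B.N) : τ.T k ≤ τ.T l := by
  rcases hkl.eq_or_lt with rfl | h
  · exact le_rfl
  · exact ((τ.T_lt (h.trans hl)).trans (τ.T'_lt h hl)).le

theorem al_lt {k : ℕ} (hk : k < B.N) : B.al < τ.T k := by
  rw [← τ.lo k hk, ← τ.l1.out B.al (Or.inl le_rfl)]
  refine τ.l1.km ?_
  have h1 := B.lvs.first_le hk
  linarith [B.lvs.c0]

theorem lt_be {k : ℕ} (hk : k < B.N) : τ.T' k < B.be := by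
  rw [← τ.hi k hk, ← τ.l1.out B.be (Or.inr le_rfl)]
  refine τ.l1.km ?_
  have h1 := B.lvs.le_last hk
  linarith [B.lvs.c0]

/-- a point of the window is in a band or in a sliver -/
theorem bd_of_noSl {t : ℝ} (ht : t ∈ Icc B.al B.be) (h : NoSl τ.sl t) :
    ∃ k < B.N, t ∈ τ.bd k := by
  have hN := B.lvs.pos
  have hc := B.lvs.c0
  have h0 : τ.T 0 ≤ t := by
    by_contra hcon
    exact h _ (τ.mem_sl.2 (Or.inl rfl)) ⟨by show B.al - B.c < t; linarith [ht.1], not_le.1 hcon⟩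
  have h1 : t ≤ τ.T' (B.N - 1) := by
    by_contra hcon
    exact h _ (τ.mem_sl.2 (Or.inr (Or.inl rfl))) ⟨not_le.1 hcon, by
      show t < B.be + B.c; linarith [ht.2]⟩
  -- the first band whose upper end is `≥ t`
  classical
  have hex : ∃ k, k < B.N ∧ t ≤ τ.T' k := ⟨B.N - 1, by omega, h1⟩
  set k := Nat.find hex with hk
  obtain ⟨hkN, hkt⟩ := Nat.find_spec hex
  refine ⟨k, hkN, ?_, hkt⟩
  by_contra hcon
  push Not at hcon
  rcases Nat.eq_zero_or_pos k with h2 | h2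
  · rw [h2] at hcon; linarith
  · have h3 : ¬ (k - 1 < B.N ∧ t ≤ τ.T' (k - 1)) := Nat.find_min hex (by omega)
    have h4 : τ.T' (k - 1) < t := by
      by_contra h5
      exact h3 ⟨by omega, not_lt.1 h5⟩
    refine h _ (τ.mem_sl.2 (Or.inr (Or.inr ⟨k - 1, by omega, rfl⟩))) ⟨h4, ?_⟩
    show t < τ.T (k - 1 + 1)
    rw [show k - 1 + 1 = k by omega]
    exact hcon

/-- bands contain no point of a sliver -/
theorem noSl_bd {k : ℕ} (hk : k < B.N) {r : ℝ} (hr : r ∈ τ.bd k) : NoSl τ.sl r := by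
  intro p hp
  have hN := B.lvs.pos
  rcases τ.mem_sl.1 hp with rfl | rfl | ⟨i, hi, rfl⟩
  · rintro ⟨-, h2⟩
    have := τ.T_le (Nat.zero_le k) hk
    exact absurd h2 (not_lt.2 (this.trans hr.1))
  · rintro ⟨h1, -⟩
    have := τ.T'_le (show k ≤ B.N - 1 by omega) (by omega)
    exact absurd h1 (not_lt.2 (hr.2.trans this))
  · rintro ⟨h1, h2⟩
    rcases le_or_gt k i with hki | hki
    · have := τ.T'_le hki (by omega)
      exact absurd h1 (not_lt.2 (hr.2.trans this))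
    · have := τ.T_le (show i + 1 ≤ k by omega) hk
      exact absurd h2 (not_lt.2 (this.trans hr.1))

theorem sl_le : ∀ p ∈ τ.sl, p.1 ≤ p.2 := by
  intro p hp
  have hN := B.lvs.pos
  have hc := B.lvs.c0
  rcases τ.mem_sl.1 hp with rfl | rfl | ⟨i, hi, rfl⟩
  · show B.al - B.c ≤ τ.T 0
    have := τ.al_lt hN
    linarith
  · show τ.T' (B.N - 1) ≤ B.be + B.c
    have := τ.lt_be (k := B.N - 1) (by omega)
    linarith
  · exact (τ.T'_lt (Nat.lt_succ_self i) hi).le

theorem end_al : ¬ NoSl τ.sl B.al := fun h =>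
  h _ (τ.mem_sl.2 (Or.inl rfl)) ⟨by show B.al - B.c < B.al; linarith [B.lvs.c0],
    τ.al_lt B.lvs.pos⟩

theorem end_be : ¬ NoSl τ.sl B.be := fun h =>
  h _ (τ.mem_sl.2 (Or.inr (Or.inl rfl)))
    ⟨τ.lt_be (k := B.N - 1) (by have := B.lvs.pos; omega), by
      show B.be < B.be + B.c; linarith [B.lvs.c0]⟩

/-- the ends of a band are ends of slivers -/
theorem bd_ends {k : ℕ} (hk : k < B.N) :
    (∃ p ∈ τ.sl, p.2 = τ.T k) ∧ ∃ p ∈ τ.sl, p.1 = τ.T' k := by
  constructor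
  · rcases Nat.eq_zero_or_pos k with rfl | h
    · exact ⟨_, τ.mem_sl.2 (Or.inl rfl), rfl⟩
    · refine ⟨_, τ.mem_sl.2 (Or.inr (Or.inr ⟨k - 1, by omega, rfl⟩)), ?_⟩
      show τ.T (k - 1 + 1) = τ.T k
      rw [show k - 1 + 1 = k by omega]
  · by_cases h : k + 1 < B.N
    · exact ⟨_, τ.mem_sl.2 (Or.inr (Or.inr ⟨k, h, rfl⟩)), rfl⟩
    · refine ⟨_, τ.mem_sl.2 (Or.inr (Or.inl rfl)), ?_⟩
      show τ.T' (B.N - 1) = τ.T' k
      rw [show B.N - 1 = k by omega]

/-- two points with no sliver between are in the same band -/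
theorem same_bd {s t : ℝ} (hs : s ∈ Icc B.al B.be) (ht : t ∈ Icc B.al B.be)
    (h : ∀ r ∈ uIcc s t, NoSl τ.sl r) : ∃ k < B.N, s ∈ τ.bd k ∧ t ∈ τ.bd k := by
  obtain ⟨k, hk, hks⟩ := τ.bd_of_noSl hs (h s left_mem_uIcc)
  obtain ⟨l, hl, hlt⟩ := τ.bd_of_noSl ht (h t right_mem_uIcc)
  have key : ∀ {k l : ℕ} {s t : ℝ}, k < l → l < B.N → s ∈ τ.bd k → t ∈ τ.bd l →
      (∀ r ∈ uIcc s t, NoSl τ.sl r) → False := by
    intro k l s t hkl hl hs ht h
    have h1 : τ.T' k < τ.T (k + 1) := τ.T'_lt (Nat.lt_succ_self k) (by omega)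
    have h2 := τ.T_le (show k + 1 ≤ l by omega) hl
    have hst : s ≤ t := hs.2.trans (h1.le.trans (h2.trans ht.1))
    refine h ((τ.T' k + τ.T (k + 1)) / 2) ?_ _
      (τ.mem_sl.2 (Or.inr (Or.inr ⟨k, by omega, rfl⟩))) ⟨?_, ?_⟩
    · rw [uIcc_of_le hst]
      constructor <;> linarith [hs.2, ht.1]
    · show τ.T' k < _; linarith
    · show _ < τ.T (k + 1); linarith
  rcases lt_trichotomy k l with h1 | rfl | h1
  · exact (key h1 hl hks hlt h).elim
  · exact ⟨k, hk, hks, hlt⟩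
  · exact (key h1 hk hlt hks (by rwa [uIcc_comm])).elim

end TG

/-- the map in the full zone of the box -/
structure IsF {n : ℕ} {Λ : Set (Fin n → ℝ)} {B : BX n} (τ : TG B) (S : ConHomeo Λ Λ) : Prop where
  sub : B.K ⊆ Λ
  full : ∀ y, FullB B y → S.toFun y = Function.update y B.j (τ.σ (y B.j))
  full' : ∀ y, FullB B y → S.invFun y = Function.update y B.j (τ.σi (y B.j))

theorem IsF.iff {n : ℕ} {Λ : Set (Fin n → ℝ)} {B : BX n} {τ : TG B} {S : ConHomeo Λ Λ}
    (hS : IsF τ S) {y : Fin n → ℝ} (hy : y ∈ Λ) : FullB B (S.toFun y) ↔ FullB B y := by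
  constructor
  · intro h
    have h1 := hS.full' _ h
    rw [S.left_inv hy] at h1
    rw [h1]
    exact h.update (τ.l1.symm.win h.1)
  · intro h
    rw [hS.full y h]
    exact h.update (τ.l1.win h.1)

/-- a `BFam` gives the case of the full window -/
noncomputable def BFam.tg {n : ℕ} {ι : Type*} {Λ : Set (Fin n → ℝ)} (F : BFam n ι Λ) (b : ι) :
    TG (F.B b) where
  T := fun k => (F.B b).al + k * F.om b + F.e b
  T' := fun k => (F.B b).al + (k + 1) * F.om b - F.e b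
  σ := F.σ b
  σi := F.σi b
  l1 := L1.of_sm (F.B b).lvs (F.tgt b)
  lo := fun k hk => by
    have hc := (F.B b).lvs.c0
    show sm _ _ _ _ _ _ _ _ _ = _
    rw [sm_flat (F.B b).lvs hk (by rw [abs_le]; constructor <;> linarith)]
    ring
  hi := fun k hk => by
    have hc := (F.B b).lvs.c0
    show sm _ _ _ _ _ _ _ _ _ = _
    rw [sm_flat (F.B b).lvs hk (by rw [abs_le]; constructor <;> linarith)]
    field_simp
    ring

theorem BFam.IsS.isF {n : ℕ} {ι : Type*} {Λ : Set (Fin n → ℝ)} {F : BFam n ι Λ}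
    {S : ConHomeo Λ Λ} (hS : F.IsS S) (b : ι) : IsF (F.tg b) S where
  sub := F.sub b
  full := fun _ hy => hS.full (show F.FullK b _ from hy)
  full' := fun _ hy => hS.full' (show F.FullK b _ from hy)

/-- a target for the uniform staircase with arbitrary uniform targets -/
noncomputable def TG.of_tgt {n : ℕ} (B : BX n) {t₀ om e : ℝ} (h : Tgt B.N B.al B.be t₀ om e) :
    TG B where
  T := fun k => t₀ + k * om + e
  T' := fun k => t₀ + (k + 1) * om - e
  σ := sm B.N B.a B.c B.al B.be t₀ om e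
  σi := smi B.N B.a B.c B.al B.be t₀ om e
  l1 := L1.of_sm B.lvs h
  lo := fun k hk => by
    have hc := B.lvs.c0
    rw [sm_flat B.lvs hk (by rw [abs_le]; constructor <;> linarith)]
    ring
  hi := fun k hk => by
    have hc := B.lvs.c0
    rw [sm_flat B.lvs hk (by rw [abs_le]; constructor <;> linarith)]
    field_simp
    ring

/-- composition with a further one-variable map -/
noncomputable def TG.comp {n : ℕ} {B : BX n} (τ : TG B) {f f' : ℝ → ℝ} (hf : L1 B.al B.be f f') :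
    TG B where
  T := fun k => f (τ.T k)
  T' := fun k => f (τ.T' k)
  σ := f ∘ τ.σ
  σi := τ.σi ∘ f'
  l1 := τ.l1.trans hf
  lo := fun k hk => by show f (τ.σ _) = _; rw [τ.lo k hk]
  hi := fun k hk => by show f (τ.σ _) = _; rw [τ.hi k hk]

theorem IsF.comp {n : ℕ} {Λ : Set (Fin n → ℝ)} {B : BX n} {τ : TG B} {S S' : ConHomeo Λ Λ}
    (hS : IsF τ S) {f f' : ℝ → ℝ} (hf : L1 B.al B.be f f')
    (h1 : ∀ y, FullB B y → S'.toFun y = Function.update y B.j (f (y B.j))) :
    IsF (τ.comp hf) (S.trans S') where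
  sub := hS.sub
  full := fun y hy => by
    show S'.toFun (S.toFun y) = _
    have h2 : FullB B (S.toFun y) := by rw [hS.full y hy]; exact hy.update (τ.l1.win hy.1)
    rw [h1 _ h2, hS.full y hy, Function.update_self, Function.update_idem]
    rfl
  full' := fun y hy => by
    show S.invFun (S'.invFun y) = _
    have h2 : FullB B (Function.update y B.j (f' (y B.j))) := hy.update (hf.symm.win hy.1)
    have h3 := h1 _ h2
    rw [Function.update_self, hf.right, Function.update_idem, Function.update_eq_self] at h3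
    have h4 := S'.left_inv (hS.sub h2.mem)
    rw [h3] at h4
    rw [h4, hS.full' _ h2, Function.update_self, Function.update_idem]
    rfl

end P073.H236
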