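import Vale.Agent.P073.H236.Stage3V
import Vale.Agent.P073.H236.TOutDefs
import Vale.Agent.P073.H669.TLevB
import Vale.Agent.P073.H267.TNear
import Vale.Agent.P073.H471.KillLast

/-!
# P073, H236, ROUND T, STAGE 3: from (INS) to the output, part A (lemmas)
-/

open Set Metric Topology Filter

namespace P073.H236

open _root_.P073 _root_.P073.Net _root_.P073.PA691 _root_.P073.H579
open _root_.P073.PR720 (LF)
open Vale.Agent.P073.St (V)
open Vale.Agent.P073.H471 Vale.Agent.P073.H267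
open Vale.Agent.P073.H73 (Mesh)
open Vale.Agent.P073.H193 (Edges)
open Vale.Agent.P073.H238 (oT TMid TMid_sub TStage1 TAct skel mesh_sub)
open Vale.Agent.P073.H669 (TLv)

/-- the insertion map moves little, inside the boxes -/
theorem mv_isQ {ι : Type*} {Bx : ι → BX 3} {κ : V → V} (hκ : H345.IsQ Bx κ) :
    Mv (fun b => (Bx b).K) (fun b => (Bx b).c) κ where
  mem := fun _ _ hy => hκ.mapsK hy
  near := fun b y hy => by rw [hκ.on b y hy]; exact (Bx b).norm_Q_sub_le y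
  off := hκ.off

/-- **circles**: the points of the old circle are points of the new one, moved to the level -/
theorem exists_circle' {E : Type*} [NormedAddCommGroup E] [NormedSpace ℝ E] {ι : Type*}
    {Ω : Set E} {Λ : Set (Fin 3 → ℝ)} {F : BFam 3 ι Λ} {κ : (Fin 3 → ℝ) → Fin 3 → ℝ}
    {h g : ConHomeo Ω Λ} {S : ConHomeo Λ Λ} {b : ι} {k : ℕ} {X : Set E} {t : ℝ}
    (hκ : FlatK F κ) (hS : F.IsS S)
    (hX : g.toFun '' X = H579.Pre κ Λ h X) (hXΩ : X ⊆ Ω) (hk : k < (F.B b).N)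
    (ht : t ∈ F.bd b k) {σ : Set E} (hσ : IsCircle σ) (hσX : σ ⊆ X)
    (hσt : ∀ x ∈ σ, (g.trans S).toFun x (F.B b).j = t ∧ F.FullK b ((g.trans S).toFun x)) :
    ∃ σ' : Set E, IsCircle σ' ∧ σ' ⊆ X ∧ ∀ x' ∈ σ', ∃ x ∈ σ,
      h.toFun x' = Function.update ((g.trans S).toFun x) (F.B b).j ((F.B b).a k) := by
  have h1 : IsCircle ((g.trans S).toFun '' σ) :=
    H339.IsCircle.image hσ (g.trans S) (hσX.trans hXΩ)
  let w : Fin 3 → ℝ := Function.update 0 (F.B b).j ((F.B b).a k - t)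
  have h2 : IsCircle ((fun y => y + w) '' ((g.trans S).toFun '' σ)) :=
    H339.IsCircle.image h1 (ConHomeo.translate w (X := (univ : Set (Fin 3 → ℝ)))
      isOpen_univ.conicalSet) (subset_univ _)
  have hw : ∀ x ∈ σ, (g.trans S).toFun x + w =
      Function.update ((g.trans S).toFun x) (F.B b).j ((F.B b).a k) := by
    intro x hx
    ext i
    by_cases hi : i = (F.B b).j
    · rw [hi, Pi.add_apply, Function.update_self, (hσt x hx).1]
      simp [w]
    · rw [Pi.add_apply, Function.update_of_ne hi]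
      simp [w, hi]
  have hsub : (fun y => y + w) '' ((g.trans S).toFun '' σ) ⊆ h.toFun '' X := by
    rintro _ ⟨_, ⟨x, hx, rfl⟩, rfl⟩
    show (g.trans S).toFun x + w ∈ h.toFun '' X
    rw [hw x hx]
    exact (mem_image_iff hκ hS hX hXΩ (hσt x hx).2 hk (by rw [(hσt x hx).1]; exact ht)).1
      (mem_image_of_mem _ (hσX hx))
  have hsubΛ : h.toFun '' X ⊆ Λ := by
    rintro _ ⟨x, hx, rfl⟩; exact h.mapsTo (hXΩ hx)
  refine ⟨_, H339.IsCircle.image h2 h.symm (hsub.trans hsubΛ), ?_, ?_⟩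
  · rintro _ ⟨y, hy, rfl⟩
    obtain ⟨x', hx', hxy⟩ := hsub hy
    rw [← hxy]
    show h.invFun (h.toFun x') ∈ X
    rwa [h.left_inv (hXΩ hx')]
  · rintro _ ⟨y, hy, rfl⟩
    have h3 : h.toFun (h.symm.toFun y) = y := h.right_inv (hsubΛ (hsub hy))
    rw [h3]
    obtain ⟨_, ⟨x, hx, rfl⟩, rfl⟩ := hy
    exact ⟨x, hx, hw x hx⟩

/-- a gap: the neighbours of a band are ends of slivers -/
theorem BFam.bd_ends {n : ℕ} {ι : Type*} {Λ : Set (Fin n → ℝ)} (F : BFam n ι Λ) (b : ι) {k : ℕ}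
    (hk : k < (F.B b).N) :
    (∃ p ∈ F.sl b, p.2 = (F.B b).al + k * F.om b + F.e b) ∧
      ∃ p ∈ F.sl b, p.1 = (F.B b).al + (k + 1) * F.om b - F.e b := by
  refine ⟨⟨_, BFam.mem_sl.2 ⟨k, hk.le, rfl⟩, rfl⟩, ⟨_, BFam.mem_sl.2 ⟨k + 1, hk, rfl⟩, ?_⟩⟩
  push_cast
  rfl

theorem BFam.bd_eq {ι : Type*} {Λ : Set (Fin 3 → ℝ)} (F : BFam 3 ι Λ) (b : ι) (k : ℕ) :
    F.bd b k = Icc ((F.B b).al + k * F.om b + F.e b) ((F.B b).al + (k + 1) * F.om b - F.e b) :=
  rfl

/-- bands contain no point of a sliver -/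
theorem BFam.noSl_bd {ι : Type*} {Λ : Set (Fin 3 → ℝ)} (F : BFam 3 ι Λ) (b : ι) {k : ℕ}
    {r : ℝ} (hr : r ∈ F.bd b k) : NoSl (F.sl b) r := by
  intro p hp
  obtain ⟨i, -, rfl⟩ := BFam.mem_sl.1 hp
  rintro ⟨h1, h2⟩
  change (F.B b).al + (i : ℝ) * F.om b - F.e b < r at h1
  change r < (F.B b).al + (i : ℝ) * F.om b + F.e b at h2
  rw [F.bd_eq] at hr
  obtain ⟨h3, h4⟩ := hr
  have he := F.he b
  have hom : 0 < F.om b := by have := (F.tgt b).eo; linarith
  rcases le_or_gt i k with hik | hik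
  · have hc : (i : ℝ) ≤ k := by exact_mod_cast hik
    have := mul_le_mul_of_nonneg_right hc hom.le
    linarith
  · have hc : (k : ℝ) + 1 ≤ i := by exact_mod_cast hik
    have := mul_le_mul_of_nonneg_right hc hom.le
    linarith

/-- the ends of the window are in slivers -/
theorem BFam.end_al {n : ℕ} {ι : Type*} {Λ : Set (Fin n → ℝ)} (F : BFam n ι Λ) (b : ι) :
    ¬ NoSl (F.sl b) (F.B b).al := by
  intro h
  refine h _ (BFam.mem_sl.2 ⟨0, Nat.zero_le _, rfl⟩) ?_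
  have := F.he b
  constructor
  · show (F.B b).al + ((0:ℕ) : ℝ) * F.om b - F.e b < (F.B b).al
    push_cast; linarith
  · show (F.B b).al < (F.B b).al + ((0:ℕ) : ℝ) * F.om b + F.e b
    push_cast; linarith

theorem BFam.end_be {n : ℕ} {ι : Type*} {Λ : Set (Fin n → ℝ)} (F : BFam n ι Λ) (b : ι) :
    ¬ NoSl (F.sl b) (F.B b).be := by
  intro h
  refine h _ (BFam.mem_sl.2 ⟨(F.B b).N, le_rfl, rfl⟩) ?_
  have he := F.he b
  have hN : ((F.B b).N : ℝ) ≠ 0 := by
    have := (F.B b).lvs.pos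
    positivity
  have h1 : ((F.B b).N : ℝ) * F.om b = (F.B b).be - (F.B b).al := by
    show ((F.B b).N : ℝ) * stp (F.B b).N (F.B b).al (F.B b).be = _
    unfold stp
    rw [mul_div_cancel₀ _ hN]
  constructor
  · show (F.B b).al + ((F.B b).N : ℝ) * F.om b - F.e b < (F.B b).be
    rw [h1]; linarith
  · show (F.B b).be < (F.B b).al + ((F.B b).N : ℝ) * F.om b + F.e b
    rw [h1]; linarith

theorem BFam.bd_of_noSl {ι : Type*} {Λ : Set (Fin 3 → ℝ)} {F : BFam 3 ι Λ} {b : ι} {t : ℝ}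
    (ht : t ∈ Icc (F.B b).al (F.B b).be) (h : NoSl (F.sl b) t) :
    ∃ k < (F.B b).N, t ∈ F.bd b k := BFam.bd_of_sl ht h

section T

variable {Ω Λ : Set V} {v : V} {K : BoxCx Λ v} {S₀ : Rad K} {W : Wid K S₀} {B : Boxes W}
  {G : Geo B} {M : Mesh Ω} {E : Edges M} {h h' : ConHomeo Ω Λ} {ω : TBx K → ℝ}
  {T : TBx K → Finset (ℝ × ℝ)} {η : ℝ} {τ : Type*} {A : τ → Set V} {C : Set ℝ} {εE : E.ε → ℝ}
  {δ : TBx K → ℝ} (L : TLv G E h ω T η A C εE δ) {c : TBx K → ℝ} (hc0 : ∀ b, 0 < c b)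
  (hc : ∀ b, c b ≤ δ b / 8)

include L in
/-- the middle zone is in the support -/
theorem tmid_sub_K {b : TBx K} : TMid G b (ω b) ⊆ (L.bxQ c hc0 hc b).K := by
  intro y hy
  rw [L.mem_K hc0 hc]
  have h0 := L.ω0 b
  refine ⟨?_, fun i hi => ?_⟩
  · have h1 := hy.1 b.ax
    have h2 := hy.2 b.ax
    beta_reduce at h1 h2
    rw [if_pos rfl] at h1 h2
    exact ⟨h1, h2⟩
  · have h1 := hy.1 i
    have h2 := hy.2 i
    beta_reduce at h1 h2
    rw [if_neg hi] at h1 h2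
    constructor <;> linarith

/-- STAGE 1 in the form of H267 -/
theorem rl_t {Pr : Set M.ι} (O : TStage1 G M h h' Pr L.lev ω) :
    Rl (fun b => (L.bxQ c hc0 hc b).K) (fun b => 12 * ω b) Ω h.toFun h'.toFun where
  mem := by
    intro b x hx hb
    by_cases h1 : ∃ b', h.toFun x ∈ interior (TMid G b' (ω b'))
    · obtain ⟨b', hb'⟩ := h1
      have h2 := (O.memM b' x hx).2 hb'
      have h3 : h'.toFun x ∈ interior (G.TB false b') :=
        interior_mono (TMid_sub G b' (L.ω0 b') (L.ωo b')) h2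
      by_cases hbb : b' = b
      · subst hbb
        exact tmid_sub_K L hc0 hc (interior_subset hb')
      · exact absurd (L.K_sub hc0 hc b hb)
          ((Geo.disjoint_TB (G := G) hbb).notMem_of_mem_left h3)
    · push Not at h1
      rw [← (O.off' x hx h1).self_of_nhds]
      exact hb
  near := fun b x hx hb => by
    rw [← dist_eq_norm]
    exact O.all b x hx (L.K_sub hc0 hc b hb)
  off := fun x hx hno => (O.off' x hx fun b hb =>
    hno b (tmid_sub_K L hc0 hc (interior_subset hb))).self_of_nhds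

theorem ne_of_off {b : TBx K} {k : ℕ} (hk : k < L.N b) : L.a b k ∈ L.lev b := ⟨k, hk, rfl⟩

/-- the full zone contains `TB true` -/
theorem fullK_of_TB {F : BFam 3 (TBx K) Λ} (hF : F.B = L.bxQ c hc0 hc) {b : TBx K} {y : V}
    (hy : y ∈ G.TB true b) : F.FullK b y := by
  have h0 := L.ω0 b
  obtain ⟨h1, h2⟩ := hy
  have key : ((L.bxQ c hc0 hc b).al ≤ y (L.bxQ c hc0 hc b).j ∧
      y (L.bxQ c hc0 hc b).j ≤ (L.bxQ c hc0 hc b).be) ∧ (L.bxQ c hc0 hc b).Full y :=
    ⟨⟨h1 _, h2 _⟩, L.full_of hc0 hc fun i _ => ⟨by linarith [h1 i], by linarith [h2 i]⟩⟩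
  unfold BFam.FullK
  rw [hF]
  exact key

/-- update of a coordinate inside `TB true` -/
theorem update_TB {b : TBx K} {y : V} (hy : y ∈ G.TB true b) {t : ℝ}
    (h1 : G.tlo true b b.ax ≤ t) (h2 : t ≤ G.thi true b b.ax) :
    Function.update y b.ax t ∈ G.TB true b := by
  constructor
  · intro i
    by_cases hi : i = b.ax
    · rw [hi, Function.update_self]; exact h1
    · rw [Function.update_of_ne hi]; exact hy.1 i
  · intro i
    by_cases hi : i = b.ax
    · rw [hi, Function.update_self]; exact h2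
    · rw [Function.update_of_ne hi]; exact hy.2 i

end T

end P073.H236
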