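import Vale.Agent.P073.H236.GBox
import Vale.Agent.P073.H236.OutA

/-!
# P073, H236, [T3OUT-G], part 2: one box: images, circles, edges, metric estimates
-/

open Set Metric Topology Filter

namespace P073.H236

open P073 P073.H579

section one

variable {E : Type*} [NormedAddCommGroup E] [NormedSpace ℝ E]
  {Ω : Set E} {Λ : Set (Fin 3 → ℝ)} {B : BX 3} {τ : TG B} {κ : (Fin 3 → ℝ) → Fin 3 → ℝ}
  {h g : ConHomeo Ω Λ} {S : ConHomeo Λ Λ} {k : ℕ} {X C : Set E} {x y' : E} {y : Fin 3 → ℝ} {t : ℝ}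

/-- from `full` alone -/
theorem IsF.of_full {n : ℕ} {Λ : Set (Fin n → ℝ)} {B : BX n} {τ : TG B} {S : ConHomeo Λ Λ}
    (hK : B.K ⊆ Λ)
    (h : ∀ y, FullB B y → S.toFun y = Function.update y B.j (τ.σ (y B.j))) : IsF τ S where
  sub := hK
  full := h
  full' := fun y hy => by
    have h1 : FullB B (Function.update y B.j (τ.σi (y B.j))) := hy.update (τ.l1.symm.win hy.1)
    have h2 := h _ h1
    rw [Function.update_self, τ.l1.right, Function.update_idem, Function.update_eq_self] at h2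
    have h3 := S.left_inv (hK h1.mem)
    rwa [h2] at h3

/-- the insertion map is flat on the flats of the full zone -/
def FlatB (B : BX 3) (κ : (Fin 3 → ℝ) → Fin 3 → ℝ) : Prop :=
  ∀ y, FullB B y → ∀ k < B.N, |y B.j - B.a k| ≤ B.c → κ y = Function.update y B.j (B.a k)

/-- the fibre of the insertion map over a level point of the full zone is its flat -/
def FibB (Λ : Set (Fin 3 → ℝ)) (B : BX 3) (κ : (Fin 3 → ℝ) → Fin 3 → ℝ) : Prop :=
  ∀ y, FullB B y → ∀ k < B.N, y B.j = B.a k → ∀ z ∈ Λ, κ z = y →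
    z = Function.update y B.j (z B.j) ∧ |z B.j - B.a k| ≤ B.c

theorem flatB_of_isQ {ι : Type*} {Bx : ι → BX 3} (hκ : H345.IsQ Bx κ) (b : ι) :
    FlatB (Bx b) κ := by
  intro y hy k hk hyk
  rw [hκ.on b y hy.mem, (Bx b).Q_full hy.2]
  congr 1
  have hc := (Bx b).lvs.c0
  exact (qm_eq_iff hc (Bx b).lvs.sepd ((Bx b).lvs.mem_L.2 ⟨k, hk, rfl⟩) _).2
    (by obtain ⟨h1, h2⟩ := abs_le.1 hyk; constructor <;> linarith)

theorem fibB_of_isQ {ι : Type*} {Bx : ι → BX 3} (hκ : H345.IsQ Bx κ) (H : H345.Fam Λ Bx)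
    (b : ι) : FibB Λ (Bx b) κ := by
  intro y hy k hk hyk z _ hz
  have hzK : z ∈ (Bx b).K := (hκ.mem_iff H).1 (hz.symm ▸ hy.mem)
  rw [hκ.on b z hzK] at hz
  have hzi : ∀ i, i ≠ (Bx b).j → z i = y i := fun i hi => by
    rw [← hz, (Bx b).Q_ne hi]
  have hzf : (Bx b).Full z := fun i hi => by rw [hzi i hi]; exact hy.2 i hi
  rw [(Bx b).Q_full hzf] at hz
  have hq : qm (Bx b).lvs.L (Bx b).c (z (Bx b).j) = (Bx b).a k := by
    have := congrFun hz (Bx b).j
    rwa [Function.update_self, hyk] at this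
  have h1 := (qm_eq_iff (Bx b).lvs.c0 (Bx b).lvs.sepd ((Bx b).lvs.mem_L.2 ⟨k, hk, rfl⟩) _).1 hq
  refine ⟨?_, by rw [abs_le]; constructor <;> linarith [h1.1, h1.2]⟩
  ext i
  by_cases hi : i = (Bx b).j
  · rw [hi, Function.update_self]
  · rw [Function.update_of_ne hi, hzi i hi]

/-- the insertion map is the product map in the full zone -/
def ProdB (B : BX 3) (κ : (Fin 3 → ℝ) → Fin 3 → ℝ) : Prop :=
  ∀ y, FullB B y → κ y = prodK (kQ B) y

theorem prodB_of_isQ {ι : Type*} {Bx : ι → BX 3} (hκ : H345.IsQ Bx κ) (b : ι) :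
    ProdB (Bx b) κ := fun y hy => by rw [hκ.on b y hy.mem, Q_eq_prodK hy.2]

theorem ProdB.flat (h : ProdB B κ) : FlatB B κ := by
  intro y hy k hk hyk
  rw [h y hy, prodK_Q]
  congr 1
  have hc := B.lvs.c0
  exact (qm_eq_iff hc B.lvs.sepd (B.lvs.mem_L.2 ⟨k, hk, rfl⟩) _).2
    (by obtain ⟨h1, h2⟩ := abs_le.1 hyk; constructor <;> linarith)

/-- the box with smaller full zone -/
abbrev inner (B : BX 3) (lo' hi' : Fin 3 → ℝ) : BX 3 := { B with lo := lo', hi := hi' }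

theorem FullB.of_inner {lo' hi' : Fin 3 → ℝ} (h1 : ∀ i, i ≠ B.j → B.lo i ≤ lo' i)
    (h2 : ∀ i, i ≠ B.j → hi' i ≤ B.hi i) (hy : FullB (inner B lo' hi') y) : FullB B y :=
  ⟨hy.1, fun i hi => ⟨(h1 i hi).trans (hy.2 i hi).1, (hy.2 i hi).2.trans (h2 i hi)⟩⟩

theorem K_inner {lo' hi' : Fin 3 → ℝ} (h1 : ∀ i, i ≠ B.j → B.lo i ≤ lo' i)
    (h2 : ∀ i, i ≠ B.j → hi' i ≤ B.hi i) : (inner B lo' hi').K ⊆ B.K := fun y hy =>
  ⟨hy.1, fun i hi => by
    obtain ⟨h3, h4⟩ := hy.2 i hi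
    have h5 := h1 i hi
    have h6 := h2 i hi
    have h3' : lo' i - B.r i ≤ y i := h3
    have h4' : y i ≤ hi' i + B.r i := h4
    constructor <;> linarith⟩

theorem FlatB.inner (h : FlatB B κ) {lo' hi' : Fin 3 → ℝ} (h1 : ∀ i, i ≠ B.j → B.lo i ≤ lo' i)
    (h2 : ∀ i, i ≠ B.j → hi' i ≤ B.hi i) : FlatB (inner B lo' hi') κ :=
  fun y hy => h y (hy.of_inner h1 h2)

theorem FibB.inner (h : FibB Λ B κ) {lo' hi' : Fin 3 → ℝ} (h1 : ∀ i, i ≠ B.j → B.lo i ≤ lo' i)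
    (h2 : ∀ i, i ≠ B.j → hi' i ≤ B.hi i) : FibB Λ (inner B lo' hi') κ :=
  fun y hy => h y (hy.of_inner h1 h2)

theorem ProdB.inner (h : ProdB B κ) {lo' hi' : Fin 3 → ℝ} (h1 : ∀ i, i ≠ B.j → B.lo i ≤ lo' i)
    (h2 : ∀ i, i ≠ B.j → hi' i ≤ B.hi i) : ProdB (inner B lo' hi') κ :=
  fun y hy => h y (hy.of_inner h1 h2)

theorem FullB.at_level (hy : FullB B y) (hk : k < B.N) :
    FullB B (Function.update y B.j (B.a k)) :=
  hy.update (TG.flat_win hk (by rw [sub_self, abs_zero]; exact B.lvs.c0.le))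

/-- **key lemma**: product structure in the bands -/
theorem mem_image_iffG (hκ : FlatB B κ) (hS : IsF τ S)
    (hX : g.toFun '' X = Pre κ Λ h X) (hXΩ : X ⊆ Ω)
    (hy : FullB B y) (hk : k < B.N) (hyk : y B.j ∈ τ.bd k) :
    y ∈ (g.trans S).toFun '' X ↔ Function.update y B.j (B.a k) ∈ h.toFun '' X := by
  have hyΛ : y ∈ Λ := hS.sub hy.mem
  set z := S.invFun y with hz
  have hz1 : z = Function.update y B.j (τ.σi (y B.j)) := hS.full' y hy
  have hzΛ : z ∈ Λ := S.mapsTo_inv hyΛ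
  have hSz : S.toFun z = y := S.right_inv hyΛ
  have hzF : FullB B z := by rw [hz1]; exact hy.update (τ.l1.symm.win hy.1)
  have hzj : |z B.j - B.a k| ≤ B.c := by
    rw [hz1, Function.update_self]; exact (τ.abs_σi hk).2 hyk
  have hκz : κ z = Function.update y B.j (B.a k) := by
    rw [hκ z hzF k hk hzj, hz1, Function.update_idem]
  have h1 : y ∈ (g.trans S).toFun '' X ↔ z ∈ g.toFun '' X := by
    constructor
    · rintro ⟨x, hx, hxy⟩
      have h2 : S.toFun (g.toFun x) = y := hxy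
      refine ⟨x, hx, ?_⟩
      rw [hz, ← h2, S.left_inv (g.mapsTo (hXΩ hx))]
    · rintro ⟨x, hx, hxz⟩
      exact ⟨x, hx, by show S.toFun (g.toFun x) = y; rw [hxz, hSz]⟩
  rw [h1, hX]
  constructor
  · rintro ⟨-, h2⟩
    rwa [mem_preimage, hκz] at h2
  · intro h2
    exact ⟨hzΛ, by rwa [mem_preimage, hκz]⟩

/-- **[VI]** -/
theorem image_updateG (hκ : FlatB B κ) (hS : IsF τ S)
    (hX : g.toFun '' X = Pre κ Λ h X) (hXΩ : X ⊆ Ω)
    (hy : FullB B y) (ht : t ∈ Icc B.al B.be)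
    (hgap : ∀ r ∈ uIcc (y B.j) t, NoSl τ.sl r) (hm : y ∈ (g.trans S).toFun '' X) :
    Function.update y B.j t ∈ (g.trans S).toFun '' X := by
  obtain ⟨k, hk, h1, h2⟩ := τ.same_bd hy.1 ht hgap
  have hy' := hy.update ht
  rw [mem_image_iffG hκ hS hX hXΩ hy' hk (by rwa [Function.update_self]), Function.update_idem]
  exact (mem_image_iffG hκ hS hX hXΩ hy hk h1).1 hm

/-- a band point comes from a level point -/
theorem level_G (hκ : FlatB B κ) (hS : IsF τ S)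
    (hX : g.toFun '' X = Pre κ Λ h X) (hXΩ : X ⊆ Ω)
    (hy : FullB B y) (hsl : NoSl τ.sl (y B.j)) (hm : y ∈ (g.trans S).toFun '' X) :
    ∃ k < B.N, y B.j ∈ τ.bd k ∧ ∃ x ∈ X, h.toFun x = Function.update y B.j (B.a k) := by
  obtain ⟨k, hk, h1⟩ := τ.bd_of_noSl hy.1 hsl
  obtain ⟨x, hx, h2⟩ := (mem_image_iffG hκ hS hX hXΩ hy hk h1).1 hm
  exact ⟨k, hk, h1, x, hx, h2⟩

/-- **circles**: the points of the old circle are points of the new one, moved to the level -/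
theorem exists_circleG (hκ : FlatB B κ) (hS : IsF τ S)
    (hX : g.toFun '' X = Pre κ Λ h X) (hXΩ : X ⊆ Ω) (hk : k < B.N)
    (ht : t ∈ τ.bd k) {σ : Set E} (hσ : IsCircle σ) (hσX : σ ⊆ X)
    (hσt : ∀ x ∈ σ, (g.trans S).toFun x B.j = t ∧ FullB B ((g.trans S).toFun x)) :
    ∃ σ' : Set E, IsCircle σ' ∧ σ' ⊆ X ∧ ∀ x' ∈ σ', ∃ x ∈ σ,
      h.toFun x' = Function.update ((g.trans S).toFun x) B.j (B.a k) := by
  have h1 : IsCircle ((g.trans S).toFun '' σ) :=
    H339.IsCircle.image hσ (g.trans S) (hσX.trans hXΩ)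
  let w : Fin 3 → ℝ := Function.update 0 B.j (B.a k - t)
  have h2 : IsCircle ((fun y => y + w) '' ((g.trans S).toFun '' σ)) :=
    H339.IsCircle.image h1 (ConHomeo.translate w (X := (univ : Set (Fin 3 → ℝ)))
      isOpen_univ.conicalSet) (subset_univ _)
  have hw : ∀ x ∈ σ, (g.trans S).toFun x + w =
      Function.update ((g.trans S).toFun x) B.j (B.a k) := by
    intro x hx
    ext i
    by_cases hi : i = B.j
    · rw [hi, Pi.add_apply, Function.update_self, (hσt x hx).1]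
      simp [w]
    · rw [Pi.add_apply, Function.update_of_ne hi]
      simp [w, hi]
  have hsub : (fun y => y + w) '' ((g.trans S).toFun '' σ) ⊆ h.toFun '' X := by
    rintro _ ⟨_, ⟨x, hx, rfl⟩, rfl⟩
    show (g.trans S).toFun x + w ∈ h.toFun '' X
    rw [hw x hx]
    exact (mem_image_iffG hκ hS hX hXΩ (hσt x hx).2 hk (by rw [(hσt x hx).1]; exact ht)).1
      (mem_image_of_mem _ (hσX hx))
  have hsubΛ : h.toFun '' X ⊆ Λ := by
    rintro _ ⟨x, hx, rfl⟩; exact h.mapsTo (hXΩ hx)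
  refine ⟨_, H339.IsCircle.image h2 h.symm (hsub.trans hsubΛ), ?_, ?_⟩
  · rintro _ ⟨y, hy, rfl⟩
    obtain ⟨x', hx', hxy⟩ := hsub hy
    rw [← hxy]
    show h.invFun (h.toFun x') ∈ X
    rwa [h.left_inv (hXΩ hx')]
  · rintro _ ⟨y, hy, rfl⟩
    have h3 : h.toFun (h.symm.toFun y) = y := h.right_inv (hsubΛ (hsub hy))
    rw [h3]
    obtain ⟨_, ⟨x, hx, rfl⟩, rfl⟩ := hy
    exact ⟨x, hx, hw x hx⟩

/-- `S` on the fibre over a level point -/
theorem IsF.on_fib (hS : IsF τ S) (hf : FibB Λ B κ) (hy : FullB B y) (hk : k < B.N)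
    (hyk : y B.j = B.a k) {z : Fin 3 → ℝ} (hz : z ∈ Λ) (hκz : κ z = y) :
    FullB B z ∧ S.toFun z = Function.update y B.j (τ.σ (z B.j)) ∧ τ.σ (z B.j) ∈ τ.bd k := by
  obtain ⟨h1, h2⟩ := hf y hy k hk hyk z hz hκz
  have h3 : FullB B z := by rw [h1]; exact hy.update (TG.flat_win hk h2)
  refine ⟨h3, ?_, (τ.mem_bd hk).2 h2⟩
  rw [hS.full z h3]
  nth_rw 1 [h1]
  rw [Function.update_idem]

/-- **(T9)**: over a crossing point the edge is vertical, and covers the band; `[s2, s3]` is the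
fibre of the crossing point -/
theorem exists_verticalG (hκ : FlatB B κ) (hf : FibB Λ B κ) (hS : IsF τ S) {γ : ℝ → E}
    {e : Set E} (heΩ : e ⊆ Ω) (hγ : MapsTo γ (Icc 0 1) e) (hγs : e ⊆ γ '' Icc 0 1)
    (hX : g.toFun '' e = Pre κ Λ h e) {s2 s3 : E → ℝ}
    (hfib : ∀ x ∈ e, h.toFun x B.j = B.a k → FullB B (h.toFun x) →
      ∀ s ∈ Icc (0:ℝ) 1, (κ (g.toFun (γ s)) = h.toFun x ↔ s2 x ≤ s ∧ s ≤ s3 x))
    (hk : k < B.N) {s : ℝ} (hs : s ∈ Icc (0:ℝ) 1)
    (hfull : FullB B ((g.trans S).toFun (γ s)))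
    (hbd : (g.trans S).toFun (γ s) B.j ∈ τ.bd k) :
    ∃ x ∈ e, h.toFun x B.j = B.a k ∧ FullB B (h.toFun x) ∧ s2 x ≤ s ∧ s ≤ s3 x ∧
      (∀ s' ∈ Icc (0:ℝ) 1, s2 x ≤ s' → s' ≤ s3 x → FullB B (g.toFun (γ s')) ∧
        |g.toFun (γ s') B.j - B.a k| ≤ B.c ∧
        (g.trans S).toFun (γ s') = Function.update (h.toFun x) B.j
          (τ.σ (g.toFun (γ s') B.j)) ∧
        (g.trans S).toFun (γ s') B.j ∈ τ.bd k) ∧
      ∀ t ∈ τ.bd k, ∃ s' ∈ Icc (0:ℝ) 1, s2 x ≤ s' ∧ s' ≤ s3 x ∧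
        (g.trans S).toFun (γ s') = Function.update (h.toFun x) B.j t := by
  have hγΩ : γ s ∈ Ω := heΩ (hγ hs)
  have hgΛ : g.toFun (γ s) ∈ Λ := g.mapsTo hγΩ
  have hz : FullB B (g.toFun (γ s)) := (hS.iff hgΛ).1 hfull
  have hzj : |g.toFun (γ s) B.j - B.a k| ≤ B.c := by
    rw [← τ.mem_bd hk]
    have h1 : (g.trans S).toFun (γ s) = Function.update (g.toFun (γ s)) B.j
      (τ.σ (g.toFun (γ s) B.j)) := hS.full _ hz
    rw [h1, Function.update_self] at hbd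
    exact hbd
  have hκz := hκ _ hz k hk hzj
  have hmem : g.toFun (γ s) ∈ Pre κ Λ h e := by
    rw [← hX]; exact mem_image_of_mem _ (hγ hs)
  obtain ⟨x, hxe, hx⟩ := hmem.2
  have hx' : h.toFun x = κ (g.toFun (γ s)) := hx
  have hxj : h.toFun x B.j = B.a k := by
    rw [hx', hκz, Function.update_self]
  have hxF : FullB B (h.toFun x) := by rw [hx', hκz]; exact hz.at_level hk
  have hss := (hfib x hxe hxj hxF s hs).1 hx'.symm
  refine ⟨x, hxe, hxj, hxF, hss.1, hss.2, fun s' hs' h2 h3 => ?_, fun t ht => ?_⟩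
  · have h4 : κ (g.toFun (γ s')) = h.toFun x := (hfib x hxe hxj hxF s' hs').2 ⟨h2, h3⟩
    have h5 := hf _ hxF k hk hxj _ (g.mapsTo (heΩ (hγ hs'))) h4
    obtain ⟨h6, h7, h8⟩ := hS.on_fib hf hxF hk hxj (g.mapsTo (heΩ (hγ hs'))) h4
    refine ⟨h6, h5.2, h7, ?_⟩
    show S.toFun (g.toFun (γ s')) B.j ∈ _
    rw [h7, Function.update_self]
    exact h8
  · have hfl : |τ.σi t - B.a k| ≤ B.c := (τ.abs_σi hk).2 ht
    set z := Function.update (h.toFun x) B.j (τ.σi t) with hzd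
    have hzF : FullB B z := hxF.update (TG.flat_win hk hfl)
    have hκz' : κ z = h.toFun x := by
      rw [hκ z hzF k hk (by rw [hzd, Function.update_self]; exact hfl), hzd,
        Function.update_idem, ← hxj, Function.update_eq_self]
    have hzm : z ∈ g.toFun '' e := by
      rw [hX]
      exact ⟨hS.sub hzF.mem, by rw [mem_preimage, hκz']; exact mem_image_of_mem _ hxe⟩
    obtain ⟨x', hx'e, hx'z⟩ := hzm
    obtain ⟨s', hs', rfl⟩ := hγs hx'e
    have h4 := (hfib x hxe hxj hxF s' hs').1 (by rw [hx'z, hκz'])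
    refine ⟨s', hs', h4.1, h4.2, ?_⟩
    show S.toFun (g.toFun (γ s')) = _
    rw [hx'z, hS.full z hzF, hzd, Function.update_self, τ.l1.right, Function.update_idem]

/-- the image of a set without level points misses the flats -/
theorem off_flatG (hκ : FlatB B κ) (hX : g.toFun '' X = Pre κ Λ h X)
    (hlev : ∀ x ∈ X, ∀ k < B.N, h.toFun x B.j ≠ B.a k) (hx : x ∈ X)
    (hf : FullB B (g.toFun x)) (hk : k < B.N) :
    B.c < |g.toFun x B.j - B.a k| := by
  by_contra hcon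
  push Not at hcon
  have h1 := hκ _ hf k hk hcon
  have h2 : g.toFun x ∈ Pre κ Λ h X := by rw [← hX]; exact mem_image_of_mem _ hx
  obtain ⟨x', hx', hxx⟩ := h2.2
  have h3 : h.toFun x' = κ (g.toFun x) := hxx
  refine hlev x' hx' k hk ?_
  rw [h3, h1, Function.update_self]

/-- **(T6) for faces which meet no level** -/
theorem sum_fl_eq_zeroG (hκ : FlatB B κ) (hX : g.toFun '' X = Pre κ Λ h X) (hXΩ : X ⊆ Ω)
    (hlev : ∀ x ∈ X, ∀ k < B.N, h.toFun x B.j ≠ B.a k)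
    (hC : IsPreconnected C) (hCX : C ⊆ X) (hf : ∀ x ∈ C, FullB B (g.toFun x))
    (hx : x ∈ C) (hy : y' ∈ C) :
    ∑ k ∈ Finset.range B.N, |fl B.c (B.a k) (g.toFun x B.j) -
      fl B.c (B.a k) (g.toFun y' B.j)| = 0 := by
  refine Finset.sum_eq_zero fun k hk => ?_
  rw [Finset.mem_range] at hk
  have hc := B.lvs.c0
  have hoff : ∀ z ∈ C, B.c < |g.toFun z B.j - B.a k| := fun z hz =>
    off_flatG hκ hX hlev (hCX hz) (hf z hz) hk
  have hcont : ContinuousOn (fun z => g.toFun z B.j) C :=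
    (continuous_apply B.j).comp_continuousOn (g.cont.mono (hCX.trans hXΩ))
  have himg := (hC.image _ hcont).ordConnected
  rw [abs_eq_zero, sub_eq_zero]
  have hx' := lt_abs.1 (hoff x hx)
  have hy' := lt_abs.1 (hoff y' hy)
  have hmid : ∀ p q, p ∈ C → q ∈ C → g.toFun p B.j < B.a k →
      B.a k < g.toFun q B.j → False := by
    intro p q hp hq h1 h2
    obtain ⟨z, hz, hza⟩ := himg.out (mem_image_of_mem _ hp) (mem_image_of_mem _ hq) ⟨h1.le, h2.le⟩
    have h3 := hoff z hz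
    have h4 : g.toFun z B.j = B.a k := hza
    rw [h4, sub_self, abs_zero] at h3
    linarith
  rcases hx' with hx' | hx' <;> rcases hy' with hy' | hy'
  · rw [fl_of_ge hc.le (by linarith), fl_of_ge hc.le (by linarith)]
  · exact (hmid y' x hy hx (by linarith) (by linarith)).elim
  · exact (hmid x y' hx hy (by linarith) (by linarith)).elim
  · rw [fl_of_le (by linarith), fl_of_le (by linarith)]

end one

/-- weights of the targets: `q * stp / 2 c` on the flats and `io` in the gaps, on `[lo, hi]` -/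
structure TG.Wt {n : ℕ} {B : BX n} (τ : TG B) (q io lo hi : ℝ) : Prop where
  q0 : 0 ≤ q
  io0 : 0 ≤ io
  lo_le : ∀ k < B.N, lo ≤ B.a k - B.c
  le_hi : ∀ k < B.N, B.a k + B.c ≤ hi
  le : ∀ s ∈ Icc lo hi, ∀ t ∈ Icc lo hi, |τ.σ s - τ.σ t| ≤
    q * (stp B.N B.al B.be / (2 * B.c)) *
      ∑ k ∈ Finset.range B.N, |fl B.c (B.a k) s - fl B.c (B.a k) t| + io * |s - t|

namespace TG.Wt

/-- the full window -/
theorem bfam {ι : Type*} {Λ : Set (Fin 3 → ℝ)} (F : BFam 3 ι Λ) (b : ι) :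
    (F.tg b).Wt 1 (F.e b / (F.B b).c) (F.B b).al (F.B b).be where
  q0 := zero_le_one
  io0 := div_nonneg (F.he b).le (F.B b).lvs.c0.le
  lo_le := fun _ hk => (TG.flat_win hk (by
    have := (F.B b).lvs.c0
    rw [show (F.B b).a _ - (F.B b).c - (F.B b).a _ = -(F.B b).c by ring, abs_neg,
      abs_of_pos this])).1
  le_hi := fun _ hk => (TG.flat_win hk (by
    have := (F.B b).lvs.c0
    rw [show (F.B b).a _ + (F.B b).c - (F.B b).a _ = (F.B b).c by ring,
      abs_of_pos this])).2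
  le := fun s hs t ht => by
    have hc := (F.B b).lvs.c0
    have he := F.he b
    refine (abs_sm_sub_le_win (F.B b).lvs (F.he b) (F.heo b) hs ht).trans ?_
    have h0 : 0 ≤ ∑ k ∈ Finset.range (F.B b).N,
        |fl (F.B b).c ((F.B b).a k) s - fl (F.B b).c ((F.B b).a k) t| :=
      Finset.sum_nonneg fun _ _ => abs_nonneg _
    gcongr
    rw [one_mul]
    gcongr
    linarith

/-- one more map -/
theorem comp {n : ℕ} {B : BX n} {τ : TG B} {q io lo hi : ℝ} (W : τ.Wt q io lo hi)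
    {f f' : ℝ → ℝ} (hf : L1 B.al B.be f f') {C : ℝ} (hC : 0 ≤ C)
    (h : ∀ s ∈ Icc lo hi, ∀ t ∈ Icc lo hi, |f (τ.σ s) - f (τ.σ t)| ≤ C * |τ.σ s - τ.σ t|) :
    (τ.comp hf).Wt (C * q) (C * io) lo hi where
  q0 := mul_nonneg hC W.q0
  io0 := mul_nonneg hC W.io0
  lo_le := W.lo_le
  le_hi := W.le_hi
  le := fun s hs t ht => by
    have h1 := mul_le_mul_of_nonneg_left (W.le s hs t ht) hC
    refine (h s hs t ht).trans (h1.trans (le_of_eq ?_))
    ring

end TG.Wt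

section metric

variable {E : Type*} [NormedAddCommGroup E] [NormedSpace ℝ E]
  {Ω : Set E} {Λ : Set (Fin 3 → ℝ)} {B : BX 3} {τ : TG B} {κ : (Fin 3 → ℝ) → Fin 3 → ℝ}
  {h g : ConHomeo Ω Λ} {S : ConHomeo Λ Λ} {k : ℕ} {X C : Set E} {x y : E} {q io lo hi : ℝ}

/-- the coordinate of the box in the full zone -/
theorem IsF.sub_le (hS : IsF τ S) (W : τ.Wt q io lo hi) (hx : FullB B (g.toFun x))
    (hy : FullB B (g.toFun y)) (hx' : g.toFun x B.j ∈ Icc lo hi) (hy' : g.toFun y B.j ∈ Icc lo hi) :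
    |(g.trans S).toFun x B.j - (g.trans S).toFun y B.j| ≤
      q * (stp B.N B.al B.be / (2 * B.c)) * ∑ k ∈ Finset.range B.N,
        |fl B.c (B.a k) (g.toFun x B.j) - fl B.c (B.a k) (g.toFun y B.j)| +
      io * |g.toFun x B.j - g.toFun y B.j| := by
  show |S.toFun (g.toFun x) B.j - S.toFun (g.toFun y) B.j| ≤ _
  rw [hS.full _ hx, hS.full _ hy, Function.update_self, Function.update_self]
  exact W.le _ hx' _ hy'

/-- **(T6)**, from the estimate of H579 -/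
theorem IsF.lipG (hS : IsF τ S) (W : τ.Wt q io lo hi) (hx : FullB B (g.toFun x))
    (hy : FullB B (g.toFun y)) (hx' : g.toFun x B.j ∈ Icc lo hi) (hy' : g.toFun y B.j ∈ Icc lo hi)
    {K₁ K₂ : ℝ}
    (h1 : bandD (LQ B) (loQ B) (hiQ B) (omQ B) (g.toFun x) (g.toFun y) ≤ K₁ * ‖x - y‖)
    (h2 : |g.toFun x B.j - g.toFun y B.j| ≤ K₂ * ‖x - y‖) :
    |(g.trans S).toFun x B.j - (g.trans S).toFun y B.j| ≤ (q * K₁ + io * K₂) * ‖x - y‖ := by
  refine (hS.sub_le W hx hy hx' hy').trans ?_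
  rw [bandD_Q] at h1
  have h3 := mul_le_mul_of_nonneg_left h1 W.q0
  have h4 := mul_le_mul_of_nonneg_left h2 W.io0
  calc _ ≤ q * (K₁ * ‖x - y‖) + io * (K₂ * ‖x - y‖) := by
        refine add_le_add (le_trans (le_of_eq ?_) h3) h4
        ring
    _ = _ := by ring

/-- the slope of `S ∘ g` over a crossing point, from the slope of `g` -/
theorem IsF.fib_lip (hS : IsF τ S) (W : τ.Wt q io lo hi) {z z' : Fin 3 → ℝ} (hk : k < B.N)
    (hz : FullB B z) (hz' : FullB B z') (h1 : |z B.j - B.a k| ≤ B.c)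
    (h2 : |z' B.j - B.a k| ≤ B.c) {A D : ℝ}
    (hA : stp B.N B.al B.be * |z B.j - z' B.j| ≤ 2 * B.c * A) (hD : |z B.j - z' B.j| ≤ D) :
    |S.toFun z B.j - S.toFun z' B.j| ≤ q * A + io * D := by
  have hc := B.lvs.c0
  obtain ⟨a1, a2⟩ := abs_le.1 h1
  obtain ⟨b1, b2⟩ := abs_le.1 h2
  have l1 := W.lo_le k hk
  have l2 := W.le_hi k hk
  rw [hS.full z hz, hS.full z' hz', Function.update_self, Function.update_self]
  refine (W.le _ ⟨by linarith, by linarith⟩ _ ⟨by linarith, by linarith⟩).trans ?_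
  have h3 := B.lvs.sum_fl_le (z B.j) (z' B.j)
  have h4 : 0 < stp B.N B.al B.be := stp_pos B
  have h5 : stp B.N B.al B.be / (2 * B.c) * ∑ k ∈ Finset.range B.N,
      |fl B.c (B.a k) (z B.j) - fl B.c (B.a k) (z' B.j)| ≤ A := by
    rw [div_mul_eq_mul_div, div_le_iff₀ (by linarith)]
    have := mul_le_mul_of_nonneg_left h3 h4.le
    linarith
  have h6 := mul_le_mul_of_nonneg_left h5 W.q0
  have h7 := mul_le_mul_of_nonneg_left hD W.io0
  rw [← mul_assoc] at h6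
  linarith

end metric

end P073.H236
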