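import Vale.Agent.P073.H236.GOut1

/-!
# P073, H236, [T3OUT-G], part 3: one box: (T9) edges, the Lipschitz estimate on edges
-/

open Set Metric Topology Filter

namespace P073.H236

open P073 P073.H579

/-- the uniform targets `t₀ + k om + e`, `om ≤ stp` -/
theorem TG.Wt.of_tgt (B : BX 3) {t₀ om e : ℝ} (h : Tgt B.N B.al B.be t₀ om e)
    (hom : om ≤ stp B.N B.al B.be) :
    (TG.of_tgt B h).Wt 1 (e / B.c) (B.a 0 - B.c) (B.a (B.N - 1) + B.c) where
  q0 := zero_le_one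
  io0 := div_nonneg h.e0.le B.lvs.c0.le
  lo_le := fun k hk => by
    have h1 : B.a 0 ≤ B.a k := by
      rcases Nat.eq_zero_or_pos k with rfl | h2
      · exact le_rfl
      · have := B.lvs.add_le h2 hk
        linarith [B.lvs.c0]
    linarith
  le_hi := fun k hk => by
    have h1 : B.a k ≤ B.a (B.N - 1) := by
      rcases (show k ≤ B.N - 1 by omega).eq_or_lt with h2 | h2
      · rw [h2]
      · have := B.lvs.add_le h2 (by omega)
        linarith [B.lvs.c0]
    linarith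
  le := fun s hs t ht => by
    have hc := B.lvs.c0
    have he := h.e0
    have hst := stp_pos B
    have key := abs_stair_sub_le_sum B.lvs.arr (h.arr B.lvs.pos) (ι := e / B.c) (by positivity) (by
      intro k hk
      have h5 := B.lvs.sep k hk
      rw [div_le_div_iff₀ (by linarith) hc]
      push_cast
      have e1 : t₀ + ((k:ℝ) + 1) * om + e - (t₀ + (k + 1) * om - e) = 2 * e := by ring
      rw [e1]
      nlinarith) (s := s) (t := t) hs ht
    refine key.trans (add_le_add_left ?_ _)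
    rw [one_mul, Finset.mul_sum]
    refine Finset.sum_le_sum fun k _ => ?_
    rw [fl_eq_clam, fl_eq_clam]
    refine mul_le_mul_of_nonneg_right ?_ (abs_nonneg _)
    have e1 : t₀ + ((k:ℝ) + 1) * om - e - (t₀ + k * om + e) = om - 2 * e := by ring
    have e2 : B.a k + B.c - (B.a k - B.c) = 2 * B.c := by ring
    rw [e1, e2]
    gcongr
    linarith

section

variable {Λ Ω : Set (Fin 3 → ℝ)} {B : BX 3} {τ : TG B}
  {κ : (Fin 3 → ℝ) → Fin 3 → ℝ}
  {h g : ConHomeo Ω Λ} {S : ConHomeo Λ Λ} {k : ℕ} {u v : Fin 3 → ℝ} {q io lo hi : ℝ}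

/-- fibres of `κ` and of the product map over a level point of the full zone are the same -/
theorem fib_iffG (hκ : ProdB B κ) (H : FibB Λ B κ) {y : Fin 3 → ℝ} (hy : FullB B y)
    (hk : k < B.N) (hyk : y B.j = B.a k) {z : Fin 3 → ℝ} (hz : z ∈ Λ) :
    κ z = y ↔ prodK (kQ B) z = y := by
  constructor
  · intro h1
    obtain ⟨h2, h3⟩ := H y hy k hk hyk z hz h1
    have h4 : FullB B z := by rw [h2]; exact hy.update (TG.flat_win hk h3)
    rw [← hκ z h4, h1]
  · intro h1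
    have h2 : ∀ i, i ≠ B.j → z i = y i := fun i hi => by
      rw [← h1, prodK_Q, Function.update_of_ne hi]
    have h3 : qm B.lvs.L B.c (z B.j) = B.a k := by
      rw [← hyk, ← h1, prodK_Q, Function.update_self]
    have h4 := (qm_eq_iff B.lvs.c0 B.lvs.sepd
      (B.lvs.mem_L.2 ⟨k, hk, rfl⟩) _).1 h3
    have h5 : FullB B z := by
      refine ⟨TG.flat_win hk (abs_le.2 ⟨by linarith [h4.1], by linarith [h4.2]⟩),
        fun i hi => ?_⟩
      rw [h2 i hi]; exact hy.2 i hi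
    rw [hκ z h5, h1]

/-- the new edge over the crossing point `x` -/
structure VertG (B : BX 3) (I : Set ℝ) (a : ℝ) (h : (Fin 3 → ℝ) → Fin 3 → ℝ)
    (h1 : (Fin 3 → ℝ) → Fin 3 → ℝ) (u v : Fin 3 → ℝ) (La : ℝ) (x : Fin 3 → ℝ) (s2 s3 : ℝ)
    (ψ : ℝ → ℝ) : Prop where
  mem : x ∈ segment ℝ u v
  lev : h x B.j = a
  full : FullB B (h x)
  pos : 0 < s2
  lt : s2 < s3
  lt1 : s3 < 1
  eq : ∀ s ∈ Icc s2 s3, h1 (AffineMap.lineMap u v s) = Function.update (h x) B.j (ψ s)
  cont : ContinuousOn ψ (Icc s2 s3)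
  inj : InjOn ψ (Icc s2 s3)
  img : ψ '' Icc s2 s3 = I
  lip : ∀ s ∈ Icc s2 s3, ∀ s' ∈ Icc s2 s3, |ψ s - ψ s'| ≤ La * ‖v - u‖ * |s - s'|

/-- **(T9)** -/
theorem exists_vertG (hκ : ProdB B κ) (H : FibB Λ B κ) (hS : IsF τ S)
    (W : τ.Wt q io lo hi)
    (he : segment ℝ u v ⊆ Ω) (hX : g.toFun '' segment ℝ u v = Pre κ Λ h (segment ℝ u v))
    {La Lam : ℝ} (hLam : ∀ x ∈ segment ℝ u v, ∀ y ∈ segment ℝ u v,
      ‖g.toFun x - g.toFun y‖ ≤ Lam * ‖x - y‖)
    {f : (Fin 3 → ℝ) → Fin 3 → ℝ} (hf : EqOn g.toFun f (segment ℝ u v))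
    {s1 s2 s3 s4 : (Fin 3 → ℝ) → ℝ}
    (HE : EdgeNum u v h.toFun (kQ B) (LQ B) (loQ B) (hiQ B) (omQ B)
      La f s1 s2 s3 s4)
    (hk : k < B.N) {s : ℝ} (hs : s ∈ Icc (0:ℝ) 1)
    (hfull : FullB B ((g.trans S).toFun (AffineMap.lineMap u v s)))
    (hbd : (g.trans S).toFun (AffineMap.lineMap u v s) B.j ∈ τ.bd k) :
    ∃ x, s ∈ Icc (s2 x) (s3 x) ∧ VertG B (τ.bd k) (B.a k) h.toFun (g.trans S).toFun
      u v (q * La + io * Lam) x (s2 x) (s3 x)
      (fun s => (g.trans S).toFun (AffineMap.lineMap u v s) B.j) := by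
  classical
  set γ : ℝ → Fin 3 → ℝ := fun s => AffineMap.lineMap u v s with hγ
  have hγm : MapsTo γ (Icc 0 1) (segment ℝ u v) := fun s hs => lineMap_mem hs
  have hγs : segment ℝ u v ⊆ γ '' Icc 0 1 := by rw [segment_eq_image_lineMap]
  have hFK := hκ.flat
  have hFb := H
  have hcrs : ∀ x ∈ segment ℝ u v, h.toFun x B.j = B.a k →
      CrsPt u v h.toFun (LQ B) x := fun x hx hxk => crsPt_Q.2 ⟨hx, k, hk, hxk.symm⟩
  obtain ⟨x, hx, hxk, hxF, h2, h3, hA, hB⟩ := exists_verticalG (h := h) (g := g) (S := S) hFK hFb hS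
    he hγm hγs hX (s2 := s2) (s3 := s3) (k := k) (by
      intro x hx hxk hxF s hs
      rw [fib_iffG hκ H hxF hk hxk (g.mapsTo (he (hγm hs))), hf (hγm hs)]
      exact HE.fib x (hcrs x hx hxk) s hs) hk hs hfull hbd
  have c := hcrs x hx hxk
  have p1 := HE.a1 x c
  have p2 := HE.a2 x c
  have p3 := HE.a3 x c
  have p4 := HE.a4 x c
  have p5 := HE.a5 x c
  have hI : ∀ s ∈ Icc (s2 x) (s3 x), s ∈ Icc (0:ℝ) 1 := fun s hs =>
    ⟨by linarith [hs.1], by linarith [hs.2]⟩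
  have heq : ∀ s ∈ Icc (s2 x) (s3 x), (g.trans S).toFun (γ s) =
      Function.update (h.toFun x) B.j ((g.trans S).toFun (γ s) B.j) := by
    intro s hs
    obtain ⟨-, -, h5, -⟩ := hA s (hI s hs) hs.1 hs.2
    rw [h5, Function.update_self]
  refine ⟨x, ⟨h2, h3⟩, hx, hxk, hxF, by linarith, p3, by linarith, heq, ?_, ?_, ?_, ?_⟩
  · have h5 : ContinuousOn γ (Icc (s2 x) (s3 x)) := by
      rw [hγ]; exact (AffineMap.lineMap_continuous).continuousOn
    exact (continuous_apply B.j).comp_continuousOn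
      ((g.trans S).cont.comp h5 fun s hs => he (hγm (hI s hs)))
  · intro s hs s' hs' hss
    have h5 : (g.trans S).toFun (γ s) = (g.trans S).toFun (γ s') := by
      rw [heq s hs, heq s' hs']
      exact congrArg _ hss
    have h6 := (g.trans S).injOn (he (hγm (hI s hs))) (he (hγm (hI s' hs'))) h5
    by_contra hne
    have huv : u ≠ v := by
      rintro rfl
      have h7 := (HE.fib x c 0 ⟨le_rfl, zero_le_one⟩)
      have h8 := (HE.fib x c s (hI s hs))
      have e1 : (AffineMap.lineMap u u (0:ℝ) : Fin 3 → ℝ) = AffineMap.lineMap u u s := by simp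
      rw [e1] at h7
      have h9 := h7.1 (h8.2 hs)
      linarith [h9.1]
    exact hne (AffineMap.lineMap_injective ℝ huv h6)
  · ext t
    constructor
    · rintro ⟨s, hs, rfl⟩
      exact (hA s (hI s hs) hs.1 hs.2).2.2.2
    · intro ht
      obtain ⟨s', hs', h5, h6, h7⟩ := hB t ht
      refine ⟨s', ⟨h5, h6⟩, ?_⟩
      show (g.trans S).toFun (γ s') B.j = t
      rw [h7, Function.update_self]
  · intro s hs s' hs'
    obtain ⟨a1, a2, -, -⟩ := hA s (hI s hs) hs.1 hs.2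
    obtain ⟨b1, b2, -, -⟩ := hA s' (hI s' hs') hs'.1 hs'.2
    have h5 := HE.lip x hx B.j (mem_LQ.2 ⟨rfl, k, hk, hxk.symm⟩) s hs s' hs'
    rw [hiQ_sub_loQ, ← hf (hγm (hI s hs)), ← hf (hγm (hI s' hs'))] at h5
    have h6 : |g.toFun (γ s) B.j - g.toFun (γ s') B.j| ≤
        Lam * ‖v - u‖ * |s - s'| := by
      have h7 := hLam _ (hγm (hI s hs)) _ (hγm (hI s' hs'))
      have h8 : ‖γ s - γ s'‖ = |s - s'| * ‖v - u‖ := by
        have h3 : dist (γ s) (γ s') = dist s s' * dist u v := by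
          rw [hγ]; exact dist_lineMap_lineMap _ _ _ _
        rw [dist_eq_norm, Real.dist_eq, dist_eq_norm, norm_sub_rev u] at h3
        exact h3
      rw [h8] at h7
      have h9 := norm_le_pi_norm (g.toFun (γ s) - g.toFun (γ s')) B.j
      rw [Pi.sub_apply, Real.norm_eq_abs] at h9
      refine (h9.trans h7).trans (le_of_eq (by ring))
    refine (hS.fib_lip W hk a1 b1 a2 b2 (A := La * ‖v - u‖ * |s - s'|) h5 h6).trans
      (le_of_eq ?_)
    ring

/-- **the Lipschitz estimate on an edge**, for `g` in the full zone -/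
theorem bandD_edge (hκ : ProdB B κ) (H : FibB Λ B κ)
    (he : segment ℝ u v ⊆ Ω) (hX : g.toFun '' segment ℝ u v = Pre κ Λ h (segment ℝ u v))
    {La : ℝ} (hLa : 0 ≤ La)
    {f : (Fin 3 → ℝ) → Fin 3 → ℝ} (hf : EqOn g.toFun f (segment ℝ u v))
    {s1 s2 s3 s4 : (Fin 3 → ℝ) → ℝ}
    (HE : EdgeNum u v h.toFun (kQ B) (LQ B) (loQ B) (hiQ B) (omQ B)
      La f s1 s2 s3 s4)
    (hfull : ∀ x ∈ segment ℝ u v, FullB B (g.toFun x))
    {z w : Fin 3 → ℝ} (hz : z ∈ segment ℝ u v) (hw : w ∈ segment ℝ u v) :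
    bandD (LQ B) (loQ B) (hiQ B) (omQ B) (g.toFun z) (g.toFun w) ≤
      La * ‖z - w‖ := by
  classical
  have hc0' : 0 < B.c := B.lvs.c0
  set γ : ℝ → Fin 3 → ℝ := fun s => AffineMap.lineMap u v s with hγ
  have hγm : ∀ s ∈ Icc (0:ℝ) 1, γ s ∈ segment ℝ u v := fun s hs => lineMap_mem hs
  have hq : ContinuousOn (fun s => g.toFun (γ s) B.j) (Icc 0 1) := by
    have h5 : ContinuousOn γ (Icc 0 1) := (AffineMap.lineMap_continuous).continuousOn
    exact (continuous_apply B.j).comp_continuousOn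
      (g.cont.comp h5 fun s hs => he (hγm s hs))
  have hom : 0 < stp B.N B.al B.be := stp_pos B
  have hlev : ∀ x, CrsPt u v h.toFun (LQ B) x → h.toFun x B.j ∈ LQ B B.j := by
    rintro x ⟨-, j, hj⟩
    obtain ⟨rfl, -⟩ := mem_LQ.1 hj
    exact hj
  have key := fun s s' hs hs' => B.lvs.band_lip (q := fun s => g.toFun (γ s) B.j) hq
    (P := CrsPt u v h.toFun (LQ B)) (s1 := s1) (s2 := s2) (s3 := s3) (s4 := s4)
    HE.a2 HE.a4 (fun x hx => by linarith [HE.a1 x hx, HE.a2 x hx])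
    (fun x hx => by linarith [HE.a4 x hx, HE.a5 x hx]) HE.dis
    (by
      intro s hs m hm hsm
      have hzz := hfull _ (hγm s hs)
      have h1 := hκ.flat _ hzz m hm hsm
      have h2 : g.toFun (γ s) ∈ Pre κ Λ h (segment ℝ u v) := by
        rw [← hX]; exact mem_image_of_mem _ (hγm s hs)
      obtain ⟨x', hx', h3⟩ := h2.2
      have h4 : h.toFun x' = Function.update (g.toFun (γ s)) B.j (B.a m) := by
        rw [h3]; exact h1
      have hcr : CrsPt u v h.toFun (LQ B) x' :=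
        crsPt_Q.2 ⟨hx', m, hm, by rw [h4, Function.update_self]⟩
      refine ⟨x', hcr, (HE.fib x' hcr s hs).1 ?_⟩
      rw [← hf (hγm s hs)]
      have h5 : FullB B (h.toFun x') := by
        rw [h4]; exact hzz.at_level hm
      exact (fib_iffG hκ H h5 hm (by rw [h4, Function.update_self])
        (g.mapsTo (he (hγm s hs)))).1 h3.symm)
    (C := 2 * B.c / stp B.N B.al B.be * (La * ‖v - u‖)) (by positivity)
    (by
      intro x hx s hs s' hs'
      have hsI : ∀ r ∈ Icc (s2 x) (s3 x), r ∈ Icc (0:ℝ) 1 := fun r hr =>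
        ⟨by linarith [HE.a1 x hx, HE.a2 x hx, hr.1], by linarith [HE.a4 x hx, HE.a5 x hx, hr.2]⟩
      have h1 := HE.lip x hx.1 B.j (hlev x hx) s hs s' hs'
      rw [hiQ_sub_loQ, ← hf (hγm s (hsI s hs)), ← hf (hγm s' (hsI s' hs'))] at h1
      change stp B.N B.al B.be *
        |g.toFun (γ s) B.j - g.toFun (γ s') B.j| ≤ _ at h1
      rw [div_mul_eq_mul_div, div_mul_eq_mul_div, le_div_iff₀ hom]
      linarith) (s := s) (s' := s') hs hs'
  rw [segment_eq_image_lineMap] at hz hw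
  obtain ⟨s, hs, rfl⟩ := hz
  obtain ⟨s', hs', rfl⟩ := hw
  have h1 := key s s' hs hs'
  have h2 : ‖γ s - γ s'‖ = |s - s'| * ‖v - u‖ := by
    have h3 : dist (γ s) (γ s') = dist s s' * dist u v := by
      rw [hγ]; exact dist_lineMap_lineMap _ _ _ _
    rw [dist_eq_norm, Real.dist_eq, dist_eq_norm, norm_sub_rev u] at h3
    exact h3
  rw [bandD_Q]
  show _ ≤ La * ‖γ s - γ s'‖
  rw [h2, div_mul_eq_mul_div, div_le_iff₀ (by linarith)]
  have h3 := mul_le_mul_of_nonneg_left h1 hom.le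
  refine h3.trans (le_of_eq ?_)
  field_simp

end

end P073.H236
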