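import Vale.Agent.P073.H236.GOut3

/-!
# P073, H236, **[T3OUT-G]**, part 5: `St2G.exists_t3outG`
-/

open Set Metric Topology Filter

namespace P073.H236

open _root_.P073 _root_.P073.Net _root_.P073.PA691 _root_.P073.H579
open _root_.P073.PR720 (LF)
open Vale.Agent.P073.St (V)
open Vale.Agent.P073.H471 Vale.Agent.P073.H267
open Vale.Agent.P073.H73 (Mesh)
open Vale.Agent.P073.H193 (Edges)
open Vale.Agent.P073.H238 (mesh_sub)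

variable {Ω Λ : Set V} {v : V} {K : BoxCx Λ v} {S₀ : Rad K} {W : Wid K S₀} {B : Boxes W}
  {G : Geo B} {M : Mesh Ω} {E : Edges M} {h h' : ConHomeo Ω Λ} {ω : TBx K → ℝ}
  {m : ℝ} {G₀ : Set (TBx K)} {Act₀ : Set M.κ} {Bx : G₀ → BX 3} {κ : V → V} {g : ConHomeo Ω Λ}

/-- the edges of the active faces are good -/
def GEdG (G : Geo B) (M : Mesh Ω) (E : Edges M) (h' : ConHomeo Ω Λ) (G₀ : Set (TBx K))
    (Act₀ : Set M.κ) (Bx : G₀ → BX 3) (g : ConHomeo Ω Λ) (La : E.ε → ℝ) : Prop :=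
  ∀ ed (b : G₀), (∃ k ∈ Act₀, ActB G M h' G₀ Bx b k ∧ E.seg ed ⊆ M.F k) → ∃ f : V → V,
    EqOn g.toFun f (E.seg ed) ∧ ∃ s1 s2 s3 s4 : V → ℝ, EdgeNum (E.a ed) (E.b ed) h'.toFun
      (kQ (Bx b)) (LQ (Bx b)) (loQ (Bx b)) (hiQ (Bx b)) (omQ (Bx b)) (La ed) f s1 s2 s3 s4

/-- the active faces are good -/
def GFdG (G : Geo B) (M : Mesh Ω) (E : Edges M) (h' : ConHomeo Ω Λ) (G₀ : Set (TBx K))
    (Act₀ : Set M.κ) (Bx : G₀ → BX 3) (g : ConHomeo Ω Λ) (O : M.κ → V)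
    (Lf : M.κ → E.ε → ℝ) : Prop :=
  ∀ k ∈ Act₀, ∀ b : G₀, ActB G M h' G₀ Bx b k → ∀ e, E.seg e ⊆ M.F k →
    ∀ x ∈ coneSetAt (O k) (E.seg e), ∀ y ∈ coneSetAt (O k) (E.seg e),
    bandD (LQ (Bx b)) (loQ (Bx b)) (hiQ (Bx b)) (omQ (Bx b)) (g.toFun x) (g.toFun y) ≤
      Lf k e * ‖x - y‖

namespace St2G

variable {Ks : G₀ → Set V} (D : St2G G M E h h' ω G₀ Act₀ Bx Ks κ g) {b : G₀}
  {τ : TG (Bsm G Bx b)} {S : ConHomeo Λ Λ}
include D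

/-- (T6), on the edges -/
theorem elip (hS : IsF τ S) {q io lo hi : ℝ} (Wt : τ.Wt q io lo hi)
    (hm : 13 ≤ m) (hcω : (Bx b).c ≤ ω b.1) (hlo : lo ≤ (Bx b).al + (m - 13) * ω b.1)
    (hhi : (Bx b).be - (m - 13) * ω b.1 ≤ hi) {k : M.κ} (hkA : k ∈ Act₀)
    (hk : InTm m G M h ω b.1 k) {Lam ε : ℝ} {La : E.ε → ℝ}
    (hLam : ∀ x ∈ M.F k, ∀ y ∈ M.F k, ‖g.toFun x - g.toFun y‖ ≤ Lam * ‖x - y‖)
    (hε : io * Lam ≤ ε) (hGE : GEdG G M E h' G₀ Act₀ Bx g La)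
    {ed : E.ε} (hLa : 0 ≤ La ed) (hed : E.seg ed ⊆ M.F k)
    {x y : V} (hx : x ∈ E.seg ed) (hy : y ∈ E.seg ed) :
    |(g.trans S).toFun x b.1.ax - (g.trans S).toFun y b.1.ax| ≤ (q * La ed + ε) * ‖x - y‖ := by
  have h0 := D.ω0 b.1
  have hmω : 0 ≤ (m - 13) * ω b.1 := mul_nonneg (by linarith) h0.le
  refine D.cone hS Wt hm hcω hlo hhi hk hLam hLa hε hed (fun hT => ?_) hx hy
  obtain ⟨f, hf, s1, s2, s3, s4, HE⟩ := hGE ed b ⟨k, hkA, hT, hed⟩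
  intro z hz w hw
  exact bandD_edge (D.prod b) (D.fib b) (E.seg_sub_Ω ed) (D.edge ed) hLa hf HE
    (fun z hz => D.fullB (D.inT_g hm hcω hk (hed hz) (mem_closedBall_self hmω))) hz hw

/-- (T9) -/
theorem edge' (hS : IsF τ S) {q io lo hi : ℝ} (Wt : τ.Wt q io lo hi)
    {k : M.κ} (hkA : k ∈ Act₀) {ed : E.ε} (hed : E.seg ed ⊆ M.F k) {Lam ε : ℝ} {La : E.ε → ℝ}
    (hLam : ∀ x ∈ M.F k, ∀ y ∈ M.F k, ‖g.toFun x - g.toFun y‖ ≤ Lam * ‖x - y‖)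
    (hε : (∃ x ∈ M.F k, h.toFun x ∈ G.TB false b.1) → io * Lam ≤ ε)
    (hGE : GEdG G M E h' G₀ Act₀ Bx g La)
    {s : ℝ} (hs : s ∈ Icc (0:ℝ) 1)
    (hT : (g.trans S).toFun (AffineMap.lineMap (E.a ed) (E.b ed) s) ∈ G.TB true b.1)
    (hsl : NoSl τ.sl ((g.trans S).toFun (AffineMap.lineMap (E.a ed) (E.b ed) s) b.1.ax)) :
    ∃ (t1 t2 s2 s3 : ℝ) (ψ : ℝ → ℝ), t1 < t2 ∧ (∃ p ∈ τ.sl, p.2 = t1) ∧
      (∃ p ∈ τ.sl, p.1 = t2) ∧
      (∀ r ∈ Icc t1 t2, NoSl τ.sl r) ∧ 0 < s2 ∧ s2 < s3 ∧ s3 < 1 ∧ s ∈ Icc s2 s3 ∧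
      (∀ s' ∈ Icc s2 s3, (g.trans S).toFun (AffineMap.lineMap (E.a ed) (E.b ed) s') =
        Function.update ((g.trans S).toFun (AffineMap.lineMap (E.a ed) (E.b ed) s)) b.1.ax
          (ψ s')) ∧
      ContinuousOn ψ (Icc s2 s3) ∧ InjOn ψ (Icc s2 s3) ∧ ψ '' Icc s2 s3 = Icc t1 t2 ∧
      ∀ s' ∈ Icc s2 s3, ∀ s'' ∈ Icc s2 s3,
        |ψ s' - ψ s''| ≤ (q * La ed + ε) * ‖E.b ed - E.a ed‖ * |s' - s''| := by
  have hγ : (AffineMap.lineMap (E.a ed) (E.b ed) s : V) ∈ E.seg ed := lineMap_mem hs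
  obtain ⟨_, _, _, h1, x₁, hx₁, h2⟩ := D.level hS (E.seg_sub_Ω ed) (D.edge ed)
    (mem_image_of_mem _ hγ) hT hsl
  have hact := D.act hS (D.edge ed) hed (mem_image_of_mem _ hγ) hT hsl
  -- the face is in the reach of the box
  have htouch : ∃ x ∈ M.F k, h.toFun x ∈ G.TB false b.1 :=
    ⟨x₁, hed hx₁, D.subT b (D.rl.mem b x₁ (E.seg_sub_Ω ed hx₁) (by
      rw [h2]; exact D.sub b (D.mem_K h1)))⟩
  obtain ⟨f, hf, s1, s2, s3, s4, HE⟩ := hGE ed b ⟨k, hkA, hact, hed⟩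
  obtain ⟨i, hi, hbi⟩ := τ.bd_of_noSl
    (t := (g.trans S).toFun (AffineMap.lineMap (E.a ed) (E.b ed) s) b.1.ax)
    (by rw [D.als, D.bes]; exact ⟨hT.1 _, hT.2 _⟩) hsl
  obtain ⟨x, hsx, HV⟩ := exists_vertG (D.prod b) (D.fib b) hS Wt
    (E.seg_sub_Ω ed) (D.edge ed) (fun z hz w hw => hLam z (hed hz) w (hed hw)) hf HE hi hs
    (D.fullB hT) (by rw [D.js]; exact hbi)
  obtain ⟨hp, hq⟩ := τ.bd_ends hi
  refine ⟨_, _, s2 x, s3 x, _, τ.T_lt hi, hp, hq, fun r hr => τ.noSl_bd hi hr, HV.pos, HV.lt,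
    HV.lt1, hsx, fun s' hs' => ?_, HV.cont, HV.inj, HV.img, fun s' hs' s'' hs'' => ?_⟩
  · have h1 := HV.eq s' hs'
    have h2 := HV.eq s hsx
    rw [D.js] at h1 h2 ⊢
    generalize (g.trans S).toFun (AffineMap.lineMap (E.a ed) (E.b ed) s') b.1.ax = r at h1
    rw [h2, Function.update_idem]
    exact h1
  · refine (HV.lip s' hs' s'' hs'').trans ?_
    have := hε htouch
    gcongr

/-- **[T3OUT-G]** -/
theorem exists_t3outG (hm : 13 ≤ m) (hcω : ∀ b : G₀, (Bx b).c ≤ ω b.1)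
    (hW : ∀ k, (∀ x ∈ M.F k, ∀ b ∈ G₀, h.toFun x ∉ G.TB false b) →
      EqOn g.toFun h'.toFun (M.F k))
    {O : M.κ → V} (hO : ∀ k, O k ∈ M.F k) {La : E.ε → ℝ} {Lf : M.κ → E.ε → ℝ}
    (hLa : ∀ e, 0 ≤ La e) (hLf : ∀ k e, 0 ≤ Lf k e)
    (hGE : GEdG G M E h' G₀ Act₀ Bx g La) (hGF : GFdG G M E h' G₀ Act₀ Bx g O Lf) :
    ∃ Lam1 : M.κ → ℝ, (∀ k, 0 ≤ Lam1 k) ∧
      (∀ k, ∀ x ∈ M.F k, ∀ y ∈ M.F k, ‖g.toFun x - g.toFun y‖ ≤ Lam1 k * ‖x - y‖) ∧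
      ∀ (ε : M.κ → ℝ) (εe : E.ε → ℝ), (∀ k, 0 < ε k) → (∀ e, 0 < εe e) →
        ∃ io₀ : G₀ → ℝ, (∀ b, 0 < io₀ b) ∧
          ∀ (q : ℝ) (io lo hi r : G₀ → ℝ) (τ : ∀ b, TG (Bsm G Bx b)) (S : ConHomeo Λ Λ), 0 ≤ q →
            (∀ b, io b ≤ io₀ b) → (∀ b, (τ b).Wt q (io b) (lo b) (hi b)) →
            (∀ b, lo b ≤ (Bx b).al + (m - 13) * ω b.1) →
            (∀ b, (Bx b).be - (m - 13) * ω b.1 ≤ hi b) → (∀ b, IsF (τ b) S) →
            Mv Ks r S.toFun → (∀ b, 12 * ω b.1 ≤ r b) →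
            (∀ b : G₀, ∀ y ∈ G.TB false b.1, ∀ p, y ∈ K.cube p → 16 * r b ≤ G.om p) →
            (∀ k, (∃ x ∈ M.F k, ∃ b ∈ G₀, h.toFun x ∈ G.TB false b) →
              ∀ x ∈ M.F k, ∀ x' ∈ M.F k, ∀ p p', h.toFun x ∈ K.cube p →
              h.toFun x' ∈ K.cube p' →
              4 * ‖h.toFun x - h.toFun x'‖ ≤ G.om p ∧ G.om p' ≤ 4 * G.om p) →
            T3OutG G M E h (g.trans S) ω m G₀ Act₀ O (fun e => q * La e + εe e)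
              (fun k e => q * Lf k e + ε k) Lam1 (fun b => (τ b).sl) := by
  choose Lam1 hLam0 hLam using fun k => exists_lip_compact D.hΩ g.conical g.cont
    (face_compact M k) (mesh_sub M k)
  refine ⟨Lam1, fun k => (hLam0 k).le, hLam, fun ε εe hε hεe => ?_⟩
  -- finitely many faces at each box
  have hfin : ∀ b : G₀, {k | ∃ x ∈ M.F k, h.toFun x ∈ G.TB false b.1}.Finite := by
    intro b
    obtain ⟨hc', hcΩ, hcm⟩ := Vale.Agent.P073.H238.cpt_preimage h (Q := G.TB false b.1)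
      isCompact_Icc (Geo.TB_sub b.1)
    refine (M.ffin _ hcΩ hc').subset ?_
    rintro k ⟨x, hx, hxb⟩
    exact ⟨x, hx, hcm x (mesh_sub M k hx) hxb⟩
  -- the smallest of the numbers `ε k`, `εe e`
  have hmin : ∀ k, ∃ t : ℝ, 0 < t ∧ t ≤ ε k ∧ ∀ e, E.seg e ⊆ M.F k → t ≤ εe e := by
    intro k
    obtain ⟨e', h1, h2, h3⟩ := exists_small (ι := Unit) (R := fun _ e => E.seg e ⊆ M.F k)
      (fun _ => E.fin_face k) (q := fun _ e => εe e) (fun _ e => hεe e) (e₀ := fun _ => ε k)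
      (fun _ => hε k)
    exact ⟨e' (), h1 (), h2 (), fun e he => h3 () e he⟩
  choose εm hεm0 hεm1 hεm2 using hmin
  obtain ⟨io₀, hio0, -, hioq⟩ := exists_small
    (R := fun (b : G₀) k => ∃ x ∈ M.F k, h.toFun x ∈ G.TB false b.1)
    hfin (q := fun _ k => εm k / Lam1 k) (fun _ k => div_pos (hεm0 k) (hLam0 k))
    (e₀ := fun _ => 1) (fun _ => one_pos)
  refine ⟨io₀, hio0, fun q io lo hi r τ S hq hio hWt hlo hhi hS hSm hr hom hcmp => ?_⟩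
  have hek : ∀ k (b : G₀), (∃ x ∈ M.F k, h.toFun x ∈ G.TB false b.1) →
      io b * Lam1 k ≤ εm k := by
    intro k b hk
    have h2 := (hio b).trans (hioq b k hk)
    rwa [le_div_iff₀ (hLam0 k)] at h2
  have hek' : ∀ k (b : G₀), InTm m G M h ω b.1 k → io b * Lam1 k ≤ εm k := by
    intro k b hk
    refine hek k b ⟨O k, hO k, Geo.TB_true_subset b.1 (hk _ (hO k) (mem_closedBall_self ?_))⟩
    have := D.ω0 b.1
    positivity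
  have hc' : ∀ b : G₀, (Bx b).c ≤ r b := fun b => by
    have := D.ω0 b.1
    linarith [hcω b, hr b]
  have hoff : ∀ k, (∀ x ∈ M.F k, ∀ b ∈ G₀, h.toFun x ∉ G.TB false b) →
      EqOn (g.trans S).toFun h.toFun (M.F k) := fun k hno =>
    D.off hSm (mesh_sub M k) (fun _ => hW k hno) hno
  refine ⟨fun b => (τ b).sl_le, fun b => ?_, fun k x hx p hp => by
      by_cases hk : ∃ x ∈ M.F k, ∃ b ∈ G₀, h.toFun x ∈ G.TB false b
      · exact D.near hr hc' hSm hom (mesh_sub M k) (D.face k) (hcmp k hk) hx hp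
      · rw [hoff k (fun x hx b hb hT => hk ⟨x, hx, b, hb, hT⟩) hx, sub_self, norm_zero]
        exact (G.om_pos p).le,
    fun k hno => D.off hSm (mesh_sub M k) (fun _ => hW k hno) hno, ?_, fun x hx b hb => D.vert' (hS b) hx hb,
    fun k b hk x hx => D.deep (hS b) hm (hcω b) hk hx, ?_, ?_, ?_, fun k hk b t ht σ' hσ' hσk hl => D.circ (hS b) hk ht hσ' hσk hl, ?_⟩
  · rw [← D.als, ← D.bes]
    exact ⟨(τ b).end_al, (τ b).end_be⟩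
  · rintro X (⟨k, rfl⟩ | ⟨ed, rfl⟩ | ⟨i, rfl⟩) b y hy hyT t ht hgap
    · exact D.vi (hS b) (mesh_sub M k) (D.face k) hy hyT ht hgap
    · exact D.vi (hS b) (E.seg_sub_Ω ed) (D.edge ed) hy hyT ht hgap
    · exact D.vi (hS b) (M.sub i) (D.cell i) hy hyT ht hgap
  · intro k hkA b hk ed hed x hx y hy
    exact D.cone (hS b) (hWt b) hm (hcω b) (hlo b) (hhi b) hk (hLam k) (hLf k ed)
      ((hek' k b hk).trans (hεm1 k)) (cone_sub (hO k) hed) (fun hT => hGF k hkA b hT ed hed) hx hy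
  · intro k hkA b hk ed hed x hx y hy
    exact D.elip (hS b) (hWt b) hm (hcω b) (hlo b) (hhi b) hkA hk (hLam k)
      ((hek' k b hk).trans (hεm2 k ed hed)) hGE (hLa ed) hed hx hy
  · intro k b hk j hj x hx y hy
    exact D.lip (hS b) hm (hcω b) hk hj (hLam k) hx hy
  · rintro ed ⟨k, hkA, hed⟩ b s hs hT hsl
    exact D.edge' (hS b) (hWt b) hkA hed (hLam k)
      (fun ht => (hek k b ht).trans (hεm2 k ed hed)) hGE hs hT hsl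

end St2G

end P073.H236
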