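import Vale.Agent.P073.H236.OutA

/-!
# P073, H236, ROUND T, STAGE 3: from (INS) to the output, part B (the clauses)
-/

open Set Metric Topology Filter

namespace P073.H236

open _root_.P073 _root_.P073.Net _root_.P073.PA691 _root_.P073.H579
open _root_.P073.PR720 (LF)
open Vale.Agent.P073.St (V)
open Vale.Agent.P073.H471 Vale.Agent.P073.H267
open Vale.Agent.P073.H73 (Mesh)
open Vale.Agent.P073.H193 (Edges)
open Vale.Agent.P073.H238 (oT TMid TMid_sub TStage1 TAct skel mesh_sub)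
open Vale.Agent.P073.H669 (TLv)

variable {Ω Λ : Set V} {v : V} {K : BoxCx Λ v} {S₀ : Rad K} {W : Wid K S₀} {B : Boxes W}
  {G : Geo B} {M : Mesh Ω} {E : Edges M} {h h' : ConHomeo Ω Λ} {ω : TBx K → ℝ}
  {T : TBx K → Finset (ℝ × ℝ)} {η : ℝ} {τ : Type*} {A : τ → Set V} {C : Set ℝ} {εE : E.ε → ℝ}
  {δ : TBx K → ℝ}

theorem circle_ne {X : Type*} [NormedAddCommGroup X] [NormedSpace ℝ X] {σ : Set X}
    (h : IsCircle σ) : σ.Nonempty := by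
  obtain ⟨φ⟩ := h
  rw [← φ.image_eq]
  exact (NormedSpace.sphere_nonempty.2 zero_le_one).image _

/-- the data after STAGE 2 -/
structure St2 (L : TLv G E h ω T η A C εE δ) {c : TBx K → ℝ} (hc0 : ∀ b, 0 < c b)
    (hc : ∀ b, c b ≤ δ b / 8) (Pr : Set M.ι) (h' : ConHomeo Ω Λ) (κ : V → V)
    (g : ConHomeo Ω Λ) : Prop where
  hΩ : IsOpen Ω
  hΛ : IsOpen Λ
  osc : ∀ b k, ∀ x ∈ M.F k, ∀ y ∈ M.F k, h.toFun x ∈ G.TB false b →
    dist (h.toFun x) (h.toFun y) ≤ ω b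
  O : TStage1 G M h h' Pr L.lev ω
  isQ : H345.IsQ (L.bxQ c hc0 hc) κ
  face : ∀ k, g.toFun '' M.F k = Pre κ Λ h' (M.F k)
  edge : ∀ e, g.toFun '' E.seg e = Pre κ Λ h' (E.seg e)
  cell : ∀ i, g.toFun '' M.Q i = Pre κ Λ h' (M.Q i)
  vert : ∀ x ∈ E.verts, κ (g.toFun x) = h'.toFun x

variable {L : TLv G E h ω T η A C εE δ} {c : TBx K → ℝ} {hc0 : ∀ b, 0 < c b}
  {hc : ∀ b, c b ≤ δ b / 8} {Pr : Set M.ι} {κ : V → V} {g : ConHomeo Ω Λ} {S : ConHomeo Λ Λ}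
  {F : BFam 3 (TBx K) Λ}

namespace St2

theorem fam (D : St2 L hc0 hc Pr h' κ g) : H345.Fam Λ (L.bxQ c hc0 hc) := L.fam345 hc0 hc D.hΛ

theorem flat (D : St2 L hc0 hc Pr h' κ g) (hF : F.B = L.bxQ c hc0 hc) : FlatK F κ :=
  flatK_of_isQ (hF ▸ D.isQ)

/-- (T4) -/
theorem vi (D : St2 L hc0 hc Pr h' κ g) (hF : F.B = L.bxQ c hc0 hc) (hS : F.IsS S) {X : Set V}
    (hXΩ : X ⊆ Ω) (hX : g.toFun '' X = Pre κ Λ h' X) {b : TBx K} {y : V}
    (hy : y ∈ (g.trans S).toFun '' X) (hyT : y ∈ G.TB true b) {t : ℝ}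
    (ht : t ∈ Icc (G.tlo true b b.ax) (G.thi true b b.ax))
    (hgap : ∀ r ∈ uIcc (y b.ax) t, NoSl (F.sl b) r) :
    Function.update y b.ax t ∈ (g.trans S).toFun '' X := by
  have e1 : F.B b = L.bxQ c hc0 hc b := congrFun hF b
  have h1 := fullK_of_TB L hc0 hc hF hyT
  have h2 := image_update_of_sl (D.flat hF) hS hX hXΩ h1 (t := t) (by rw [e1]; exact ht)
    (by rw [e1]; exact hgap) hy
  rw [e1] at h2
  exact h2

/-- a band point comes from a level point -/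
theorem level (D : St2 L hc0 hc Pr h' κ g) (hF : F.B = L.bxQ c hc0 hc) (hS : F.IsS S) {X : Set V}
    (hXΩ : X ⊆ Ω) (hX : g.toFun '' X = Pre κ Λ h' X) {b : TBx K} {y : V}
    (hy : y ∈ (g.trans S).toFun '' X) (hyT : y ∈ G.TB true b) (hsl : NoSl (F.sl b) (y b.ax)) :
    ∃ k < L.N b, y b.ax ∈ F.bd b k ∧ Function.update y b.ax (L.a b k) ∈ G.TB true b ∧
      ∃ x ∈ X, h'.toFun x = Function.update y b.ax (L.a b k) := by
  have e1 : F.B b = L.bxQ c hc0 hc b := congrFun hF b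
  have h1 := fullK_of_TB L hc0 hc hF hyT
  obtain ⟨k, hk, hyk⟩ := BFam.bd_of_noSl (F := F) (b := b) (t := y b.ax)
    (by rw [e1]; exact ⟨hyT.1 _, hyT.2 _⟩) hsl
  have hk' : k < L.N b := by rw [e1] at hk; exact hk
  have h2 := (mem_image_iff (D.flat hF) hS hX hXΩ h1 hk (by rw [e1]; exact hyk)).1 hy
  rw [e1] at h2
  obtain ⟨x, hx, hxy⟩ := h2
  have h0 := L.ω0 b
  have h3 := L.mem_win hk'
  refine ⟨k, hk', hyk, update_TB hyT (by linarith) (by linarith), x, hx, hxy⟩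

/-- an edge or a face with a band point is active -/
theorem tact (D : St2 L hc0 hc Pr h' κ g) (hF : F.B = L.bxQ c hc0 hc) (hS : F.IsS S) {X : Set V}
    (hX : g.toFun '' X = Pre κ Λ h' X) {k : M.κ} (hXk : X ⊆ M.F k) {b : TBx K} {y : V}
    (hy : y ∈ (g.trans S).toFun '' X) (hyT : y ∈ G.TB true b) (hsl : NoSl (F.sl b) (y b.ax)) :
    TAct G M h' L.lev b k := by
  obtain ⟨m, hm, -, h1, x, hx, hxy⟩ := D.level hF hS (hXk.trans (mesh_sub M k)) hX hy hyT hsl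
  refine ⟨x, hXk hx, by rw [hxy]; exact h1, ?_⟩
  rw [hxy, Function.update_self]
  exact ⟨m, hm, rfl⟩

/-- (T4), vertices -/
theorem vert' (D : St2 L hc0 hc Pr h' κ g) (hF : F.B = L.bxQ c hc0 hc) (hS : F.IsS S) {x : V}
    (hx : x ∈ E.verts) {b : TBx K} (hT : (g.trans S).toFun x ∈ G.TB true b) :
    ¬ NoSl (F.sl b) ((g.trans S).toFun x b.ax) := by
  intro hsl
  obtain ⟨k, hk⟩ := H345.exists_face_of_vert E hx
  have hxΩ : x ∈ Ω := mesh_sub M k hk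
  have e1 : F.B b = L.bxQ c hc0 hc b := congrFun hF b
  have h1 := fullK_of_TB L hc0 hc hF hT
  have hgΛ : g.toFun x ∈ Λ := g.mapsTo hxΩ
  have hz : F.FullK b (g.toFun x) := (hS.fullK_iff hgΛ).1 h1
  obtain ⟨m, hm, hbm⟩ := BFam.bd_of_noSl (F := F) (b := b) (t := (g.trans S).toFun x b.ax)
    (by rw [e1]; exact ⟨hT.1 _, hT.2 _⟩) hsl
  have e2 : (g.trans S).toFun x = Function.update (g.toFun x) (F.B b).j
    (F.σ b (g.toFun x (F.B b).j)) := hS.full hz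
  have e3 : (F.B b).j = b.ax := by rw [e1]; rfl
  have h2 : F.σ b (g.toFun x (F.B b).j) ∈ F.bd b m := by
    rw [e2, ← e3, Function.update_self] at hbm
    exact hbm
  have h3 := (F.σ_mem_bd b hm).1 h2
  have h4 := D.flat hF b _ hz m hm h3
  rw [D.vert x hx] at h4
  have hreg : H345.RegB M E h' (L.bxQ c hc0 hc) := L.regB hc0 hc D.O D.osc
  have h5 : F.FullK b (h'.toFun x) := by rw [h4]; exact hz.at_level hm
  rw [← hF] at hreg
  exact hreg.vert hx h5.mem hm (by rw [h4, Function.update_self])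

/-- (T8) -/
theorem circ (D : St2 L hc0 hc Pr h' κ g) (hF : F.B = L.bxQ c hc0 hc) (hS : F.IsS S) {k : M.κ}
    {b : TBx K} {t : ℝ} (ht : NoSl (F.sl b) t) {σ : Set V} (hσ : IsCircle σ) (hσk : σ ⊆ M.F k)
    (hl : ∀ x ∈ σ, (g.trans S).toFun x ∈ G.TB true b ∧ (g.trans S).toFun x b.ax = t) : False := by
  have e1 : F.B b = L.bxQ c hc0 hc b := congrFun hF b
  have e3 : (F.B b).j = b.ax := by rw [e1]; rfl
  obtain ⟨x₀, hx₀⟩ := circle_ne hσ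
  obtain ⟨h1, h2⟩ := hl x₀ hx₀
  have htI : t ∈ Icc (F.B b).al (F.B b).be := by
    rw [e1, ← h2]; exact ⟨h1.1 _, h1.2 _⟩
  obtain ⟨m, hm, hbm⟩ := BFam.bd_of_noSl (F := F) (b := b) htI ht
  have hm' : m < L.N b := by rw [e1] at hm; exact hm
  obtain ⟨σ', hσ', hσk', hpt⟩ := exists_circle' (D.flat hF) hS (D.face k) (mesh_sub M k) hm hbm hσ
    hσk fun x hx => ⟨by rw [e3]; exact (hl x hx).2, fullK_of_TB L hc0 hc hF (hl x hx).1⟩
  rw [e1] at hpt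
  have h0 := L.ω0 b
  have h3 := L.mem_win hm'
  have hall : ∀ x' ∈ σ', h'.toFun x' ∈ G.TB true b ∧ h'.toFun x' b.ax = L.a b m := by
    intro x' hx'
    obtain ⟨x, hx, hxx⟩ := hpt x' hx'
    have hxx' : h'.toFun x' = Function.update ((g.trans S).toFun x) b.ax (L.a b m) := hxx
    rw [hxx', Function.update_self]
    exact ⟨update_TB (hl x hx).1 (by linarith) (by linarith), rfl⟩
  obtain ⟨x₁, hx₁⟩ := circle_ne hσ'
  have hact : TAct G M h' L.lev b k :=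
    ⟨x₁, hσk' hx₁, (hall x₁ hx₁).1, by rw [(hall x₁ hx₁).2]; exact ⟨m, hm', rfl⟩⟩
  exact D.O.noCircV L.lev_fin (D.O.act b k hact) hσ' hσk' fun x hx => by
    rw [(hall x hx).2]; exact ⟨m, hm', rfl⟩

/-- (T9) -/
theorem edge' (D : St2 L hc0 hc Pr h' κ g) (hF : F.B = L.bxQ c hc0 hc) (hS : F.IsS S) {La : ℝ}
    {ed : E.ε} {b : TBx K}
    (hGE : (∃ k, TAct G M h' L.lev b k ∧ E.seg ed ⊆ M.F k) → ∃ f : V → V,
      EqOn g.toFun f (E.seg ed) ∧ ∃ s1 s2 s3 s4 : V → ℝ, EdgeNum (E.a ed) (E.b ed) h'.toFun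
        (kQ (L.bxQ c hc0 hc b)) (LQ (L.bxQ c hc0 hc b)) (loQ (L.bxQ c hc0 hc b))
        (hiQ (L.bxQ c hc0 hc b)) (omQ (L.bxQ c hc0 hc b)) La f s1 s2 s3 s4)
    {s : ℝ} (hs : s ∈ Icc (0:ℝ) 1)
    (hT : (g.trans S).toFun (AffineMap.lineMap (E.a ed) (E.b ed) s) ∈ G.TB true b)
    (hsl : NoSl (F.sl b) ((g.trans S).toFun (AffineMap.lineMap (E.a ed) (E.b ed) s) b.ax)) :
    ∃ (t1 t2 s2 s3 : ℝ) (ψ : ℝ → ℝ), t1 < t2 ∧ (∃ p ∈ F.sl b, p.2 = t1) ∧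
      (∃ p ∈ F.sl b, p.1 = t2) ∧
      (∀ r ∈ Icc t1 t2, NoSl (F.sl b) r) ∧ 0 < s2 ∧ s2 < s3 ∧ s3 < 1 ∧ s ∈ Icc s2 s3 ∧
      (∀ s' ∈ Icc s2 s3, (g.trans S).toFun (AffineMap.lineMap (E.a ed) (E.b ed) s') =
        Function.update ((g.trans S).toFun (AffineMap.lineMap (E.a ed) (E.b ed) s)) b.ax
          (ψ s')) ∧
      ContinuousOn ψ (Icc s2 s3) ∧ InjOn ψ (Icc s2 s3) ∧ ψ '' Icc s2 s3 = Icc t1 t2 ∧
      ∀ s' ∈ Icc s2 s3, ∀ s'' ∈ Icc s2 s3,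
        |ψ s' - ψ s''| ≤ La * ‖E.b ed - E.a ed‖ * |s' - s''| := by
  have e1 : F.B b = L.bxQ c hc0 hc b := congrFun hF b
  have e3 : (F.B b).j = b.ax := by rw [e1]; rfl
  have hγ : (AffineMap.lineMap (E.a ed) (E.b ed) s : V) ∈ E.seg ed := lineMap_mem hs
  obtain ⟨k, hk⟩ := E.own ed
  have hact := D.tact hF hS (D.edge ed) hk (mem_image_of_mem _ hγ) hT hsl
  obtain ⟨f, hf, s1, s2, s3, s4, HE⟩ := hGE ⟨k, hact, hk⟩
  obtain ⟨m, hm, hbm⟩ := BFam.bd_of_noSl (F := F) (b := b)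
    (t := (g.trans S).toFun (AffineMap.lineMap (E.a ed) (E.b ed) s) b.ax)
    (by rw [e1]; exact ⟨hT.1 _, hT.2 _⟩) hsl
  rw [← e1] at HE
  obtain ⟨x, hsx, HV⟩ := exists_vertOn (F := F) (b := b) (k := m) (hF ▸ D.isQ) (hF ▸ D.fam) hS
    (E.seg_sub_Ω ed) (D.edge ed) hf HE hm hs (fullK_of_TB L hc0 hc hF hT)
    (by rw [e3]; exact hbm)
  have hlt : (F.B b).al + m * F.om b + F.e b < (F.B b).al + (m + 1) * F.om b - F.e b := by
    have := (F.tgt b).eo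
    have := F.he b
    linarith
  obtain ⟨hp, hq⟩ := F.bd_ends b hm
  refine ⟨_, _, s2 x, s3 x, _, hlt, hp, hq, fun r hr => F.noSl_bd b (k := m) hr, HV.pos, HV.lt,
    HV.lt1, hsx, fun s' hs' => ?_, HV.cont, HV.inj, HV.img.trans (F.bd_eq b m), HV.lip⟩
  have h1 := HV.eq s' hs'
  have h2 := HV.eq s hsx
  rw [e3] at h1 h2 ⊢
  generalize (g.trans S).toFun (AffineMap.lineMap (E.a ed) (E.b ed) s') b.ax = r at h1
  rw [h2, Function.update_idem]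
  exact h1

end St2

end P073.H236
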