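import Vale.Agent.P073.H236.OutC
import Vale.Agent.P073.H238.T12
import Vale.Agent.P073.H267.Num

/-!
# P073, H236, **ROUND T** for the data of `K2C`: levels (H669), STAGE 1 and 2 (H238, H345, H579),
STAGE 3
-/

open Set Metric Topology Filter
open scoped ENNReal

namespace P073.H236

open _root_.P073 _root_.P073.Net _root_.P073.PA691 _root_.P073.H579
open _root_.P073.PR720 (LF)
open Vale.Agent.P073.St (V)
open Vale.Agent.P073.H471 Vale.Agent.P073.H267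
open Vale.Agent.P073.H73 (Mesh)
open Vale.Agent.P073.H193 (Edges Cyc)
open Vale.Agent.P073.H155 (vv)
open Vale.Agent.P073.H238 (oT TMid TMid_sub TStage1 TAct skel mesh_sub)
open Vale.Agent.P073.H669 (TLv)
open _root_.P073.Croft (onS)

variable {η₀ : ℝ} {Ω Λ : Set V} {w : V} {ρ : V → ℝ} {M : Mesh Ω} {h : ConHomeo Ω Λ} {P : Set M.ι}
  {K : BoxCx Λ w}

/-- **ROUND T, with all intermediate data.** `h'` after STEP S, `κ` the insertion map, `g` the lift,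
`S` the staircases. -/
theorem roundT_pre (D : KIn η₀ w ρ M h P) (C : Cells ρ w K) (E : Edges M) (Cy : ∀ k, Cyc E k)
    {O : M.κ → V} {r0 R : M.κ → ℝ} (hO : ∀ k, O k ∈ M.F k)
    (hSt : ∀ k, H155.Star ((Cy k).n + 1) (vv (Cy k)) (O k) (r0 k) (R k) (M.F k))
    (hR : ∀ k, 0 ≤ R k) {η : ℝ} (hη : 0 < η) (hη4 : η ≤ 1 / 4) {dmax : TBx K → ℝ}
    (hd : ∀ b, 0 < dmax b) {Cs : Set ℝ} (hCs : Cs.Countable) {εE : E.ε → ℝ}
    (hεE : ∀ e, 0 < εE e) :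
    ∃ (δ : TBx K → ℝ) (L : TLv (D.G C) E h (ωT η₀ C) (fun _ => ∅) η (fun _ : Empty => (∅ : Set V))
        Cs εE δ) (h' : ConHomeo Ω Λ),
      (∀ b, δ b ≤ dmax b) ∧ TStage1 (D.G C) M h h' P L.lev (ωT η₀ C) ∧
      (∀ e, ENNReal.ofReal (L.We h' e) ≤ 8 * len (onS h.toFun (E.a e) (E.b e)) (Icc 0 1) +
        2 * ENNReal.ofReal (εE e)) ∧
      ∃ c₀ : TBx K → ℝ, (∀ b, 0 < c₀ b) ∧ ∀ (c : TBx K → ℝ) (hc0 : ∀ b, 0 < c b)
        (hc : ∀ b, c b ≤ δ b / 8), (∀ b, c b ≤ c₀ b) → ∃ (κ : V → V) (g : ConHomeo Ω Λ),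
        InsMap κ Λ Λ ∧ St2 L hc0 hc P h' κ g ∧
        H345.Out2 M E h' κ (actF (L.Ac h')) (GEd E h' (L.bxQ c hc0 hc) (L.Ac h') (L.We h'))
          (GFd E (L.bxQ c hc0 hc) (L.Ac h') (L.We h') O r0 R) g ∧
        (∀ k, (∀ b, Disjoint (L.bxQ c hc0 hc b).K (h'.toFun '' M.F k)) →
          EqOn g.toFun h'.toFun (M.F k)) ∧
        ∃ (Lam1 : M.κ → ℝ) (hdsp : ∀ b, dsp ((fun _ => ∅ : TBx K → Finset (ℝ × ℝ)) b) (δ b) + δ b +
            60 * ωT η₀ C b ≤ 62 * ωT η₀ C b), (∀ k, 0 ≤ Lam1 k) ∧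
          (∀ k, ∀ x ∈ M.F k, ∀ y ∈ M.F k, ‖g.toFun x - g.toFun y‖ ≤ Lam1 k * ‖x - y‖) ∧
          ∀ (σ e₁ : TBx K → ℝ) (ε : M.κ → ℝ) (εe : E.ε → ℝ), (∀ b, 0 < σ b) → (∀ b, 0 < e₁ b) →
            (∀ k, 0 < ε k) → (∀ e, 0 < εe e) →
            ∃ (e : TBx K → ℝ) (he : ∀ b, 0 < e b) (he8 : ∀ b, e b ≤ δ b / 8) (S : ConHomeo Λ Λ),
              (∀ b, e b ≤ e₁ b) ∧
              (L.bfam hc0 hc e (fun b => 62 * ωT η₀ C b) he he8 hdsp).IsS S ∧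
              (∀ b, ∑ p ∈ (L.bfam hc0 hc e (fun b => 62 * ωT η₀ C b) he he8 hdsp).sl b,
                (p.2 - p.1) ≤ σ b) ∧
              T3Out (D.G C) M E h (g.trans S) (ωT η₀ C) O (fun e => laE E (L.We h') e + εe e)
                (fun k e => 156 * (1 + R k / r0 k) * (laE E (L.We h') e +
                  (∑ e ∈ (E.fin_face k).toFinset, L.We h' e) / r0 k) + ε k) Lam1
                (L.bfam hc0 hc e (fun b => 62 * ωT η₀ C b) he he8 hdsp).sl := by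
  classical
  have hΩ : IsOpen Ω := D.bΩ.1
  have hΛ : IsOpen Λ := D.bΛ.1
  have hω0 : ∀ b, 0 < ωT η₀ C b := D.ωT_pos C
  have hωo : ∀ b, ωT η₀ C b ≤ oT (D.G C) b := D.ωT_le C
  have hlen : ∀ b, 409600 * ωT η₀ C b < (D.G C).thi true b b.ax - (D.G C).tlo true b b.ax := by
    intro b
    have h1 := Vale.Agent.P073.H669.win (D.G C) b
    have h2 := D.ωT_oT C b
    linarith
  obtain ⟨δ, hδ, ⟨L⟩⟩ := Vale.Agent.P073.H669.exists_tlv hΩ (D.G C) E h hω0 hωo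
    (A := fun _ : Empty => (∅ : Set V)) (fun t => t.elim)
    (fun x hx => ⟨univ, univ_mem, (Set.toFinite _)⟩) hεE hCs hη hη4
    (dmax := fun b => min (dmax b) (ωT η₀ C b)) (fun b => lt_min (hd b) (hω0 b))
    (fun _ => ∅) (fun b p hp => absurd hp (Finset.notMem_empty p)) (fun b => by
      rw [Finset.sum_empty]
      linarith [hlen b, hω0 b])
  have hδω : ∀ b, δ b ≤ ωT η₀ C b := fun b => (hδ b).trans (min_le_right _ _)
  have hdsp0 : ∀ b : TBx K, dsp ((fun _ => ∅ : TBx K → Finset (ℝ × ℝ)) b) (δ b) = δ b := by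
    intro b
    simp [dsp]
  have hdsp : ∀ b, dsp ((fun _ => ∅ : TBx K → Finset (ℝ × ℝ)) b) (δ b) + δ b +
      60 * ωT η₀ C b ≤ 62 * ωT η₀ C b := by
    intro b
    rw [hdsp0]
    linarith [hδω b]
  have hosc : ∀ b k, ∀ x ∈ M.F k, ∀ y ∈ M.F k, h.toFun x ∈ (D.G C).TB false b →
      dist (h.toFun x) (h.toFun y) ≤ ωT η₀ C b := D.osc_T C
  obtain ⟨h', OS, c₀, hc₀, H⟩ := L.exists_t12 hΩ hΛ (D.tprot C) hosc Cy hSt
  have hr0 : ∀ k, 0 < r0 k := fun k => (hSt k).rho0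
  have hWe0 : ∀ e, 0 ≤ L.We h' e := L.We_nonneg h'
  have hLa0 : ∀ e, 0 ≤ laE E (L.We h') e := fun e =>
    div_nonneg (mul_nonneg (by norm_num) (hWe0 e)) (norm_nonneg _)
  refine ⟨δ, L, h', fun b => (hδ b).trans (min_le_left _ _), OS, fun e => ?_, c₀, hc₀,
    fun c hc0 hc hcc => ?_⟩
  · have h1 := L.We_le OS (μ := 1 / 2) (by norm_num) (fun b => by
      rw [hdsp0]
      linarith [hlen b, hω0 b, hδω b]) e
    refine h1.trans ?_
    have h2 : ENNReal.ofReal (1 - 1 / 2)⁻¹ = 2 := by norm_num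
    have h3 : ENNReal.ofReal (1 - 2 * η)⁻¹ ≤ 2 := by
      rw [← ENNReal.ofReal_ofNat]
      apply ENNReal.ofReal_le_ofReal
      rw [inv_le_comm₀ (by linarith) (by norm_num)]
      linarith
    rw [h2, mul_add]
    refine add_le_add_left ?_ _
    calc 2 * (ENNReal.ofReal (1 - 2 * η)⁻¹ * (2 * len (onS h.toFun (E.a e) (E.b e)) (Icc 0 1)))
        ≤ 2 * (2 * (2 * len (onS h.toFun (E.a e) (E.b e)) (Icc 0 1))) := by gcongr
      _ = 8 * len (onS h.toFun (E.a e) (E.b e)) (Icc 0 1) := by ring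
  · obtain ⟨κ, hκ, hI, -⟩ := (L.fam345 hc0 hc hΛ).exists_isQ
    obtain ⟨g, hg, hmiss⟩ := H c hc0 hc hcc κ hκ hI
    have hD : St2 L hc0 hc P h' κ g := ⟨hΩ, hΛ, hosc, OS, hκ, hg.img_face, hg.img_edge,
      hg.img_cell, hg.vert⟩
    have hW : ∀ k, (∀ b, Disjoint (L.bxQ c hc0 hc b).K (h'.toFun '' M.F k)) →
        EqOn g.toFun h'.toFun (M.F k) := fun k hk => hmiss k hk
    have hcω : ∀ b, c b ≤ 18 * ωT η₀ C b := fun b => by
      linarith [hc b, hδω b, hω0 b]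
    obtain ⟨Lam1, h1, h2, h3⟩ := exists_t3out hD hW
      (fun b y q hy hq => (D.ωT_om C hy hq).1)
      (fun k x hx x' hx' q q' hq hq' => D.cmp C hx hx' hq hq') hdsp hcω hO
      (La := laE E (L.We h')) (Lf := fun k e => 156 * (1 + R k / r0 k) * (laE E (L.We h') e +
        (∑ e ∈ (E.fin_face k).toFinset, L.We h' e) / r0 k)) hLa0
      (fun k e => by
        have a1 := hr0 k
        have a2 := hR k
        have a3 := hLa0 e
        have a4 : 0 ≤ ∑ e ∈ (E.fin_face k).toFinset, L.We h' e :=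
          Finset.sum_nonneg fun e _ => hWe0 e
        positivity)
      (by
        rintro ed b ⟨k, hk, hek⟩
        obtain ⟨f, hf1, hf2⟩ := hg.edge k ⟨b, hk⟩ ed hek
        exact ⟨f, hf2, hf1 b ⟨k, hk, hek⟩⟩)
      (by
        intro k b hk
        obtain ⟨Φ, hΦ1, hΦ2⟩ := hg.face k ⟨b, hk⟩
        exact ⟨Φ.toFun, hΦ2, (hΦ1 b hk).1⟩)
    exact ⟨κ, g, hI, hD, hg, hW, Lam1, hdsp, h1, h2, h3⟩

end P073.H236
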