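import Vale.Agent.P073.H236.SA1
import Vale.Agent.P073.H581.TileBX

/-!
# P073, H236, **[SALPHA] + [RT-FIX]**, part 2: the staircase `S = T ∘ H₁ ∘ H_α` of ROUND T

`th`: slope `l = 8 c / δ` on the thick flats `[a - δ/8, a + δ/8]` (onto the thin flats
`[a - c, a + c]`), identity off `[a - δ/4, a + δ/4]`. `H_α = th⁻¹` (displacement `δ/8`): full in
`rtK 12`, support `rtK 19`; `H₁ = sm ∘ th` (slopes at most 8, macroscopic displacement): full in
`rtK 50`, support `rtK 60`; `T`: the correction at the mesh coordinates, zone of `H₁`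
(399's factorisation).
-/

open Set Metric Topology Filter

namespace P073.H236

open _root_.P073 _root_.P073.Net _root_.P073.PA691 _root_.P073.H579 _root_.P073.H196
open _root_.P073.PR720 (LF)
open Vale.Agent.P073.St (V)
open Vale.Agent.P073.H471 Vale.Agent.P073.H267 Vale.Agent.P073.H267.Geo
open Vale.Agent.P073.H73 (Mesh)
open Vale.Agent.P073.H193 (Edges)
open Vale.Agent.P073.H669 (TLv)
open Vale.Agent.P073.H581 (TileIff Sat sat_TB tileIff_of_boxes)

variable {Ω Λ : Set V} {v : V} {K : BoxCx Λ v} {S₀ : Rad K} {Wd : Wid K S₀} {B : Boxes Wd}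
  {G : Geo B} {M : Mesh Ω} {E : Edges M} {h h' : ConHomeo Ω Λ} {ω : TBx K → ℝ}
  {T : TBx K → Finset (ℝ × ℝ)} {η : ℝ} {τ : Type*} {A : τ → Set V} {C : Set ℝ} {εE : E.ε → ℝ}
  {δ : TBx K → ℝ} (L : TLv G E h ω T η A C εE δ) {G₀ : Set (TBx K)}

/-- the thick boxes, `c = δ / 8` -/
noncomputable abbrev thk (b : TBx K) : BX 3 :=
  L.bxQ (fun b => δ b / 8) (fun b => by have := L.δ0 b; positivity) (fun _ => le_rfl) b

variable {c : TBx K → ℝ} (hc0 : ∀ b, 0 < c b) (hc : ∀ b, c b ≤ δ b / 8)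
  {e : TBx K → ℝ} (he : ∀ b, 0 < e b) (he2 : ∀ b, 2 * e b < δ b)

/-- the slope of `th` on the thick flats -/
noncomputable abbrev lT (δ c : TBx K → ℝ) (b : TBx K) : ℝ := 8 * c b / δ b

include L hc0 in
theorem lT_pos (b : TBx K) : 0 < lT δ c b := by
  have := L.δ0 b
  have := hc0 b
  unfold lT
  positivity

include L hc in
theorem lT_le (b : TBx K) : lT δ c b ≤ 1 := by
  have := L.δ0 b
  have := hc b
  unfold lT
  rw [div_le_one (by assumption)]
  linarith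

/-- the stair of the thin flats -/
noncomputable abbrev sm1 (c e : TBx K → ℝ) (b : TBx K) : ℝ → ℝ :=
  sm (L.N b) (L.a b) (c b) (G.tlo true b b.ax) (G.thi true b b.ax)
    (G.tlo true b b.ax + 30 * ω b) (δ b) (e b)

noncomputable abbrev smi1 (c e : TBx K → ℝ) (b : TBx K) : ℝ → ℝ :=
  smi (L.N b) (L.a b) (c b) (G.tlo true b b.ax) (G.thi true b b.ax)
    (G.tlo true b b.ax + 30 * ω b) (δ b) (e b)

/-- the map `th` of the thick flats -/
noncomputable abbrev tha (c : TBx K → ℝ) (b : TBx K) : ℝ → ℝ :=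
  th (thk L b).lvs.L (thk L b).c (lT δ c b)

noncomputable abbrev thai (b : TBx K) : ℝ → ℝ :=
  thi (thk L b).lvs (lT_pos L hc0 b) (lT_le L hc b)

theorem l1_tha (b : TBx K) : L1 (G.tlo true b b.ax) (G.thi true b b.ax) (tha L c b)
    (thai L hc0 hc b) := l1_th (thk L b).lvs (lT_pos L hc0 b) (lT_le L hc b)

include hc0 hc in
theorem tha_near (b : TBx K) (t : ℝ) : |tha L c b t - t| ≤ δ b / 8 :=
  abs_th_sub_le (thk L b).lvs.c0.le (thk L b).lvs.sepd (lT_pos L hc0 b).le (lT_le L hc b) t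

theorem thai_near (b : TBx K) (t : ℝ) : |thai L hc0 hc b t - t| ≤ δ b / 8 := by
  have h2 := tha_near L hc0 hc b (thai L hc0 hc b t)
  rw [(l1_tha L hc0 hc b).right] at h2
  rwa [abs_sub_comm]

/-- **the family of `H_α`**: stretching of the flats -/
noncomputable def FA (G₀ : Set (TBx K)) : HFam 3 G₀ Λ :=
  rtFam L 12 7 (by norm_num) (by norm_num) (k := fun b : G₀ => thai L hc0 hc b.1)
    (fun b => (l1_tha L hc0 hc b.1).symm) (fun b => δ b.1 / 8) (fun b => thai_near L hc0 hc b.1)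

/-- **the family of `H₁`** -/
noncomputable def F1 (G₀ : Set (TBx K)) : HFam 3 G₀ Λ :=
  rtFam L 50 10 (by norm_num) (by norm_num)
    (k := fun b : G₀ => sm1 L c e b.1 ∘ tha L c b.1)
    (fun b => (l1_tha L hc0 hc b.1).trans (L.l1' hc0 hc (he b.1) (he2 b.1)))
    (fun b => dsp (T b.1) (δ b.1) + δ b.1 / 8) (fun b t => by
      have h1 := L.disp' hc0 hc (he b.1) (he2 b.1) (tha L c b.1 t)
      have h2 := tha_near L hc0 hc b.1 t
      have h3 := abs_sub_le (sm1 L c e b.1 (tha L c b.1 t)) (tha L c b.1 t) t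
      exact h3.trans (add_le_add h1 h2))

variable {V₀ : G₀ → Finset ℝ}

/-- the numbers of the correction -/
structure FixN (L : TLv G E h ω T η A C εE δ) (V₀ : G₀ → Finset ℝ) (g : G₀ → ℝ) : Prop where
  g0 : ∀ b, 0 < g b
  win : ∀ b : G₀, G.tlo true b.1 b.1.ax + g b ≤ G.thi true b.1 b.1.ax
  mem : ∀ b : G₀, ∀ x ∈ V₀ b, G.tlo true b.1 b.1.ax + g b ≤ x ∧ x + g b ≤ G.thi true b.1 b.1.ax
  sep : ∀ b : G₀, ∀ x ∈ V₀ b, ∀ y ∈ V₀ b, x < y → x + g b ≤ y
  far : ∀ b : G₀, ∀ x ∈ V₀ b, ∀ k < L.N b.1, δ b.1 / 4 < |x - L.a b.1 k|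
  dg : ∀ b : G₀, 4 * dsp (T b.1) (δ b.1) ≤ g b

theorem tha_fix {b : TBx K} {x : ℝ} (hx : ∀ k < L.N b, δ b / 4 < |x - L.a b k|) :
    tha L c b x = x :=
  th_fix (thk L b).lvs fun k hk => by
    have := hx k hk
    show 2 * (δ b / 8) ≤ |x - L.a b k|
    linarith

theorem thai_fix {b : TBx K} {x : ℝ} (hx : ∀ k < L.N b, δ b / 4 < |x - L.a b k|) :
    thai L hc0 hc b x = x := by
  have h1 := tha_fix (c := c) L hx
  have h2 := (l1_tha L hc0 hc b).left x
  rwa [h1] at h2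

/-- **the correction** -/
noncomputable def fixD {g : G₀ → ℝ} (H : FixN L V₀ g) :
    FixD (F1 L hc0 hc he he2 G₀) V₀ where
  g := g
  d := fun b => dsp (T b.1) (δ b.1)
  g0 := H.g0
  win := H.win
  mem := H.mem
  sep := H.sep
  d0 := fun b => L.dsp_nonneg b.1
  near := fun b x hx => by
    show |sm1 L c e b.1 (tha L c b.1 x) - x| ≤ _
    rw [tha_fix L (H.far b x hx)]
    exact L.disp' hc0 hc (he b.1) (he2 b.1) x
  dg := H.dg
  dD := fun b => by
    have := L.δ0 b.1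
    show dsp (T b.1) (δ b.1) ≤ dsp (T b.1) (δ b.1) + δ b.1 / 8
    linarith

/-- the three maps -/
structure RTS (X : FixD (F1 L hc0 hc he he2 G₀) V₀) (Hα H₁ Tf : ConHomeo Λ Λ) : Prop where
  hα : (FA L hc0 hc G₀).IsH Hα
  h₁ : (F1 L hc0 hc he he2 G₀).IsH H₁
  hT : X.hfam.IsH Tf

theorem exists_rts (hΛ : IsOpen Λ) (X : FixD (F1 L hc0 hc he he2 G₀) V₀) :
    ∃ Hα H₁ Tf, RTS L hc0 hc he he2 X Hα H₁ Tf := by
  obtain ⟨Hα, h1⟩ := (FA L hc0 hc G₀).exists_isH hΛ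
  obtain ⟨H₁, h2⟩ := (F1 L hc0 hc he he2 G₀).exists_isH hΛ
  obtain ⟨Tf, h3⟩ := X.hfam.exists_isH hΛ
  exact ⟨Hα, H₁, Tf, h1, h2, h3⟩

theorem upd_rtK {b : TBx K} {u : ℝ} {y : V} (hy : y ∈ rtK G ω b u) {t : ℝ}
    (ht : t ∈ Icc (G.tlo true b b.ax) (G.thi true b b.ax)) :
    Function.update y b.ax t ∈ rtK G ω b u := by
  refine ⟨?_, fun i hi => ?_⟩
  · rw [Function.update_self]; exact ht
  · rw [Function.update_of_ne hi]; exact hy.2 i hi

/-- the targets -/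
noncomputable def tgR (X : FixD (F1 L hc0 hc he he2 G₀) V₀) (b : G₀) :
    TG (Bsm G (fun b : G₀ => L.bxQ c hc0 hc b.1) b) :=
  (tgC L hc0 hc b (he b.1) (he2 b.1)).comp (f := X.τ b) (f' := X.τ' b) (X.hfam.X b).l1

theorem tgR_wt (X : FixD (F1 L hc0 hc he he2 G₀) V₀) (hX : ∀ b, 4 * X.d b / X.g b ≤ 1)
    (b : G₀) : (tgR L hc0 hc he he2 X b).Wt (2 * 1) (2 * (e b.1 / c b.1))
      (L.a b.1 0 - c b.1) (L.a b.1 (L.N b.1 - 1) + c b.1) :=
  (tgC_wt L hc0 hc b (he b.1) (he2 b.1)).comp (X.hfam.X b).l1 (by norm_num) fun s _ t _ =>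
    ((X.fix b).lip _ _).trans (mul_le_mul_of_nonneg_right (by have := hX b; linarith)
      (abs_nonneg _))

namespace RTS

variable {X : FixD (F1 L hc0 hc he he2 G₀) V₀} {Hα H₁ Tf : ConHomeo Λ Λ}
  {L hc0 hc he he2}

/-- **the full zone of the staircase** -/
theorem full (H : RTS L hc0 hc he he2 X Hα H₁ Tf) {b : G₀} {y : V}
    (hy : y ∈ rtK G ω b.1 12) : ((Hα.trans H₁).trans Tf).toFun y =
      Function.update y b.1.ax (X.τ b (sm1 L c e b.1 (y b.1.ax))) := by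
  have a1 : Hα.toFun y = Function.update y b.1.ax (thai L hc0 hc b.1 (y b.1.ax)) :=
    full_rt L H.hα hy
  have w1 := (l1_tha L hc0 hc b.1).symm.win hy.1
  have y1 := upd_rtK hy w1
  have a2 : H₁.toFun (Hα.toFun y) =
      Function.update y b.1.ax (sm1 L c e b.1 (y b.1.ax)) := by
    rw [a1, full_rt L H.h₁ (rtK_mono L (by norm_num) y1), Function.update_self,
      Function.update_idem]
    show Function.update y b.1.ax (sm1 L c e b.1 (tha L c b.1 (thai L hc0 hc b.1 _))) = _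
    rw [(l1_tha L hc0 hc b.1).right]
  have w2 : sm1 L c e b.1 (y b.1.ax) ∈ Icc (G.tlo true b.1 b.1.ax) (G.thi true b.1 b.1.ax) :=
    (L.l1' hc0 hc (he b.1) (he2 b.1)).win hy.1
  show Tf.toFun (H₁.toFun (Hα.toFun y)) = _
  rw [a2]
  have h3 := H.hT.full (b := b) (y := Function.update y b.1.ax (sm1 L c e b.1 (y b.1.ax)))
    (rtK_mono L (by norm_num) (upd_rtK hy w2))
  have e1 : (X.hfam.X b).j = b.1.ax := rfl
  rw [e1, Function.update_self, Function.update_idem] at h3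
  exact h3

/-- **`IsF`** -/
theorem isF (H : RTS L hc0 hc he he2 X Hα H₁ Tf) (b : G₀) :
    IsF (tgR L hc0 hc he he2 X b) ((Hα.trans H₁).trans Tf) := by
  have hsub : (Bsm G (fun b : G₀ => L.bxQ c hc0 hc b.1) b).K ⊆ Λ := by
    have h0 := L.ω0 b.1
    refine (K_inner (fun i _ => ?_) fun i _ => ?_).trans
      ((L.K_sub hc0 hc b.1).trans (Geo.TB_sub b.1))
    · show G.tlo true b.1 i - 20 * ω b.1 ≤ _; linarith
    · show _ ≤ G.thi true b.1 i + 20 * ω b.1; linarith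
  refine IsF.of_full hsub fun y hy => ?_
  have hy' : y ∈ rtK G ω b.1 12 := by
    have h0 := L.ω0 b.1
    refine ⟨hy.1, fun i hi => ?_⟩
    obtain ⟨h1, h2⟩ := hy.2 i hi
    change G.tlo true b.1 i ≤ y i at h1
    change y i ≤ G.thi true b.1 i at h2
    constructor <;> linarith
  exact H.full hy'

end RTS

end P073.H236
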