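import Vale.Agent.P073.H236.SA3

/-!
# P073, H236, **[SALPHA] + [RT-FIX]**, part 4: rectangles, fixed coordinates, protected cells

`Vrt.mem_iff`: vertical maps whose one-variable functions fix the good coordinates preserve the
rectangles with good ends. `fourR`: the instance of `Four` of H196, hence the Lipschitz bound 27 on
protected cells.
-/

open Set Metric Topology Filter

namespace P073.H196

open P073 P073.H236

variable {n : ℕ} {ι : Type*} {j : ι → Fin n} {al be : ι → ℝ} {lo hi : ι → Fin n → ℝ}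
  {Λ : Set (Fin n → ℝ)} {F F' : (Fin n → ℝ) → Fin n → ℝ} {φ φ' : ι → (Fin n → ℝ) → ℝ → ℝ}
  {W : ι → Set ℝ}

/-- increasing vertical functions which fix the good coordinates -/
structure VFx (W : ι → Set ℝ) (φ : ι → (Fin n → ℝ) → ℝ → ℝ) : Prop where
  mono : ∀ b y, StrictMono (φ b y)
  fix : ∀ b y, ∀ t ∈ W b, φ b y t = t

theorem VFx.comp (h' : VFx W φ') (h : VFx W φ) : VFx W fun b y t => φ' b y (φ b y t) where
  mono := fun b y => (h'.mono b y).comp (h.mono b y)
  fix := fun b y t ht => by rw [h.fix b y t ht, h'.fix b y t ht]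

/-- rectangles with good ends -/
def RcW (W : ι → Set ℝ) (j : ι → Fin n) (al be : ι → ℝ) (lo hi : ι → Fin n → ℝ)
    (A : Set (Fin n → ℝ)) : Prop :=
  ∃ p q : Fin n → ℝ, A = Icc p q ∧
    ∀ b, (A ∩ bigBox (j b) (al b) (be b) (lo b) (hi b)).Nonempty → p (j b) ∈ W b ∧ q (j b) ∈ W b

/-- **rectangles with good ends are preserved** -/
theorem Vrt.mem_iff (H : Vrt F j al be lo hi φ) (hφ : VFx W φ) {A : Set (Fin n → ℝ)}
    (hA : RcW W j al be lo hi A) (y : Fin n → ℝ) : F y ∈ A ↔ y ∈ A := by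
  obtain ⟨p, q, rfl, hpq⟩ := hA
  by_cases hb : ∃ b, y ∈ bigBox (j b) (al b) (be b) (lo b) (hi b)
  · obtain ⟨b, hb⟩ := hb
    have hmem := H.mem hb
    rw [H.on b y hb] at hmem ⊢
    by_cases hne : (Icc p q ∩ bigBox (j b) (al b) (be b) (lo b) (hi b)).Nonempty
    · obtain ⟨hp, hq⟩ := hpq b hne
      have ep := hφ.fix b y _ hp
      have eq := hφ.fix b y _ hq
      have e1 : p (j b) ≤ φ b y (y (j b)) ↔ p (j b) ≤ y (j b) := by
        conv_lhs => rw [← ep]
        exact (hφ.mono b y).le_iff_le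
      have e2 : φ b y (y (j b)) ≤ q (j b) ↔ y (j b) ≤ q (j b) := by
        conv_lhs => rw [← eq]
        exact (hφ.mono b y).le_iff_le
      simp only [mem_Icc, Pi.le_def]
      constructor
      · rintro ⟨a1, a2⟩
        refine ⟨fun i => ?_, fun i => ?_⟩
        · by_cases hi : i = j b
          · rw [hi]
            have := a1 (j b)
            rw [Function.update_self] at this
            exact e1.1 this
          · have := a1 i; rwa [Function.update_of_ne hi] at this
        · by_cases hi : i = j b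
          · rw [hi]
            have := a2 (j b)
            rw [Function.update_self] at this
            exact e2.1 this
          · have := a2 i; rwa [Function.update_of_ne hi] at this
      · rintro ⟨a1, a2⟩
        refine ⟨fun i => ?_, fun i => ?_⟩
        · by_cases hi : i = j b
          · rw [hi, Function.update_self]; exact e1.2 (a1 _)
          · rw [Function.update_of_ne hi]; exact a1 i
        · by_cases hi : i = j b
          · rw [hi, Function.update_self]; exact e2.2 (a2 _)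
          · rw [Function.update_of_ne hi]; exact a2 i
    · constructor
      · intro h; exact absurd ⟨_, h, hmem⟩ hne
      · intro h; exact absurd ⟨_, h, hb⟩ hne
  · push Not at hb
    rw [H.off y hb]

/-- rectangles with good ends, as images -/
theorem Vrt.image_eq {S : ConHomeo Λ Λ} (H : Vrt S.toFun j al be lo hi φ) (hφ : VFx W φ)
    {A : Set (Fin n → ℝ)} (hA : RcW W j al be lo hi A) (hAΛ : A ⊆ Λ) : S.toFun '' A = A := by
  ext y
  constructor
  · rintro ⟨x, hx, rfl⟩
    exact (H.mem_iff hφ hA x).2 hx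
  · intro hy
    refine ⟨S.invFun y, ?_, S.right_inv (hAΛ hy)⟩
    rw [← H.mem_iff hφ hA, S.right_inv (hAΛ hy)]
    exact hy

/-- a coordinate which is good is not changed -/
theorem Vrt.coord (H : Vrt F j al be lo hi φ) (hφ : VFx W φ) {y : Fin n → ℝ} {k : Fin n}
    (hk : ∀ b, y ∈ bigBox (j b) (al b) (be b) (lo b) (hi b) → j b = k → y k ∈ W b) :
    F y k = y k := by
  by_cases hb : ∃ b, y ∈ bigBox (j b) (al b) (be b) (lo b) (hi b)
  · obtain ⟨b, hb⟩ := hb
    rw [H.on b y hb]
    by_cases hj : j b = k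
    · subst hj
      rw [Function.update_self]
      exact hφ.fix b y _ (hk b hb rfl)
    · rw [Function.update_of_ne (Ne.symm hj)]
  · push Not at hb
    rw [H.off y hb]

/-- good points are fixed -/
theorem Vrt.fixed (H : Vrt F j al be lo hi φ) (hφ : VFx W φ) {y : Fin n → ℝ}
    (hk : ∀ b, y ∈ bigBox (j b) (al b) (be b) (lo b) (hi b) → y (j b) ∈ W b) : F y = y :=
  funext fun k => H.coord hφ fun b hb hj => by subst hj; exact hk b hb

theorem RcW.inter {A A' : Set (Fin n → ℝ)} (h : RcW W j al be lo hi A)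
    (h' : RcW W j al be lo hi A') : RcW W j al be lo hi (A ∩ A') := by
  obtain ⟨p, q, rfl, h1⟩ := h
  obtain ⟨p', q', rfl, h2⟩ := h'
  refine ⟨p ⊔ p', q ⊓ q', Icc_inter_Icc, fun b hb => ?_⟩
  have a1 := h1 b (hb.mono (inter_subset_inter_left _ inter_subset_left))
  have a2 := h2 b (hb.mono (inter_subset_inter_left _ inter_subset_right))
  constructor
  · rcases max_choice (p (j b)) (p' (j b)) with h3 | h3
    · show max (p (j b)) (p' (j b)) ∈ _
      rw [h3]; exact a1.1
    · show max (p (j b)) (p' (j b)) ∈ _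
      rw [h3]; exact a2.1
  · rcases min_choice (q (j b)) (q' (j b)) with h3 | h3
    · show min (q (j b)) (q' (j b)) ∈ _
      rw [h3]; exact a1.2
    · show min (q (j b)) (q' (j b)) ∈ _
      rw [h3]; exact a2.2

end P073.H196

namespace P073.H236

open _root_.P073 _root_.P073.Net _root_.P073.PA691 _root_.P073.H579 _root_.P073.H196
open _root_.P073.PR720 (LF)
open Vale.Agent.P073.St (V)
open Vale.Agent.P073.H471 Vale.Agent.P073.H267 Vale.Agent.P073.H267.Geo
open Vale.Agent.P073.H73 (Mesh)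
open Vale.Agent.P073.H193 (Edges)
open Vale.Agent.P073.H669 (TLv)
open Vale.Agent.P073.H581 (TileIff Sat sat_TB tileIff_of_boxes)

variable {Ω Λ : Set V} {v : V} {K : BoxCx Λ v} {S₀ : Rad K} {Wd : Wid K S₀} {B : Boxes Wd}
  {G : Geo B} {M : Mesh Ω} {E : Edges M} {h h' : ConHomeo Ω Λ} {ω : TBx K → ℝ}
  {T : TBx K → Finset (ℝ × ℝ)} {η : ℝ} {τ : Type*} {A : τ → Set V} {C : Set ℝ} {εE : E.ε → ℝ}
  {δ : TBx K → ℝ} {L : TLv G E h ω T η A C εE δ} {G₀ : Set (TBx K)}
  {c : TBx K → ℝ} {hc0 : ∀ b, 0 < c b} {hc : ∀ b, c b ≤ δ b / 8}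
  {e : TBx K → ℝ} {he : ∀ b, 0 < e b} {he2 : ∀ b, 2 * e b < δ b}
  {V₀ : G₀ → Finset ℝ}
  {X : FixD (F1 L hc0 hc he he2 G₀) V₀} {Hα H₁ Tf : ConHomeo Λ Λ}

/-- the good coordinates: mesh coordinates, and everything off the window -/
def WR (G : Geo B) (V₀ : G₀ → Finset ℝ) (b : G₀) : Set ℝ :=
  {t | t ∈ V₀ b ∨ t ≤ G.tlo true b.1 b.1.ax ∨ G.thi true b.1 b.1.ax ≤ t}

/-- the mesh coordinates are off the thick cells -/
def FarV (L : TLv G E h ω T η A C εE δ) (V₀ : G₀ → Finset ℝ) : Prop :=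
  ∀ b : G₀, ∀ x ∈ V₀ b, ∀ k < L.N b.1, δ b.1 / 4 < |x - L.a b.1 k|

theorem FixN.farV {g : G₀ → ℝ} (H : FixN L V₀ g) : FarV L V₀ := H.far

theorem tha_W (hf : FarV L V₀) {b : G₀} {t : ℝ} (ht : t ∈ WR G V₀ b) :
    tha L c b.1 t = t := by
  rcases ht with ht | ht
  · exact tha_fix L (hf b t ht)
  · exact th_out (thk L b.1).lvs ht

theorem thai_W (hc0 : ∀ b, 0 < c b) (hc : ∀ b, c b ≤ δ b / 8) (hf : FarV L V₀) {b : G₀} {t : ℝ}
    (ht : t ∈ WR G V₀ b) : thai L hc0 hc b.1 t = t := by
  have h1 := tha_W (c := c) hf ht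
  have h2 := (l1_tha L hc0 hc b.1).left t
  rwa [h1] at h2

/-- **the vertical functions of `S` fix the good coordinates** -/
theorem vfx_ph (X : FixD (F1 L hc0 hc he he2 G₀) V₀) (hf : FarV L V₀) :
    VFx (WR G V₀) (ph X) where
  mono := fun b y => (cl_strictMono (X.fix b).mono _).comp
    ((cl_strictMono ((F1 L hc0 hc he he2 G₀).X b).l1.km _).comp
      (cl_strictMono (l1_tha L hc0 hc b.1).km' _))
  fix := fun b y t ht => by
    unfold ph
    rw [cl_fix (hgtA_nonneg b y) (thai_W hc0 hc hf ht)]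
    have ht' := ht
    rcases ht with ht | ht
    · refine cl_cl_fix (X.fix b).mono.monotone (hgt1_nonneg b y) ?_
      rw [Function.comp_apply, tha_W hf ht']
      have h3 := (X.fix b).fix t ht
      change X.τ b (sm1 L c e b.1 (tha L c b.1 t)) = t at h3
      rwa [tha_W hf ht'] at h3
    · have h1 := ((F1 L hc0 hc he he2 G₀).X b).l1.out t ht
      have h2 := (X.fix b).out t ht
      have h1' : (sm1 L c e b.1 ∘ tha L c b.1) t = t := h1
      rw [cl_fix (hgt1_nonneg b y) h1', cl_fix (hgt1_nonneg b y) h2]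

end P073.H236
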