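import Vale.Agent.P073.H236.SA4
import Vale.Agent.P073.H238.RT0

/-!
# P073, H236, **[SALPHA] + [RT-FIX]**, part 5: the slivers of `tgR`; existence of the staircases of
ROUND T with all numbers
-/

open Set Metric Topology Filter

namespace P073.H236

open _root_.P073 _root_.P073.Net _root_.P073.PA691 _root_.P073.H579 _root_.P073.H196
open _root_.P073.PR720 (LF)
open Vale.Agent.P073.St (V)
open Vale.Agent.P073.H471 Vale.Agent.P073.H267 Vale.Agent.P073.H267.Geo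
open Vale.Agent.P073.H73 (Mesh)
open Vale.Agent.P073.H193 (Edges)
open Vale.Agent.P073.H669 (TLv)
open Vale.Agent.P073.H238.K3 (SlIn)

variable {Ω Λ : Set V} {v : V} {K : BoxCx Λ v} {S₀ : Rad K} {Wd : Wid K S₀} {B : Boxes Wd}
  {G : Geo B} {M : Mesh Ω} {E : Edges M} {h h' : ConHomeo Ω Λ} {ω : TBx K → ℝ}
  {T : TBx K → Finset (ℝ × ℝ)} {η : ℝ} {τ : Type*} {A : τ → Set V} {C : Set ℝ} {εE : E.ε → ℝ}
  {δ : TBx K → ℝ} {L : TLv G E h ω T η A C εE δ} {G₀ : Set (TBx K)}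
  {c : TBx K → ℝ} {hc0 : ∀ b, 0 < c b} {hc : ∀ b, c b ≤ δ b / 8}
  {e : TBx K → ℝ} {he : ∀ b, 0 < e b} {he2 : ∀ b, 2 * e b < δ b}
  {V₀ : G₀ → Finset ℝ}
  {X : FixD (F1 L hc0 hc he he2 G₀) V₀}

/-- the displacement is at least the length of a cell -/
theorem delta_le_dsp (L : TLv G E h ω T η A C εE δ) (b : TBx K) :
    δ b ≤ dsp (T b) (δ b) := by
  have h1 := (L.cells b).disp_nonneg 0 (L.pos b)
  have h2 := (L.cells b).disp_le 0 (L.pos b)
  have h3 := L.δ0 b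
  unfold dsp
  have h4 : (2 * ((T b).card : ℝ) + 1) * δ b = 2 * (T b).card * δ b + δ b := by ring
  rw [h4]
  linarith

theorem tgR_T (b : G₀) (k : ℕ) : (tgR L hc0 hc he he2 X b).T k =
    X.τ b (G.tlo true b.1 b.1.ax + 30 * ω b.1 + k * δ b.1 + e b.1) := rfl

theorem tgR_T' (b : G₀) (k : ℕ) : (tgR L hc0 hc he he2 X b).T' k =
    X.τ b (G.tlo true b.1 b.1.ax + 30 * ω b.1 + (k + 1) * δ b.1 - e b.1) := rfl

/-- **the slivers of `tgR`** -/
theorem sl_ends (L : TLv G E h ω T η A C εE δ) {hc0 : ∀ b, 0 < c b} {hc : ∀ b, c b ≤ δ b / 8}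
    {he : ∀ b, 0 < e b} {he2 : ∀ b, 2 * e b < δ b} (X : FixD (F1 L hc0 hc he he2 G₀) V₀) (b : G₀)
    (hX : 4 * X.d b / X.g b ≤ 1) (hd : X.d b ≤ dsp (T b.1) (δ b.1))
    (hω : 8 * dsp (T b.1) (δ b.1) ≤ ω b.1) {σ : ℝ} (hσ : 4 * L.N b.1 * e b.1 ≤ σ) :
    SlIn G ω b.1 σ (tgR L hc0 hc he he2 X b).sl := by
  classical
  have h0 := L.ω0 b.1
  have hδ := L.δ0 b.1
  have hc1 := hc0 b.1
  have hc2 := hc b.1
  have he0 := he b.1
  have he3 := he2 b.1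
  have hdsp : δ b.1 ≤ dsp (T b.1) (δ b.1) := delta_le_dsp L b.1
  have hN := L.pos b.1
  have hτd := (X.fix b).disp
  have hτ : ∀ s t, |X.τ b s - X.τ b t| ≤ 2 * |s - t| := fun s t =>
    ((X.fix b).lip s t).trans (mul_le_mul_of_nonneg_right (by linarith) (abs_nonneg _))
  have hcast : ((L.N b.1 - 1 : ℕ) : ℝ) + 1 = L.N b.1 := by
    rw [Nat.cast_sub hN]; simp
  have a1 := abs_le.1 (hτd (G.tlo true b.1 b.1.ax + 30 * ω b.1 + (0 : ℕ) * δ b.1 + e b.1))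
  have a2 := abs_le.1 (hτd (G.tlo true b.1 b.1.ax + 30 * ω b.1 +
    (((L.N b.1 - 1 : ℕ) : ℝ) + 1) * δ b.1 - e b.1))
  rw [hcast] at a2
  have e0 : ((0 : ℕ) : ℝ) * δ b.1 = 0 := by simp
  rw [e0] at a1
  have n1 := (L.cells b.1).num_le
  have n2 := (L.cells b.1).le_num
  have n3 : dsp (T b.1) (δ b.1) = ∑ p ∈ T b.1, (p.2 - p.1) + (2 * ((T b.1).card : ℝ) + 1) * δ b.1 :=
    rfl
  set inner : Finset (ℝ × ℝ) := (Finset.range (L.N b.1 - 1)).image fun k =>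
    ((tgR L hc0 hc he he2 X b).T' k, (tgR L hc0 hc he he2 X b).T (k + 1)) with hin
  have hk : ∀ k : ℕ, (tgR L hc0 hc he he2 X b).T' k ≤ (tgR L hc0 hc he he2 X b).T (k + 1) ∧
      (tgR L hc0 hc he he2 X b).T (k + 1) - (tgR L hc0 hc he he2 X b).T' k ≤ 4 * e b.1 := by
    intro k
    rw [tgR_T, tgR_T']
    push_cast
    have h1 := hτ (G.tlo true b.1 b.1.ax + 30 * ω b.1 + ((k:ℝ) + 1) * δ b.1 + e b.1)
      (G.tlo true b.1 b.1.ax + 30 * ω b.1 + ((k:ℝ) + 1) * δ b.1 - e b.1)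
    have h2 : |G.tlo true b.1 b.1.ax + 30 * ω b.1 + ((k:ℝ) + 1) * δ b.1 + e b.1 -
        (G.tlo true b.1 b.1.ax + 30 * ω b.1 + ((k:ℝ) + 1) * δ b.1 - e b.1)| = 2 * e b.1 := by
      rw [show ∀ x y : ℝ, x + y - (x - y) = 2 * y by intro x y; ring]
      exact abs_of_pos (by linarith)
    rw [h2] at h1
    refine ⟨(X.fix b).mono.monotone (by linarith), ?_⟩
    linarith [le_abs_self (X.τ b (G.tlo true b.1 b.1.ax + 30 * ω b.1 + ((k:ℝ) + 1) * δ b.1 +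
      e b.1) - X.τ b (G.tlo true b.1 b.1.ax + 30 * ω b.1 + ((k:ℝ) + 1) * δ b.1 - e b.1))]
  refine ⟨G.tlo true b.1 b.1.ax - c b.1, (tgR L hc0 hc he he2 X b).T 0,
    (tgR L hc0 hc he he2 X b).T' (L.N b.1 - 1), G.thi true b.1 b.1.ax + c b.1, inner, ?_, ?_, ?_,
    ?_, ?_, ?_, ?_, ?_, ?_, ?_, ?_, ?_, ?_⟩
  · linarith
  · linarith
  · rw [tgR_T, e0]; linarith
  · rw [tgR_T, e0]; linarith
  · rw [tgR_T', hcast]; linarith
  · rw [tgR_T', hcast]; linarith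
  · linarith
  · linarith
  · exact (TG.mem_sl _).2 (Or.inl rfl)
  · exact (TG.mem_sl _).2 (Or.inr (Or.inl rfl))
  · intro p hp
    rcases (TG.mem_sl _).1 hp with h | h | ⟨k, hk, h⟩
    · exact Or.inl h
    · exact Or.inr (Or.inl h)
    · refine Or.inr (Or.inr ?_)
      rw [hin, Finset.mem_image]
      have hk' : k + 1 < L.N b.1 := hk
      exact ⟨k, Finset.mem_range.2 (by omega), h.symm⟩
  · intro p hp
    rw [hin, Finset.mem_image] at hp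
    obtain ⟨k, -, rfl⟩ := hp
    exact (hk k).1
  · rw [hin]
    refine (Finset.sum_image_le_of_nonneg fun p hp => ?_).trans ?_
    · obtain ⟨k, -, rfl⟩ := Finset.mem_image.1 hp
      have := (hk k).1
      show 0 ≤ (tgR L hc0 hc he he2 X b).T (k + 1) - (tgR L hc0 hc he he2 X b).T' k
      linarith
    · refine (Finset.sum_le_sum fun k _ => (hk k).2).trans ?_
      rw [Finset.sum_const, Finset.card_range, nsmul_eq_mul]
      have h5 : ((L.N b.1 - 1 : ℕ) : ℝ) ≤ L.N b.1 := by linarith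
      nlinarith

/-- the number of slivers -/
theorem card_sl (X : FixD (F1 L hc0 hc he he2 G₀) V₀) (b : G₀) :
    (tgR L hc0 hc he he2 X b).sl.card ≤ L.N b.1 + 1 := by
  classical
  have hN := L.pos b.1
  unfold TG.sl
  refine (Finset.card_union_le _ _).trans ?_
  have h1 := Finset.card_le_two (a := ((Bsm G (fun b : G₀ => L.bxQ c hc0 hc b.1) b).al -
    (Bsm G (fun b : G₀ => L.bxQ c hc0 hc b.1) b).c, (tgR L hc0 hc he he2 X b).T 0))
    (b := ((tgR L hc0 hc he he2 X b).T' ((Bsm G (fun b : G₀ => L.bxQ c hc0 hc b.1) b).N - 1),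
      (Bsm G (fun b : G₀ => L.bxQ c hc0 hc b.1) b).be +
        (Bsm G (fun b : G₀ => L.bxQ c hc0 hc b.1) b).c))
  have h2 := Finset.card_image_le (s := Finset.range
    ((Bsm G (fun b : G₀ => L.bxQ c hc0 hc b.1) b).N - 1))
    (f := fun k => ((tgR L hc0 hc he he2 X b).T' k, (tgR L hc0 hc he he2 X b).T (k + 1)))
  rw [Finset.card_range] at h2
  have e1 : (Bsm G (fun b : G₀ => L.bxQ c hc0 hc b.1) b).N = L.N b.1 := rfl
  rw [e1] at h1 h2 ⊢
  omega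

/-- **EXISTENCE OF THE STAIRCASES**: `e ≤ e₁`, `Σ inner ≤ σ` -/
theorem exists_rtS (hΛ : IsOpen Λ) (L : TLv G E h ω T η A C εE δ) (hc0 : ∀ b, 0 < c b)
    (hc : ∀ b, c b ≤ δ b / 8) {g : G₀ → ℝ} (H : FixN L V₀ g)
    (hω : ∀ b : G₀, 8 * dsp (T b.1) (δ b.1) ≤ ω b.1) {e₁ : TBx K → ℝ} (he₁ : ∀ b, 0 < e₁ b)
    {σ : G₀ → ℝ} (hσ : ∀ b, 0 < σ b) :
    ∃ (e : TBx K → ℝ) (he : ∀ b, 0 < e b) (he2 : ∀ b, 2 * e b < δ b) (Hα H₁ Tf : ConHomeo Λ Λ),
      (∀ b, e b ≤ e₁ b) ∧ RTS L hc0 hc he he2 (fixD L hc0 hc he he2 H) Hα H₁ Tf ∧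
      SNum (fixD L hc0 hc he he2 H) ∧
      (∀ b : G₀, SlIn G ω b.1 (σ b) (tgR L hc0 hc he he2 (fixD L hc0 hc he he2 H) b).sl) ∧
      ∀ b : G₀, (tgR L hc0 hc he he2 (fixD L hc0 hc he he2 H) b).sl.card ≤ L.N b.1 + 1 := by
  classical
  set σ' : TBx K → ℝ := fun b => if hb : b ∈ G₀ then σ ⟨b, hb⟩ else 1 with hσ'
  have hσ0 : ∀ b, 0 < σ' b := fun b => by
    rw [hσ']; dsimp only
    split_ifs with hb
    · exact hσ _
    · exact one_pos
  have hσe : ∀ b : G₀, σ' b.1 = σ b := fun b => by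
    rw [hσ']; dsimp only
    rw [dif_pos b.2]
  set e : TBx K → ℝ := fun b => min (min (e₁ b) (δ b / 8)) (σ' b / (4 * (L.N b + 1))) with hedef
  have he : ∀ b, 0 < e b := fun b => by
    have h1 := L.δ0 b
    have h2 := he₁ b
    have h3 := hσ0 b
    exact lt_min (lt_min h2 (by positivity)) (by positivity)
  have he8 : ∀ b, e b ≤ δ b / 8 := fun b => (min_le_left _ _).trans (min_le_right _ _)
  have he2 : ∀ b, 2 * e b < δ b := fun b => by linarith [he8 b, L.δ0 b]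
  obtain ⟨Hα, H₁, Tf, HR⟩ := exists_rts L hc0 hc he he2 hΛ (fixD L hc0 hc he he2 H)
  have heps : ∀ b, 4 * (fixD L hc0 hc he he2 H).d b / (fixD L hc0 hc he he2 H).g b ≤ 1 := by
    intro b
    have h1 := H.g0 b
    have h2 := H.dg b
    show 4 * dsp (T b.1) (δ b.1) / g b ≤ 1
    rw [div_le_one h1]
    exact h2
  refine ⟨e, he, he2, Hα, H₁, Tf, fun b => (min_le_left _ _).trans (min_le_left _ _), HR,
    ⟨he8, fun b => ?_, heps⟩, fun b => ?_, fun b => card_sl _ b⟩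
  · have h1 := hω b
    have h2 := delta_le_dsp L b.1
    have h3 := L.ω0 b.1
    have h4 := L.δ0 b.1
    linarith
  · refine sl_ends L _ b (heps b) le_rfl (hω b) ?_
    rw [← hσe b]
    have h1 : e b.1 ≤ σ' b.1 / (4 * (L.N b.1 + 1)) := min_le_right _ _
    rw [le_div_iff₀ (by positivity)] at h1
    have h2 := he b.1
    nlinarith

end P073.H236
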