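import Vale.Agent.P073.H236.SA5
import Vale.Agent.P073.H669.TLev

/-!
# P073, H236, **[T-END]**, part 1: the squeeze of the end zones of the boxes of ROUND T

`kE lo hi a R η`: `[lo, lo + a]` onto `[lo, lo + η]`, identity on `[lo + R, hi - R]` and off the
window, symmetric. `FE`: the family of these maps in the boxes `TB false b` (`a = 2048 ω b`,
`R = 32768 ω b`), full laterally in `rtK 200`, fading out in `2 ^ 20 ω b`.
-/

open Set Metric Topology Filter

namespace P073.H236

open _root_.P073 _root_.P073.Net _root_.P073.PA691 _root_.P073.H196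
open _root_.P073.H579 hiding clm
open _root_.P073.PR720 (LF)
open Vale.Agent.P073.St (V)
open Vale.Agent.P073.H471 Vale.Agent.P073.H267 Vale.Agent.P073.H267.Geo
open Vale.Agent.P073.H73 (Mesh)
open Vale.Agent.P073.H193 (Edges)
open Vale.Agent.P073.H238 (oT TMid marg)
open Vale.Agent.P073.H669 (TLv)
open Vale.Agent.P073.H238.K3 (clm)

/-! ### one variable -/

section one

variable {lo hi a R η : ℝ}

/-- lower ends of the flats -/
def eLo (lo hi a R : ℝ) (k : ℕ) : ℝ := if k = 0 then lo + a else hi - R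

/-- upper ends of the flats -/
def eHi (lo hi a R : ℝ) (k : ℕ) : ℝ := if k = 0 then lo + R else hi - a

/-- **the squeeze** -/
noncomputable def kE (lo hi a R η : ℝ) : ℝ → ℝ :=
  stair 2 lo hi (eLo lo hi a R) (eHi lo hi a R) (eLo lo hi η R) (eHi lo hi η R)

theorem arr_e (h0 : 0 < a) (h1 : a < R) (h2 : lo + R < hi - R) :
    Arr 2 lo hi (eLo lo hi a R) (eHi lo hi a R) where
  pos := by norm_num
  first := by unfold eLo; rw [if_pos rfl]; linarith
  lt := fun k hk => by
    unfold eLo eHi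
    split_ifs <;> linarith
  gap := fun k hk => by
    have hk0 : k = 0 := by omega
    subst hk0
    unfold eLo eHi
    rw [if_pos rfl, if_neg (by norm_num)]
    exact h2
  last := by
    show eHi lo hi a R 1 < hi
    unfold eHi
    rw [if_neg (by norm_num)]
    linarith

/-- the numbers of the squeeze -/
structure EN (lo hi a R η : ℝ) : Prop where
  η0 : 0 < η
  ηa : η ≤ a
  aR : a < R
  win : lo + R < hi - R

namespace EN

variable (H : EN lo hi a R η)
include H

theorem a0 : 0 < a := H.η0.trans_le H.ηa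

theorem R0 : 0 < R := H.a0.trans H.aR

theorem arr : Arr 2 lo hi (eLo lo hi a R) (eHi lo hi a R) := arr_e H.a0 H.aR H.win

theorem arr' : Arr 2 lo hi (eLo lo hi η R) (eHi lo hi η R) :=
  arr_e H.η0 (H.ηa.trans_lt H.aR) H.win

/-- the inverse exchanges `a` and `η` -/
theorem l1 : L1 lo hi (kE lo hi a R η) (kE lo hi η R a) := L1.of_stair H.arr H.arr'

theorem mono : StrictMono (kE lo hi a R η) := H.l1.km

theorem out {t : ℝ} (ht : t ≤ lo ∨ hi ≤ t) : kE lo hi a R η t = t := H.l1.out t ht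

theorem win' {t : ℝ} (ht : t ∈ Icc lo hi) : kE lo hi a R η t ∈ Icc lo hi := H.l1.win ht

/-- the lower end zone -/
theorem kE_lo {t : ℝ} (h1 : lo ≤ t) (h2 : t ≤ lo + a) :
    kE lo hi a R η t = lo + η / a * (t - lo) := by
  have e1 := bp_odd (al := lo) (be := hi) (lo := eLo lo hi a R) (hi := eHi lo hi a R)
    (N := 2) (k := 0) (by norm_num)
  unfold kE stair
  rw [pl_piece H.arr.inc (i := 0) (by norm_num) (by rw [bp_zero]; exact h1) (by
    rw [e1]
    show t ≤ eLo lo hi a R 0
    unfold eLo; rw [if_pos rfl]; exact h2)]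
  rw [slp_first (by norm_num), bp_zero, bp_zero]
  congr 2
  unfold eLo
  rw [if_pos rfl, if_pos rfl]
  congr 1 <;> ring

/-- the upper end zone -/
theorem kE_hi {t : ℝ} (h1 : hi - a ≤ t) (h2 : t ≤ hi) :
    kE lo hi a R η t = hi - η / a * (hi - t) := by
  have e1 : bp 2 lo hi (eLo lo hi a R) (eHi lo hi a R) (2 * 2) = eHi lo hi a R 1 :=
    bp_even (N := 2) (k := 1) (by norm_num)
  have e2 : bp 2 lo hi (eLo lo hi η R) (eHi lo hi η R) (2 * 2) = eHi lo hi η R 1 :=
    bp_even (N := 2) (k := 1) (by norm_num)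
  have e3 : bp 2 lo hi (eLo lo hi a R) (eHi lo hi a R) (2 * 2 + 1) = hi := bp_last
  have e4 : eHi lo hi a R 1 = hi - a := by unfold eHi; rw [if_neg (by norm_num)]
  have e5 : eHi lo hi η R 1 = hi - η := by unfold eHi; rw [if_neg (by norm_num)]
  have ha := H.a0
  unfold kE stair
  rw [pl_piece H.arr.inc (i := 2 * 2) (by norm_num) (by rw [e1, e4]; exact h1)
    (by rw [e3]; exact h2)]
  rw [slp_last (by norm_num), e1, e2]
  show eHi lo hi η R 1 + (hi - eHi lo hi η R 1) / (hi - eHi lo hi a R 1) *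
    (t - eHi lo hi a R 1) = _
  rw [e4, e5, show hi - (hi - η) = η by ring, show hi - (hi - a) = a by ring]
  have h3 : η / a * (hi - t) = η - η / a * (t - (hi - a)) := by
    field_simp
    ring
  rw [h3]
  ring

/-- the middle -/
theorem kE_mid {t : ℝ} (h1 : lo + R ≤ t) (h2 : t ≤ hi - R) : kE lo hi a R η t = t := by
  have e1 : eHi lo hi a R 0 = lo + R := by unfold eHi; rw [if_pos rfl]
  have e2 : eLo lo hi a R (0 + 1) = hi - R := by unfold eLo; rw [if_neg (by norm_num)]
  have e3 : eHi lo hi η R 0 = lo + R := by unfold eHi; rw [if_pos rfl]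
  have e4 : eLo lo hi η R (0 + 1) = hi - R := by unfold eLo; rw [if_neg (by norm_num)]
  unfold kE
  rw [stair_gap H.arr (k := 0) (by norm_num) (by rw [e1, e2]; exact ⟨h1, h2⟩), e1, e2, e3, e4]
  have h3 : hi - R - (lo + R) ≠ 0 := by linarith [H.win]
  rw [div_self h3]
  ring

/-- displacement -/
theorem abs_sub_self_le (t : ℝ) : |kE lo hi a R η t - t| ≤ a := by
  have ha := H.a0
  have hη := H.η0
  have h1 := H.ηa
  refine abs_stair_sub_self_le H.arr ha.le (fun k _ => ?_) (fun k _ => ?_) t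
  · unfold eLo
    split_ifs
    · rw [abs_le]; constructor <;> linarith
    · rw [sub_self, abs_zero]; exact ha.le
  · unfold eHi
    split_ifs
    · rw [sub_self, abs_zero]; exact ha.le
    · rw [abs_le]; constructor <;> linarith

/-- the slope -/
theorem abs_sub_le (h16 : 16 * a ≤ R) (s t : ℝ) :
    |kE lo hi a R η s - kE lo hi a R η t| ≤ 16 / 15 * |s - t| := by
  have ha := H.a0
  have hη := H.η0
  have h1 := H.ηa
  have h2 := H.aR
  have h3 := H.win
  have e : (R - η) / (R - a) ≤ 16 / 15 := by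
    rw [div_le_iff₀ (by linarith)]
    linarith
  refine abs_stair_sub_le H.arr H.arr' (by norm_num) ?_ (fun k _ => ?_) (fun k hk => ?_) ?_ s t
  · unfold eLo
    rw [if_pos rfl, if_pos rfl, div_le_iff₀ (by linarith)]
    linarith
  · unfold eLo eHi
    split_ifs
    · rw [show lo + R - (lo + η) = R - η by ring, show lo + R - (lo + a) = R - a by ring]
      exact e
    · rw [show hi - η - (hi - R) = R - η by ring, show hi - a - (hi - R) = R - a by ring]
      exact e
  · have hk0 : k = 0 := by omega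
    subst hk0
    unfold eLo eHi
    rw [if_pos rfl, if_neg (by norm_num), if_neg (by norm_num), if_pos rfl, div_self (by linarith)]
    norm_num
  · show (hi - eHi lo hi η R 1) / (hi - eHi lo hi a R 1) ≤ _
    unfold eHi
    rw [if_neg (by norm_num), if_neg (by norm_num), div_le_iff₀ (by linarith)]
    linarith

/-- points of the lower end zone -/
theorem kE_le {t : ℝ} (ht : t ≤ lo + a) : kE lo hi a R η t ≤ lo + η := by
  have h1 := H.mono.monotone ht
  have h2 := H.kE_lo (t := lo + a) (by linarith [H.a0]) le_rfl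
  have h3 : η / a * (lo + a - lo) = η := by
    have := H.a0
    field_simp
    ring
  rw [h3] at h2
  linarith

/-- points of the upper end zone -/
theorem le_kE {t : ℝ} (ht : hi - a ≤ t) : hi - η ≤ kE lo hi a R η t := by
  have h1 := H.mono.monotone ht
  have h2 := H.kE_hi (t := hi - a) le_rfl (by linarith [H.a0])
  have h3 : η / a * (hi - (hi - a)) = η := by
    have := H.a0
    field_simp
    ring
  rw [h3] at h2
  linarith

/-- off the end zones -/
theorem lt_of_lt_kE {t : ℝ} (ht : lo + η < kE lo hi a R η t) : lo + a < t := by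
  by_contra hcon
  exact absurd (H.kE_le (not_lt.1 hcon)) (not_le.2 ht)

theorem lt_of_kE_lt {t : ℝ} (ht : kE lo hi a R η t < hi - η) : t < hi - a := by
  by_contra hcon
  exact absurd (H.le_kE (not_lt.1 hcon)) (not_le.2 ht)

/-- **the clamped coordinate after the squeeze** -/
theorem abs_clm_le (h16 : 16 * a ≤ R) (s t : ℝ) :
    |clm lo hi (kE lo hi a R η s) - clm lo hi (kE lo hi a R η t)| ≤
      16 / 15 * |clm (lo + a) (hi - a) s - clm (lo + a) (hi - a) t| + η / a * |s - t| := by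
  have ha := H.a0
  have hη := H.η0
  have h1 := H.ηa
  have h2 := H.aR
  have h3 := H.win
  have hr : 0 ≤ η / a := by positivity
  have hc : ∀ u v x : ℝ, u ≤ v → (x ≤ u ∧ clm u v x = u) ∨ (u ≤ x ∧ x ≤ v ∧ clm u v x = x) ∨
      (v ≤ x ∧ clm u v x = v) := by
    intro u v x huv
    unfold clm
    rcases le_total x u with h | h
    · exact Or.inl ⟨h, by rw [min_eq_right (h.trans huv), max_eq_left h]⟩
    · rcases le_total x v with h' | h'
      · exact Or.inr (Or.inl ⟨h, h', by rw [min_eq_right h', max_eq_right h]⟩)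
      · exact Or.inr (Or.inr ⟨h', by rw [min_eq_left h', max_eq_right huv]⟩)
  -- `clm (kE x) = kE (c x) + (η / a) * (clm x - c x)`
  have key : ∀ x : ℝ, clm lo hi (kE lo hi a R η x) = kE lo hi a R η (clm (lo + a) (hi - a) x) +
      η / a * (clm lo hi x - clm (lo + a) (hi - a) x) := by
    intro x
    have hlh : lo ≤ hi := by linarith
    have e0 : kE lo hi a R η (lo + a) = lo + η := by
      rw [H.kE_lo (by linarith) le_rfl]
      field_simp
      ring
    have e1 : kE lo hi a R η (hi - a) = hi - η := by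
      rw [H.kE_hi le_rfl (by linarith)]
      field_simp
      ring
    rcases le_total x lo with h | h
    · rw [H.out (Or.inl h)]
      have e2 : clm lo hi x = lo := by
        unfold clm; rw [min_eq_right (h.trans hlh), max_eq_left h]
      have e3 : clm (lo + a) (hi - a) x = lo + a := by
        unfold clm; rw [min_eq_right (by linarith), max_eq_left (by linarith)]
      rw [e2, e3, e0]
      field_simp
      ring
    rcases le_total hi x with h' | h'
    · rw [H.out (Or.inr h')]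
      have e2 : clm lo hi x = hi := by
        unfold clm; rw [min_eq_left h', max_eq_right hlh]
      have e3 : clm (lo + a) (hi - a) x = hi - a := by
        unfold clm; rw [min_eq_left (by linarith), max_eq_right (by linarith)]
      rw [e2, e3, e1]
      field_simp
      ring
    · have hw := H.win' ⟨h, h'⟩
      have e4 : clm lo hi (kE lo hi a R η x) = kE lo hi a R η x := by
        unfold clm; rw [min_eq_right hw.2, max_eq_right hw.1]
      have e2 : clm lo hi x = x := by
        unfold clm; rw [min_eq_right h', max_eq_right h]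
      rw [e4, e2]
      rcases le_total x (lo + a) with h4 | h4
      · have e3 : clm (lo + a) (hi - a) x = lo + a := by
          unfold clm; rw [min_eq_right (by linarith), max_eq_left h4]
        rw [e3, e0, H.kE_lo h h4]
        field_simp
        ring
      · rcases le_total (hi - a) x with h5 | h5
        · have e3 : clm (lo + a) (hi - a) x = hi - a := by
            unfold clm; rw [min_eq_left h5, max_eq_right (by linarith)]
          rw [e3, e1, H.kE_hi h5 h']
          field_simp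
          ring
        · have e3 : clm (lo + a) (hi - a) x = x := by
            unfold clm; rw [min_eq_right h5, max_eq_right h4]
          rw [e3]
          ring
  have key2 : |(clm lo hi s - clm (lo + a) (hi - a) s) - (clm lo hi t - clm (lo + a) (hi - a) t)| ≤
      |s - t| := by
    have hlh : lo ≤ hi := by linarith
    have hlh' : lo + a ≤ hi - a := by linarith
    rcases hc lo hi s hlh with ⟨a1, a2⟩ | ⟨a1, a1', a2⟩ | ⟨a1, a2⟩ <;>
    rcases hc (lo + a) (hi - a) s hlh' with ⟨b1, b2⟩ | ⟨b1, b1', b2⟩ | ⟨b1, b2⟩ <;>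
    rcases hc lo hi t hlh with ⟨c1, c2⟩ | ⟨c1, c1', c2⟩ | ⟨c1, c2⟩ <;>
    rcases hc (lo + a) (hi - a) t hlh' with ⟨d1, d2⟩ | ⟨d1, d1', d2⟩ | ⟨d1, d2⟩ <;>
    rw [a2, b2, c2, d2] <;>
    rcases abs_cases (s - t) with ⟨e1, e1'⟩ | ⟨e1, e1'⟩ <;> rw [e1, abs_le] <;>
    constructor <;> linarith
  rw [key s, key t]
  have h5 := H.abs_sub_le h16 (clm (lo + a) (hi - a) s) (clm (lo + a) (hi - a) t)
  have e5 : kE lo hi a R η (clm (lo + a) (hi - a) s) +
      η / a * (clm lo hi s - clm (lo + a) (hi - a) s) -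
      (kE lo hi a R η (clm (lo + a) (hi - a) t) +
      η / a * (clm lo hi t - clm (lo + a) (hi - a) t)) =
      (kE lo hi a R η (clm (lo + a) (hi - a) s) - kE lo hi a R η (clm (lo + a) (hi - a) t)) +
      η / a * ((clm lo hi s - clm (lo + a) (hi - a) s) -
        (clm lo hi t - clm (lo + a) (hi - a) t)) := by ring
  rw [e5]
  refine (abs_add_le _ _).trans (add_le_add h5 ?_)
  rw [abs_mul, abs_of_nonneg hr]
  exact mul_le_mul_of_nonneg_left key2 hr

end EN

end one

/-! ### the boxes -/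

variable {Ω Λ : Set V} {v : V} {K : BoxCx Λ v} {S₀ : Rad K} {Wd : Wid K S₀} {B : Boxes Wd}
  {G : Geo B} {M : Mesh Ω} {E : Edges M} {h h' : ConHomeo Ω Λ} {ω : TBx K → ℝ}
  {T : TBx K → Finset (ℝ × ℝ)} {η : ℝ} {τ : Type*} {A : τ → Set V} {C : Set ℝ} {εE : E.ε → ℝ}
  {δ : TBx K → ℝ} {L : TLv G E h ω T η A C εE δ} {G₀ : Set (TBx K)} {ηe : TBx K → ℝ}

/-- **the numbers of the end zones** -/
structure EHyp (G : Geo B) (ω ηe : TBx K → ℝ) : Prop where
  ω0 : ∀ b, 0 < ω b
  o24 : ∀ b, 16777216 * ω b ≤ oT G b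
  η0 : ∀ b, 0 < ηe b
  ηω : ∀ b, ηe b ≤ ω b

/-- the squeeze of the box -/
noncomputable def kEb (G : Geo B) (ω ηe : TBx K → ℝ) (b : TBx K) : ℝ → ℝ :=
  kE (G.tlo true b b.ax) (G.thi true b b.ax) (2048 * ω b) (32768 * ω b) (ηe b)

/-- its inverse -/
noncomputable def kEi (G : Geo B) (ω ηe : TBx K → ℝ) (b : TBx K) : ℝ → ℝ :=
  kE (G.tlo true b b.ax) (G.thi true b b.ax) (ηe b) (32768 * ω b) (2048 * ω b)

namespace EHyp

variable (HE : EHyp G ω ηe)
include HE

theorem en (b : TBx K) : EN (G.tlo true b b.ax) (G.thi true b b.ax) (2048 * ω b) (32768 * ω b)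
    (ηe b) where
  η0 := HE.η0 b
  ηa := by linarith [HE.ηω b, HE.ω0 b]
  aR := by linarith [HE.ω0 b]
  win := by
    have h1 := Vale.Agent.P073.H669.win G b
    have h2 := HE.o24 b
    have h3 := HE.ω0 b
    linarith

theorem l1 (b : TBx K) : L1 (G.tlo true b b.ax) (G.thi true b b.ax) (kEb G ω ηe b)
    (kEi G ω ηe b) := (HE.en b).l1

theorem abs_sub_self_le (b : TBx K) (t : ℝ) : |kEb G ω ηe b t - t| ≤ 2048 * ω b :=
  (HE.en b).abs_sub_self_le t

theorem abs_sub_le (b : TBx K) (s t : ℝ) :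
    |kEb G ω ηe b s - kEb G ω ηe b t| ≤ 16 / 15 * |s - t| :=
  (HE.en b).abs_sub_le (by linarith [HE.ω0 b]) s t

theorem out (b : TBx K) {t : ℝ} (ht : t ≤ G.tlo true b b.ax ∨ G.thi true b b.ax ≤ t) :
    kEb G ω ηe b t = t := (HE.en b).out ht

theorem mid (b : TBx K) {t : ℝ} (h1 : G.tlo true b b.ax + 32768 * ω b ≤ t)
    (h2 : t ≤ G.thi true b b.ax - 32768 * ω b) : kEb G ω ηe b t = t := (HE.en b).kE_mid h1 h2

theorem abs_clm_le (b : TBx K) (s t : ℝ) :
    |clm (G.tlo true b b.ax) (G.thi true b b.ax) (kEb G ω ηe b s) -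
      clm (G.tlo true b b.ax) (G.thi true b b.ax) (kEb G ω ηe b t)| ≤
      16 / 15 * |clm (G.tlo true b b.ax + 2048 * ω b) (G.thi true b b.ax - 2048 * ω b) s -
        clm (G.tlo true b b.ax + 2048 * ω b) (G.thi true b b.ax - 2048 * ω b) t| +
      ηe b / (2048 * ω b) * |s - t| :=
  (HE.en b).abs_clm_le (by linarith [HE.ω0 b]) s t

/-- room around the boxes -/
theorem rtK_sub {b : TBx K} {u : ℝ} (hu : u ≤ 16777216) : rtK G ω b u ⊆ G.TB false b := by
  rintro y ⟨h1, h2⟩
  have h0 := HE.ω0 b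
  have h3 := HE.o24 b
  rw [Vale.Agent.P073.H669.mem_TB]
  intro i
  by_cases hi : i = b.ax
  · rw [hi, (tlo_ax G).1, (tlo_ax G).2]
    exact h1
  · obtain ⟨h4, h5⟩ := marg G b hi
    obtain ⟨h6, h7⟩ := h2 i hi
    have h8 : u * ω b ≤ 16777216 * ω b := mul_le_mul_of_nonneg_right hu h0.le
    constructor <;> linarith

end EHyp

/-- the box map -/
noncomputable def xE (HE : EHyp G ω ηe) (b : TBx K) : HX 3 where
  j := b.ax
  al := G.tlo true b b.ax
  be := G.thi true b b.ax
  k := kEb G ω ηe b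
  k' := kEi G ω ηe b
  l1 := HE.l1 b
  hab := by linarith [(HE.en b).win, (HE.en b).R0]
  lo := fun i => G.tlo true b i - 200 * ω b
  hi := fun i => G.thi true b i + 200 * ω b
  r := fun _ => 1048576 * ω b
  hr := fun _ => by have := HE.ω0 b; positivity
  D := 2048 * ω b
  hD := fun t => HE.abs_sub_self_le b t

theorem xE_K (HE : EHyp G ω ηe) (b : TBx K) : (xE HE b).K = rtK G ω b 1048776 := by
  ext y
  constructor
  · rintro ⟨h1, h2⟩
    refine ⟨h1, fun i hi => ?_⟩
    obtain ⟨h3, h4⟩ := h2 i hi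
    change G.tlo true b i - 200 * ω b - 1048576 * ω b ≤ y i at h3
    change y i ≤ G.thi true b i + 200 * ω b + 1048576 * ω b at h4
    constructor <;> linarith
  · rintro ⟨h1, h2⟩
    refine ⟨h1, fun i hi => ?_⟩
    obtain ⟨h3, h4⟩ := h2 i hi
    constructor
    · change G.tlo true b i - 200 * ω b - 1048576 * ω b ≤ y i
      linarith
    · change y i ≤ G.thi true b i + 200 * ω b + 1048576 * ω b
      linarith

/-- **the family** -/
noncomputable def FE (HE : EHyp G ω ηe) (G₀ : Set (TBx K)) : HFam 3 G₀ Λ where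
  X := fun b => xE HE b.1
  sub := fun b => by
    rw [xE_K]
    exact (HE.rtK_sub (by norm_num)).trans (TB_sub b.1)
  lf := fun z hz => by
    obtain ⟨U, hU, hf⟩ := lf_TB G z hz
    refine ⟨U, hU, (hf.preimage (f := fun b : G₀ => b.1) Subtype.val_injective.injOn).subset ?_⟩
    rintro b ⟨x, hx, hxU⟩
    rw [xE_K] at hx
    exact ⟨x, HE.rtK_sub (by norm_num) hx, hxU⟩
  dis := fun b b' hne => by
    rw [xE_K, xE_K]
    exact (disjoint_TB (G := G) fun hh => hne (Subtype.ext hh)).mono
      (interior_mono (HE.rtK_sub (by norm_num))) (HE.rtK_sub (by norm_num))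

/-- the big boxes, lateral corners -/
noncomputable abbrev loF (G : Geo B) (b : G₀) (i : Fin 3) : ℝ := G.tlo false b.1 i
noncomputable abbrev hiF (G : Geo B) (b : G₀) (i : Fin 3) : ℝ := G.thi false b.1 i

theorem bigBox_TB (b : G₀) :
    bigBox (jR b) (alR G b) (beR G b) (loF G b) (hiF G b) = G.TB false b.1 := by
  ext y
  rw [Vale.Agent.P073.H669.mem_TB]
  constructor
  · rintro ⟨h1, h2⟩ i
    by_cases hi : i = b.1.ax
    · rw [hi, (tlo_ax G).1, (tlo_ax G).2]; exact h1
    · exact h2 i hi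
  · intro hy
    refine ⟨?_, fun i _ => hy i⟩
    have := hy b.1.ax
    rwa [(tlo_ax G).1, (tlo_ax G).2] at this

theorem lf_TBF (G : Geo B) (G₀ : Set (TBx K)) : ∀ z ∈ Λ, ∃ U ∈ 𝓝 z,
    {b : G₀ | (bigBox (jR b) (alR G b) (beR G b) (loF G b) (hiF G b) ∩ U).Nonempty}.Finite := by
  intro z hz
  obtain ⟨U, hU, hf⟩ := lf_TB G z hz
  refine ⟨U, hU, (hf.preimage (f := fun b : G₀ => b.1) Subtype.val_injective.injOn).subset ?_⟩
  rintro b ⟨x, hx, hxU⟩
  rw [bigBox_TB] at hx
  exact ⟨x, hx, hxU⟩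

theorem overE (HE : EHyp G ω ηe) :
    Over (FE HE G₀) jR (alR G) (beR G) (loF G) (hiF G) where
  hj := fun _ => rfl
  hal := fun _ => rfl
  hbe := fun _ => rfl
  hlo := fun b i hi => by
    have h0 := HE.ω0 b.1
    have h1 := HE.o24 b.1
    have h2 := (marg G b.1 hi).1
    show G.tlo false b.1 i ≤ G.tlo true b.1 i - 200 * ω b.1 - 1048576 * ω b.1
    linarith
  hhi := fun b i hi => by
    have h0 := HE.ω0 b.1
    have h1 := HE.o24 b.1
    have h2 := (marg G b.1 hi).2
    show G.thi true b.1 i + 200 * ω b.1 + 1048576 * ω b.1 ≤ G.thi false b.1 i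
    linarith
  dis := fun b b' hne y hy hy' => by
    have e : ((FE HE G₀).X b').K = rtK G ω b'.1 1048776 := xE_K HE b'.1
    rw [e] at hy
    refine (disjoint_TB (G := G) fun hh => hne (Subtype.ext hh.symm)).notMem_of_mem_left
      (interior_mono (HE.rtK_sub (by norm_num)) hy) ?_
    rw [← bigBox_TB b]
    exact hy'

/-- the height of the squeeze -/
noncomputable def hgtE (HE : EHyp G ω ηe) (b : G₀) (y : V) : ℝ := (xE HE b.1).m y

theorem hgtE_nonneg (HE : EHyp G ω ηe) (b : G₀) (y : V) : 0 ≤ hgtE HE b y := (xE HE b.1).vd.m0 y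

/-- the vertical function of the squeeze -/
noncomputable def pE (HE : EHyp G ω ηe) (b : G₀) (y : V) (t : ℝ) : ℝ :=
  cl (kEb G ω ηe b.1) (hgtE HE b y) t

section psi

variable {HE : EHyp G ω ηe} {Ψ : ConHomeo Λ Λ} (hΨ : (FE HE G₀).IsH Ψ)
include hΨ

/-- **the vertical formula** -/
theorem vrt_psi :
    Vrt (ι := G₀) Ψ.toFun jR (alR G) (beR G) (loF G) (hiF G) (pE HE) := (overE HE).vrt hΨ

theorem psi_eq {b : G₀} {y : V} (hy : y ∈ G.TB false b.1) :
    Ψ.toFun y = Function.update y b.1.ax (pE HE b y (y b.1.ax)) :=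
  (vrt_psi hΨ).on b y (by rw [bigBox_TB]; exact hy)

/-- **the full zone** -/
theorem psi_full {b : G₀} {y : V} (hy : y ∈ rtK G ω b.1 200) :
    Ψ.toFun y = Function.update y b.1.ax (kEb G ω ηe b.1 (y b.1.ax)) := hΨ.full (b := b) hy

theorem psi_off {y : V} (hy : ∀ b : G₀, y ∉ G.TB false b.1) : Ψ.toFun y = y :=
  hΨ.off y fun b hb => hy b (HE.rtK_sub (u := 1048776) (by norm_num)
    (by rw [← xE_K HE]; exact hb))

theorem psi_ne {b : G₀} {y : V} (hy : y ∈ G.TB false b.1) {l : Fin 3} (hl : l ≠ b.1.ax) :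
    Ψ.toFun y l = y l := by
  rw [psi_eq hΨ hy, Function.update_of_ne hl]

theorem psi_mem {b : G₀} {y : V} (hy : y ∈ G.TB false b.1) : Ψ.toFun y ∈ G.TB false b.1 := by
  have h1 := (vrt_psi hΨ).mem (b := b) (by rw [bigBox_TB]; exact hy)
  rwa [bigBox_TB] at h1

/-- **the middle is fixed** -/
theorem psi_mid {b : G₀} {y : V} (hy : y ∈ G.TB false b.1)
    (h1 : G.tlo true b.1 b.1.ax + 32768 * ω b.1 ≤ y b.1.ax)
    (h2 : y b.1.ax ≤ G.thi true b.1 b.1.ax - 32768 * ω b.1) : Ψ.toFun y = y := by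
  have h3 : pE HE b y (y b.1.ax) = y b.1.ax := cl_fix (hgtE_nonneg HE b y) (HE.mid b.1 h1 h2)
  rw [psi_eq hΨ hy, h3, Function.update_eq_self]

/-- **the pair estimate** -/
theorem psi_pair {b : G₀} {y y' : V} (hy : y ∈ G.TB false b.1) (hy' : y' ∈ G.TB false b.1)
    {d : ℝ} (hd0 : 0 ≤ d) (hd : ∀ i, i ≠ b.1.ax → |y i - y' i| ≤ d) :
    |Ψ.toFun y b.1.ax - Ψ.toFun y' b.1.ax| ≤ 16 / 15 * |y b.1.ax - y' b.1.ax| + d / 512 := by
  rw [psi_eq hΨ hy, psi_eq hΨ hy', Function.update_self, Function.update_self]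
  have h1 := abs_cl_sub_cl_le (m := hgtE HE b y) (m' := hgtE HE b y')
    (by norm_num : (1:ℝ) ≤ 16 / 15) (HE.abs_sub_le b.1 (y b.1.ax) (y' b.1.ax))
  have h0 := HE.ω0 b.1
  have h2 : |hgtE HE b y - hgtE HE b y'| ≤ 2048 * ω b.1 * (d / (1048576 * ω b.1)) :=
    abs_bmp_sub_le (xE HE b.1).D0 (mul_pos (by norm_num) h0) (fun _ => le_rfl) hd hd0
  have h3 : 2048 * ω b.1 * (d / (1048576 * ω b.1)) = d / 512 := by
    rw [show 1048576 * ω b.1 = 2048 * ω b.1 * 512 by ring, ← div_div, mul_div_assoc',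
      mul_div_assoc', mul_div_cancel_left₀ _ (by positivity)]
  rw [h3] at h2
  exact h1.trans (add_le_add le_rfl h2)

theorem psi_pair_norm {b : G₀} {y y' : V} (hy : y ∈ G.TB false b.1) (hy' : y' ∈ G.TB false b.1) :
    |Ψ.toFun y b.1.ax - Ψ.toFun y' b.1.ax| ≤
      16 / 15 * |y b.1.ax - y' b.1.ax| + 1 / 512 * ‖y - y'‖ := by
  refine (psi_pair hΨ hy hy' (norm_nonneg (y - y')) fun i _ => ?_).trans (le_of_eq (by ring))
  have := norm_le_pi_norm (y - y') i
  rwa [Pi.sub_apply, Real.norm_eq_abs] at this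

/-- displacement -/
theorem psi_near {b : G₀} {y : V} (hy : y ∈ G.TB false b.1) :
    ‖Ψ.toFun y - y‖ ≤ 2048 * ω b.1 := by
  have h0 := HE.ω0 b.1
  rw [psi_eq hΨ hy, pi_norm_le_iff_of_nonneg (by positivity)]
  intro i
  by_cases hi : i = b.1.ax
  · subst hi
    rw [Pi.sub_apply, Function.update_self, Real.norm_eq_abs]
    exact (abs_cl_sub_le' (hgtE_nonneg HE b y)).trans (HE.abs_sub_self_le b.1 _)
  · rw [Pi.sub_apply, Function.update_of_ne hi, sub_self, norm_zero]
    positivity

/-- the lower end zone is squeezed, full zone -/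
theorem psi_end_lo {b : G₀} {y : V} (hy : y ∈ rtK G ω b.1 200)
    (h1 : y b.1.ax ≤ G.tlo true b.1 b.1.ax + 2048 * ω b.1) :
    Ψ.toFun y b.1.ax ≤ G.tlo true b.1 b.1.ax + ηe b.1 := by
  rw [psi_full hΨ hy, Function.update_self]
  exact (HE.en b.1).kE_le h1

theorem psi_end_hi {b : G₀} {y : V} (hy : y ∈ rtK G ω b.1 200)
    (h1 : G.thi true b.1 b.1.ax - 2048 * ω b.1 ≤ y b.1.ax) :
    G.thi true b.1 b.1.ax - ηe b.1 ≤ Ψ.toFun y b.1.ax := by
  rw [psi_full hΨ hy, Function.update_self]
  exact (HE.en b.1).le_kE h1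

/-- a point of `rtK 200` with image off the end zones -/
theorem psi_in {b : G₀} {y : V} (hy : y ∈ rtK G ω b.1 200)
    (h1 : G.tlo true b.1 b.1.ax + ηe b.1 < Ψ.toFun y b.1.ax)
    (h2 : Ψ.toFun y b.1.ax < G.thi true b.1 b.1.ax - ηe b.1) :
    G.tlo true b.1 b.1.ax + 2048 * ω b.1 < y b.1.ax ∧
      y b.1.ax < G.thi true b.1 b.1.ax - 2048 * ω b.1 := by
  rw [psi_full hΨ hy, Function.update_self] at h1 h2
  exact ⟨(HE.en b.1).lt_of_lt_kE h1, (HE.en b.1).lt_of_kE_lt h2⟩

/-- `Ψ` preserves `rtK u`, in both directions -/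
theorem psi_rtK {b : G₀} {y : V} (hy : y ∈ Λ) {u : ℝ} (hu : u ≤ 16777216) :
    Ψ.toFun y ∈ rtK G ω b.1 u ↔ y ∈ rtK G ω b.1 u := by
  have key : ∀ {z : V}, z ∈ G.TB false b.1 →
      (Ψ.toFun z ∈ rtK G ω b.1 u ↔ z ∈ rtK G ω b.1 u) := by
    intro z hz
    have h1 := psi_mem hΨ hz
    have h2 : ∀ w ∈ G.TB false b.1, G.tlo true b.1 b.1.ax ≤ w b.1.ax ∧
        w b.1.ax ≤ G.thi true b.1 b.1.ax := fun w hw => by
      rw [Vale.Agent.P073.H669.mem_TB] at hw
      have := hw b.1.ax
      rwa [(tlo_ax G).1, (tlo_ax G).2] at this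
    constructor
    · rintro ⟨-, h4⟩
      exact ⟨h2 z hz, fun i hi => by have := h4 i hi; rwa [psi_ne hΨ hz hi] at this⟩
    · rintro ⟨-, h4⟩
      exact ⟨h2 _ h1, fun i hi => by rw [psi_ne hΨ hz hi]; exact h4 i hi⟩
  constructor
  · intro h1
    by_cases hex : ∃ b' : G₀, y ∈ G.TB false b'.1
    · obtain ⟨b', hb'⟩ := hex
      by_cases hbb : y ∈ G.TB false b.1
      · exact (key hbb).1 h1
      · -- the point moves in another box, and stays in it
        have h2 := psi_mem hΨ hb'
        have h3 : b'.1 ≠ b.1 := fun e => hbb (e ▸ hb')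
        exact absurd h1 fun h1 => by
          have h4 : Ψ.toFun y ∈ G.TB false b.1 := HE.rtK_sub hu h1
          have h5 : Ψ.symm.toFun (Ψ.toFun y) ∈ G.TB false b.1 := by
            have h6 : Ψ.invFun (Ψ.toFun y) = y := Ψ.left_inv hy
            have h7 := (hΨ.mem_iff (b := b) hy).1
            by_cases h8 : Ψ.toFun y ∈ ((FE HE G₀).X b).K
            · have h9 := h7 h8
              exact absurd (HE.rtK_sub (u := 1048776) (by norm_num)
                  (by rw [← xE_K HE]; exact h9)) hbb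
            · show Ψ.invFun (Ψ.toFun y) ∈ G.TB false b.1
              by_cases h10 : ∃ b'' : G₀, Ψ.toFun y ∈ ((FE HE G₀).X b'').K
              · obtain ⟨b'', h10⟩ := h10
                have e1 := hΨ.on' b'' _ h10
                have hne : b'' ≠ b := by rintro rfl; exact h8 h10
                have h11 : Ψ.toFun y ∉ interior ((FE HE G₀).X b'').K := fun h12 => by
                  have e2 : ((FE HE G₀).X b'').K = rtK G ω b''.1 1048776 := xE_K HE b''.1
                  rw [e2] at h12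
                  exact (disjoint_TB (G := G) fun hh => hne (Subtype.ext hh)).notMem_of_mem_left
                    (interior_mono (HE.rtK_sub (by norm_num)) h12) h4
                rw [e1, ((FE HE G₀).X b'').supp'.bdry h11]
                exact h4
              · push Not at h10
                rw [hΨ.off' _ h10]
                exact h4
          rw [show Ψ.symm.toFun (Ψ.toFun y) = y from Ψ.left_inv hy] at h5
          exact hbb h5
    · push Not at hex
      rwa [psi_off hΨ hex] at h1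
  · intro h1
    exact (key (HE.rtK_sub hu h1)).2 h1

end psi

end P073.H236
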