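import Vale.Agent.P073.H236.SE1

/-!
# P073, H236, **[T-END]**, part 2: `S⁺ = Ψ ∘ S`: vertical formula, good coordinates, displacement,
targets, trimmed slivers
-/

open Set Metric Topology Filter

namespace P073.H236

open _root_.P073 _root_.P073.Net _root_.P073.PA691 _root_.P073.H196
open _root_.P073.H579 hiding clm
open _root_.P073.PR720 (LF)
open Vale.Agent.P073.St (V)
open Vale.Agent.P073.H471 Vale.Agent.P073.H267 Vale.Agent.P073.H267.Geo
open Vale.Agent.P073.H73 (Mesh)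
open Vale.Agent.P073.H193 (Edges)
open Vale.Agent.P073.H238 (oT TMid marg)
open Vale.Agent.P073.H669 (TLv)
open Vale.Agent.P073.H581 (TileIff Sat sat_TB tileIff_of_boxes)

variable {Ω Λ : Set V} {v : V} {K : BoxCx Λ v} {S₀ : Rad K} {Wd : Wid K S₀} {B : Boxes Wd}
  {G : Geo B} {M : Mesh Ω} {E : Edges M} {h h' : ConHomeo Ω Λ} {ω : TBx K → ℝ}
  {T : TBx K → Finset (ℝ × ℝ)} {η : ℝ} {τ : Type*} {A : τ → Set V} {C : Set ℝ} {εE : E.ε → ℝ}
  {δ : TBx K → ℝ} {L : TLv G E h ω T η A C εE δ} {G₀ : Set (TBx K)} {ηe : TBx K → ℝ}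
  {c : TBx K → ℝ} {hc0 : ∀ b, 0 < c b} {hc : ∀ b, c b ≤ δ b / 8}
  {e : TBx K → ℝ} {he : ∀ b, 0 < e b} {he2 : ∀ b, 2 * e b < δ b}
  {V₀ : G₀ → Finset ℝ}
  {X : FixD (F1 L hc0 hc he he2 G₀) V₀} {Hα H₁ Tf Ψ : ConHomeo Λ Λ} {HE : EHyp G ω ηe}

/-! ### the old staircase over the big boxes `TB false` -/

/-- families of `rtFam`, over the big boxes -/
theorem over_rtF (L : TLv G E h ω T η A C εE δ) {u w : ℝ} {hw : 0 < w} {huw : u + w ≤ 60}
    {k k' : G₀ → ℝ → ℝ}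
    {l1 : ∀ b : G₀, L1 (G.tlo true b.1 b.1.ax) (G.thi true b.1 b.1.ax) (k b) (k' b)}
    {D : G₀ → ℝ} {hD : ∀ b t, |k b t - t| ≤ D b} :
    Over (rtFam L u w hw huw l1 D hD) jR (alR G) (beR G) (loF G) (hiF G) where
  hj := fun _ => rfl
  hal := fun _ => rfl
  hbe := fun _ => rfl
  hlo := fun b i hi => by
    have h0 := L.ω0 b.1
    have h1 := L.ωo b.1
    have h2 := (marg G b.1 hi).1
    show G.tlo false b.1 i ≤ G.tlo true b.1 i - u * ω b.1 - w * ω b.1
    nlinarith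
  hhi := fun b i hi => by
    have h0 := L.ω0 b.1
    have h1 := L.ωo b.1
    have h2 := (marg G b.1 hi).2
    show G.thi true b.1 i + u * ω b.1 + w * ω b.1 ≤ G.thi false b.1 i
    nlinarith
  dis := fun b b' hne y hy hy' => by
    have e : ((rtFam L u w hw huw l1 D hD).X b').K = rtK G ω b'.1 (u + w) :=
      rtX_K L (hw := hw) (l1 := l1 b') (D := D b') (hD := hD b')
    rw [e] at hy
    refine (disjoint_TB (G := G) fun hh => hne (Subtype.ext hh.symm)).notMem_of_mem_left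
      (interior_mono (rtK_sub L (by linarith)) hy) ?_
    rw [← bigBox_TB b]
    exact hy'

theorem overAF : Over (FA L hc0 hc G₀) jR (alR G) (beR G) (loF G) (hiF G) := over_rtF L

theorem over1F : Over (F1 L hc0 hc he he2 G₀) jR (alR G) (beR G) (loF G) (hiF G) := over_rtF L

theorem overTF : Over X.hfam jR (alR G) (beR G) (loF G) (hiF G) := by
  have o₁ := over1F (L := L) (hc0 := hc0) (hc := hc) (he := he) (he2 := he2) (G₀ := G₀)
  exact ⟨o₁.hj, o₁.hal, o₁.hbe, o₁.hlo, o₁.hhi, o₁.dis⟩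

namespace RTS

variable (H : RTS L hc0 hc he he2 X Hα H₁ Tf)
include H

/-- **the vertical formula of `S` over the boxes `TB false`** -/
theorem vrtF :
    Vrt ((Hα.trans H₁).trans Tf).toFun jR (alR G) (beR G) (loF G) (hiF G) (ph X) :=
  (overTF.vrt H.hT).comp ((over1F.vrt H.h₁).comp (overAF.vrt H.hα))

end RTS

/-- the vertical function of `S⁺` -/
noncomputable def phE (X : FixD (F1 L hc0 hc he he2 G₀) V₀) (HE : EHyp G ω ηe) (b : G₀) (y : V)
    (t : ℝ) : ℝ := pE HE b y (ph X b y t)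

/-- **the vertical formula of `S⁺`** -/
theorem vrtE (H : RTS L hc0 hc he he2 X Hα H₁ Tf) (hΨ : (FE HE G₀).IsH Ψ) :
    Vrt (((Hα.trans H₁).trans Tf).trans Ψ).toFun jR (alR G) (beR G) (loF G) (hiF G)
      (phE X HE) := (vrt_psi hΨ).comp H.vrtF

/-- the good coordinates are off the end zones -/
def FarE (G : Geo B) (ω : TBx K → ℝ) (V₀ : G₀ → Finset ℝ) : Prop :=
  ∀ b : G₀, ∀ t ∈ V₀ b, G.tlo true b.1 b.1.ax + 32768 * ω b.1 ≤ t ∧
    t ≤ G.thi true b.1 b.1.ax - 32768 * ω b.1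

/-- the squeeze fixes the good coordinates -/
theorem vfx_pE (HE : EHyp G ω ηe) (hV : FarE G ω V₀) : VFx (WR G V₀) (pE (G₀ := G₀) HE) where
  mono := fun b y => cl_strictMono (HE.l1 b.1).km _
  fix := fun b y t ht => by
    refine cl_fix (hgtE_nonneg HE b y) ?_
    rcases ht with ht | ht
    · obtain ⟨h1, h2⟩ := hV b t ht
      exact HE.mid b.1 h1 h2
    · exact HE.out b.1 ht

theorem vfx_phE (X : FixD (F1 L hc0 hc he he2 G₀) V₀) (hf : FarV L V₀) (HE : EHyp G ω ηe)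
    (hV : FarE G ω V₀) : VFx (WR G V₀) (phE X HE) := (vfx_pE HE hV).comp (vfx_ph X hf)

/-- vertical maps of the big boxes -/
theorem mv_of_vrtF {F : V → V} {φ : G₀ → V → ℝ → ℝ}
    (H : Vrt F jR (alR G) (beR G) (loF G) (hiF G) φ) {r : G₀ → ℝ} (hr : ∀ b, 0 ≤ r b)
    (hφ : ∀ b, ∀ y ∈ G.TB false b.1, |φ b y (y b.1.ax) - y b.1.ax| ≤ r b) :
    Mv (fun b : G₀ => G.TB false b.1) r F where
  mem := fun b y hy => by
    rw [← bigBox_TB b] at hy ⊢
    exact H.mem hy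
  near := fun b y hy => by
    rw [H.on b y (by rw [bigBox_TB]; exact hy), pi_norm_le_iff_of_nonneg (hr b)]
    intro i
    by_cases hi : i = b.1.ax
    · subst hi
      rw [Pi.sub_apply, Function.update_self, Real.norm_eq_abs]
      exact hφ b y hy
    · rw [Pi.sub_apply, Function.update_of_ne hi, sub_self, norm_zero]
      exact hr b
  off := fun y hy => H.off y fun b hb => hy b (by rwa [bigBox_TB] at hb)

/-- vertical maps of the big boxes preserve the tiles -/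
theorem tileIff_of_vrtF {ρ : V → ℝ} (hC : Cells ρ v K) {F : V → V}
    {φ : G₀ → V → ℝ → ℝ} (H : Vrt F jR (alR G) (beR G) (loF G) (hiF G) φ) :
    TileIff Λ ρ v F :=
  tileIff_of_boxes (fun b : G₀ => G.TB false b.1) (fun b => {b.1.ax})
    (fun b => sat_TB hC G b.1) (fun b => Geo.TB_sub b.1)
    (fun y _ hy => H.off y fun b hb => hy b (by rwa [bigBox_TB] at hb))
    fun b y hy => by
      have hy' : y ∈ bigBox (jR b) (alR G b) (beR G b) (loF G b) (hiF G b) := by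
        rw [bigBox_TB]; exact hy
      refine ⟨by rw [← bigBox_TB b]; exact H.mem hy', fun k hk => ?_⟩
      rw [H.on b y hy', Function.update_of_ne (by simpa using hk)]

/-- **`Mv` of `Ψ`** -/
theorem mv_psi (hΨ : (FE HE G₀).IsH Ψ) :
    Mv (fun b : G₀ => G.TB false b.1) (fun b => 2048 * ω b.1) Ψ.toFun :=
  ⟨fun _ _ hy => psi_mem hΨ hy, fun _ _ hy => psi_near hΨ hy, fun _ hy => psi_off hΨ hy⟩

/-- **local Lipschitz bound of `Ψ`** -/
theorem psi_ev (hΛ : IsOpen Λ) (hΨ : (FE HE G₀).IsH Ψ) {y : V} (hy : y ∈ Λ) :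
    ∀ᶠ y' in 𝓝 y, ‖Ψ.toFun y' - Ψ.toFun y‖ ≤ 2 * ‖y' - y‖ := by
  refine (vrt_psi hΨ).local_lip hΛ Ψ.cont (by norm_num) (lf_TBF G G₀) (fun b z hz z' hz' => ?_) hy
  have h1 : z ∈ G.TB false b.1 := by rwa [← bigBox_TB b]
  have h2 : z' ∈ G.TB false b.1 := by rwa [← bigBox_TB b]
  have h3 := psi_pair_norm hΨ h1 h2
  rw [psi_eq hΨ h1, psi_eq hΨ h2, Function.update_self, Function.update_self] at h3
  have h4 := norm_le_pi_norm (z - z') b.1.ax
  rw [Pi.sub_apply, Real.norm_eq_abs] at h4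
  refine h3.trans ?_
  linarith [norm_nonneg (z - z')]

/-- the displacement of the old staircase, over the big boxes -/
theorem mvF (H : RTS L hc0 hc he he2 X Hα H₁ Tf) (N : SNum X) :
    Mv (fun b : G₀ => G.TB false b.1) (fun b => 21 * ω b.1) ((Hα.trans H₁).trans Tf).toFun :=
  mv_of_vrtF H.vrtF (fun b => by have := L.ω0 b.1; positivity) fun b y _ => by
    refine (abs_ph_sub_self_le b y _).trans ?_
    have h1 : X.d b ≤ dsp (T b.1) (δ b.1) + δ b.1 / 8 := X.dD b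
    have h2 := N.hω b
    have h3 := L.dsp_nonneg b.1
    linarith

/-- **`Mv` of `S⁺`** -/
theorem mvE (H : RTS L hc0 hc he he2 X Hα H₁ Tf) (N : SNum X) (hΨ : (FE HE G₀).IsH Ψ) :
    Mv (fun b : G₀ => G.TB false b.1) (fun b => 2069 * ω b.1)
      (((Hα.trans H₁).trans Tf).trans Ψ).toFun :=
  (mv_comp (mvF H N) (mv_psi hΨ)).mono fun b => by
    have := L.ω0 b.1
    show 21 * ω b.1 + 2048 * ω b.1 ≤ 2069 * ω b.1
    linarith

/-! ### targets -/

/-- **the targets of `S⁺`** -/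
noncomputable def tgE (X : FixD (F1 L hc0 hc he he2 G₀) V₀) (HE : EHyp G ω ηe) (b : G₀) :
    TG (Bsm G (fun b : G₀ => L.bxQ c hc0 hc b.1) b) :=
  (tgR L hc0 hc he he2 X b).comp (f := kEb G ω ηe b.1) (f' := kEi G ω ηe b.1) (HE.l1 b.1)

theorem tgE_T (X : FixD (F1 L hc0 hc he he2 G₀) V₀) (HE : EHyp G ω ηe) (b : G₀) (k : ℕ) :
    (tgE X HE b).T k = kEb G ω ηe b.1 ((tgR L hc0 hc he he2 X b).T k) := rfl

theorem tgE_T' (X : FixD (F1 L hc0 hc he he2 G₀) V₀) (HE : EHyp G ω ηe) (b : G₀) (k : ℕ) :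
    (tgE X HE b).T' k = kEb G ω ηe b.1 ((tgR L hc0 hc he he2 X b).T' k) := rfl

theorem isFE (H : RTS L hc0 hc he he2 X Hα H₁ Tf) (hΨ : (FE HE G₀).IsH Ψ) (b : G₀) :
    IsF (tgE X HE b) (((Hα.trans H₁).trans Tf).trans Ψ) :=
  (H.isF b).comp (HE.l1 b.1) fun y hy => by
    refine psi_full hΨ ⟨hy.1, fun i hi => ?_⟩
    have h0 := HE.ω0 b.1
    obtain ⟨h1, h2⟩ := hy.2 i hi
    change G.tlo true b.1 i ≤ y i at h1
    change y i ≤ G.thi true b.1 i at h2
    constructor <;> linarith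

theorem tgE_wt (X : FixD (F1 L hc0 hc he he2 G₀) V₀) (hX : ∀ b, 4 * X.d b / X.g b ≤ 1)
    (HE : EHyp G ω ηe) (b : G₀) : (tgE X HE b).Wt (16 / 15 * (2 * 1))
      (16 / 15 * (2 * (e b.1 / c b.1))) (L.a b.1 0 - c b.1) (L.a b.1 (L.N b.1 - 1) + c b.1) :=
  (tgR_wt L hc0 hc he he2 X hX b).comp (HE.l1 b.1) (by norm_num) fun _ _ _ _ =>
    HE.abs_sub_le b.1 _ _

/-! ### slivers, trimmed -/

/-- the slivers, cut off outside of `(lo, hi)` -/
noncomputable def trimS (lo hi : ℝ) (s : Finset (ℝ × ℝ)) : Finset (ℝ × ℝ) := by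
  classical exact s.image fun p => (max p.1 lo, min p.2 hi)

theorem mem_trimS {lo hi : ℝ} {s : Finset (ℝ × ℝ)} {p : ℝ × ℝ} :
    p ∈ trimS lo hi s ↔ ∃ q ∈ s, (max q.1 lo, min q.2 hi) = p := by
  classical
  unfold trimS
  exact Finset.mem_image

theorem card_trimS {lo hi : ℝ} {s : Finset (ℝ × ℝ)} : (trimS lo hi s).card ≤ s.card := by
  classical
  unfold trimS
  exact Finset.card_image_le

theorem noSl_trim {lo hi : ℝ} {s : Finset (ℝ × ℝ)} {t : ℝ} (h : NoSl s t) :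
    NoSl (trimS lo hi s) t := by
  intro p hp ht
  obtain ⟨q, hq, rfl⟩ := mem_trimS.1 hp
  exact h q hq ⟨(le_max_left _ _).trans_lt ht.1, ht.2.trans_le (min_le_left _ _)⟩

theorem noSl_of_trim {lo hi : ℝ} {s : Finset (ℝ × ℝ)} {t : ℝ} (h1 : lo < t) (h2 : t < hi)
    (h : NoSl (trimS lo hi s) t) : NoSl s t := by
  intro p hp ht
  exact h _ (mem_trimS.2 ⟨p, hp, rfl⟩) ⟨max_lt ht.1 h1, lt_min ht.2 h2⟩

/-- **`T3OutG` for the trimmed slivers** -/
theorem T3OutG.trim {h1 : ConHomeo Ω Λ} {m : ℝ} {Act₀ : Set M.κ} {O : M.κ → V} {La : E.ε → ℝ}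
    {Lf : M.κ → E.ε → ℝ} {Lam1 : M.κ → ℝ} {sl : G₀ → Finset (ℝ × ℝ)}
    (H : T3OutG G M E h h1 ω m G₀ Act₀ O La Lf Lam1 sl) {r : G₀ → ℝ} (hr : ∀ b, 0 < r b)
    (hsl : ∀ b : G₀, ∀ p ∈ sl b, p.1 ≤ G.thi true b.1 b.1.ax ∧ G.tlo true b.1 b.1.ax ≤ p.2)
    (hw : ∀ b : G₀, G.tlo true b.1 b.1.ax ≤ G.thi true b.1 b.1.ax) :
    T3OutG G M E h h1 ω m G₀ Act₀ O La Lf Lam1 fun b =>
      trimS (G.tlo true b.1 b.1.ax - r b) (G.thi true b.1 b.1.ax + r b) (sl b) := by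
  have key : ∀ b : G₀, ∀ t ∈ Icc (G.tlo true b.1 b.1.ax) (G.thi true b.1 b.1.ax),
      NoSl (trimS (G.tlo true b.1 b.1.ax - r b) (G.thi true b.1 b.1.ax + r b) (sl b)) t →
      NoSl (sl b) t := fun b t ht h =>
    noSl_of_trim (by linarith [hr b, ht.1]) (by linarith [hr b, ht.2]) h
  have hax : ∀ b : G₀, ∀ y ∈ G.TB true b.1,
      y b.1.ax ∈ Icc (G.tlo true b.1 b.1.ax) (G.thi true b.1 b.1.ax) := fun b y hy =>
    ⟨hy.1 _, hy.2 _⟩
  exact {
    sl_le := fun b p hp => by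
      obtain ⟨q, hq, rfl⟩ := mem_trimS.1 hp
      have h2 := H.sl_le b q hq
      obtain ⟨h3, h4⟩ := hsl b q hq
      have h5 := hr b
      have h6 := hw b
      exact max_le (le_min h2 (by linarith)) (le_min (by linarith) (by linarith))
    ends := fun b =>
      ⟨fun h => (H.ends b).1 (key b _ ⟨le_rfl, hw b⟩ h),
        fun h => (H.ends b).2 (key b _ ⟨hw b, le_rfl⟩ h)⟩
    near := H.near
    off := H.off
    vi := fun X hX b y hy hyb t ht hs => H.vi X hX b y hy hyb t ht fun r' hr' =>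
      key b r' (by
        have h2 := hax b y hyb
        exact (ordConnected_Icc.uIcc_subset h2 ht) hr') (hs r' hr')
    vert := fun x hx b hxb h => H.vert x hx b hxb (key b _ (hax b _ hxb) h)
    deep := H.deep
    cone := H.cone
    elip := H.elip
    lip := H.lip
    circ := fun k hk b t ht σ hσ hσk hσt => by
      obtain ⟨x, hx⟩ := circle_ne hσ
      obtain ⟨h2, h3⟩ := hσt x hx
      have h4 := hax b _ h2
      rw [h3] at h4
      exact H.circ k hk b t (key b t h4 ht) σ hσ hσk hσt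
    edge := fun ed hed b s hs hb hn => by
      obtain ⟨t1, t2, s2, s3, ψ, a1, ⟨p, hp, a2⟩, ⟨q, hq, a3⟩, a4, a5, a6, a7, a8, a9, a10, a11,
        a12, a13⟩ := H.edge ed hed b s hs hb (key b _ (hax b _ hb) hn)
      have h2 := hax b _ hb
      have h3 : ψ s = h1.toFun (AffineMap.lineMap (E.a ed) (E.b ed) s) b.1.ax := by
        have := congrFun (a9 s a8) b.1.ax
        rw [Function.update_self] at this
        exact this.symm
      have h4 : ψ s ∈ Icc t1 t2 := by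
        rw [← a12]; exact mem_image_of_mem _ a8
      rw [h3] at h4
      have h5 := hr b
      refine ⟨t1, t2, s2, s3, ψ, a1, ⟨_, mem_trimS.2 ⟨p, hp, rfl⟩, ?_⟩,
        ⟨_, mem_trimS.2 ⟨q, hq, rfl⟩, ?_⟩, fun r' hr' => noSl_trim (a4 r' hr'), a5, a6, a7, a8,
        a9, a10, a11, a12, a13⟩
      · show min p.2 _ = t1
        rw [a2]
        exact min_eq_left (by linarith [h4.1, h2.2])
      · show max q.1 _ = t2
        rw [a3]
        exact max_eq_left (by linarith [h4.2, h2.1]) }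

end P073.H236
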