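import Vale.Agent.P073.H236.SE2
import Vale.Agent.P073.H579.RTA

/-!
# P073, H236, **[T-END]**, part 3: the slivers of `S⁺`; STAGE 3 of ROUND T for `S⁺`
-/

open Set Metric Topology Filter
open scoped ENNReal

namespace P073.H236

open _root_.P073 _root_.P073.Net _root_.P073.PA691 _root_.P073.H196
open _root_.P073.H579 hiding clm
open _root_.P073.PR720 (LF)
open Vale.Agent.P073.St (V)
open Vale.Agent.P073.H471 Vale.Agent.P073.H267 Vale.Agent.P073.H267.Geo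
open Vale.Agent.P073.H73 (Mesh)
open Vale.Agent.P073.H193 (Edges)
open Vale.Agent.P073.H238 (oT TMid marg)
open Vale.Agent.P073.H669 (TLv)

variable {Ω Λ : Set V} {v : V} {K : BoxCx Λ v} {S₀ : Rad K} {Wd : Wid K S₀} {B : Boxes Wd}
  {G : Geo B} {M : Mesh Ω} {E : Edges M} {h h' : ConHomeo Ω Λ} {ω : TBx K → ℝ}
  {T : TBx K → Finset (ℝ × ℝ)} {η : ℝ} {τ : Type*} {A : τ → Set V} {C : Set ℝ} {εE : E.ε → ℝ}
  {δ : TBx K → ℝ} {L : TLv G E h ω T η A C εE δ} {G₀ : Set (TBx K)} {ηe : TBx K → ℝ}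
  {c : TBx K → ℝ} {hc0 : ∀ b, 0 < c b} {hc : ∀ b, c b ≤ δ b / 8}
  {e : TBx K → ℝ} {he : ∀ b, 0 < e b} {he2 : ∀ b, 2 * e b < δ b}
  {V₀ : G₀ → Finset ℝ}
  {X : FixD (F1 L hc0 hc he he2 G₀) V₀} {Hα H₁ Tf Ψ : ConHomeo Λ Λ} {HE : EHyp G ω ηe}

/-- **the slivers after the squeeze**: two end slivers of length at most `2 σ`, and thin slivers
between the bands -/
def SlIn5 (G : Geo B) (b : TBx K) (σ : ℝ) (sl : Finset (ℝ × ℝ)) : Prop :=
  ∃ (q₀ q₁ q₂ q₃ : ℝ) (inner : Finset (ℝ × ℝ)), G.tlo true b b.ax - σ ≤ q₀ ∧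
    q₀ < G.tlo true b b.ax ∧ G.tlo true b b.ax < q₁ ∧ q₁ ≤ G.tlo true b b.ax + σ ∧
    G.thi true b b.ax - σ ≤ q₂ ∧ q₂ < G.thi true b b.ax ∧ G.thi true b b.ax < q₃ ∧
    q₃ ≤ G.thi true b b.ax + σ ∧ (q₀, q₁) ∈ sl ∧ (q₂, q₃) ∈ sl ∧
    (∀ p ∈ sl, p = (q₀, q₁) ∨ p = (q₂, q₃) ∨ p ∈ inner) ∧
    (∀ p ∈ inner, p.1 ≤ p.2) ∧ ∑ p ∈ inner, (p.2 - p.1) ≤ σ

/-- the slivers of `S⁺` -/
noncomputable def slE (X : FixD (F1 L hc0 hc he he2 G₀) V₀) (HE : EHyp G ω ηe) (σ : G₀ → ℝ)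
    (b : G₀) : Finset (ℝ × ℝ) :=
  trimS (G.tlo true b.1 b.1.ax - σ b) (G.thi true b.1 b.1.ax + σ b) (tgE X HE b).sl

theorem card_slE (X : FixD (F1 L hc0 hc he he2 G₀) V₀) (HE : EHyp G ω ηe) (σ : G₀ → ℝ)
    (b : G₀) : (slE X HE σ b).card ≤ L.N b.1 + 1 := by
  classical
  have hN := L.pos b.1
  refine card_trimS.trans ?_
  unfold TG.sl
  refine (Finset.card_union_le _ _).trans ?_
  have h1 := Finset.card_le_two (a := ((Bsm G (fun b : G₀ => L.bxQ c hc0 hc b.1) b).al -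
    (Bsm G (fun b : G₀ => L.bxQ c hc0 hc b.1) b).c, (tgE X HE b).T 0))
    (b := ((tgE X HE b).T' ((Bsm G (fun b : G₀ => L.bxQ c hc0 hc b.1) b).N - 1),
      (Bsm G (fun b : G₀ => L.bxQ c hc0 hc b.1) b).be +
        (Bsm G (fun b : G₀ => L.bxQ c hc0 hc b.1) b).c))
  have h2 := Finset.card_image_le (s := Finset.range
    ((Bsm G (fun b : G₀ => L.bxQ c hc0 hc b.1) b).N - 1))
    (f := fun k => ((tgE X HE b).T' k, (tgE X HE b).T (k + 1)))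
  rw [Finset.card_range] at h2
  have e1 : (Bsm G (fun b : G₀ => L.bxQ c hc0 hc b.1) b).N = L.N b.1 := rfl
  rw [e1] at h1 h2 ⊢
  omega

/-- the slivers of `tgE` meet the window -/
theorem tgE_sl_win (X : FixD (F1 L hc0 hc he he2 G₀) V₀) (HE : EHyp G ω ηe) (b : G₀) :
    ∀ p ∈ (tgE X HE b).sl, p.1 ≤ G.thi true b.1 b.1.ax ∧ G.tlo true b.1 b.1.ax ≤ p.2 := by
  have hN : 0 < L.N b.1 := L.pos b.1
  have hw := (tlo_lt_thi L b.1).le
  have hc1 := hc0 b.1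
  have hT : ∀ k < L.N b.1, G.tlo true b.1 b.1.ax < (tgE X HE b).T k := fun k hk =>
    (tgE X HE b).al_lt (B := Bsm G (fun b : G₀ => L.bxQ c hc0 hc b.1) b) hk
  have hT' : ∀ k < L.N b.1, (tgE X HE b).T' k < G.thi true b.1 b.1.ax := fun k hk =>
    (tgE X HE b).lt_be (B := Bsm G (fun b : G₀ => L.bxQ c hc0 hc b.1) b) hk
  intro p hp
  rcases (TG.mem_sl _).1 hp with h | h | ⟨k, hk, h⟩
  · subst h
    refine ⟨?_, (hT 0 hN).le⟩
    show G.tlo true b.1 b.1.ax - c b.1 ≤ _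
    linarith
  · subst h
    refine ⟨(hT' (L.N b.1 - 1) (by omega)).le, ?_⟩
    show _ ≤ G.thi true b.1 b.1.ax + c b.1
    linarith
  · subst h
    have hk' : k + 1 < L.N b.1 := hk
    exact ⟨(hT' k (by omega)).le, (hT (k + 1) hk').le⟩

/-- **the slivers of `S⁺`** -/
theorem slIn_E (X : FixD (F1 L hc0 hc he he2 G₀) V₀) (HE : EHyp G ω ηe) (b : G₀)
    (hX : 4 * X.d b / X.g b ≤ 1) (hd : X.d b ≤ dsp (T b.1) (δ b.1))
    (hω : 8 * dsp (T b.1) (δ b.1) ≤ ω b.1) {σ : G₀ → ℝ} (hσ0 : 0 < σ b) (hη : ηe b.1 ≤ σ b)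
    (hσ : 8 * L.N b.1 * e b.1 ≤ σ b) : SlIn5 G b.1 (σ b) (slE X HE σ b) := by
  classical
  have h0 := L.ω0 b.1
  have hδ := L.δ0 b.1
  have hc1 := hc0 b.1
  have hc2 := hc b.1
  have he0 := he b.1
  have he3 := he2 b.1
  have hdsp : δ b.1 ≤ dsp (T b.1) (δ b.1) := delta_le_dsp L b.1
  have hN := L.pos b.1
  have hτd := (X.fix b).disp
  have hτ : ∀ s t, |X.τ b s - X.τ b t| ≤ 2 * |s - t| := fun s t =>
    ((X.fix b).lip s t).trans (mul_le_mul_of_nonneg_right (by linarith) (abs_nonneg _))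
  have hcast : ((L.N b.1 - 1 : ℕ) : ℝ) + 1 = L.N b.1 := by
    rw [Nat.cast_sub hN]; simp
  have a1 := abs_le.1 (hτd (G.tlo true b.1 b.1.ax + 30 * ω b.1 + (0 : ℕ) * δ b.1 + e b.1))
  have a2 := abs_le.1 (hτd (G.tlo true b.1 b.1.ax + 30 * ω b.1 +
    (((L.N b.1 - 1 : ℕ) : ℝ) + 1) * δ b.1 - e b.1))
  rw [hcast] at a2
  have e0 : ((0 : ℕ) : ℝ) * δ b.1 = 0 := by simp
  rw [e0] at a1
  have n1 := (L.cells b.1).num_le
  have n2 := (L.cells b.1).le_num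
  have n3 : dsp (T b.1) (δ b.1) = ∑ p ∈ T b.1, (p.2 - p.1) + (2 * ((T b.1).card : ℝ) + 1) * δ b.1 :=
    rfl
  have hEN := HE.en b.1
  have hw := hEN.win
  have hT : ∀ k < L.N b.1, G.tlo true b.1 b.1.ax < (tgE X HE b).T k := fun k hk =>
    (tgE X HE b).al_lt (B := Bsm G (fun b : G₀ => L.bxQ c hc0 hc b.1) b) hk
  have hT' : ∀ k < L.N b.1, (tgE X HE b).T' k < G.thi true b.1 b.1.ax := fun k hk =>
    (tgE X HE b).lt_be (B := Bsm G (fun b : G₀ => L.bxQ c hc0 hc b.1) b) hk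
  set inner : Finset (ℝ × ℝ) := (Finset.range (L.N b.1 - 1)).image fun k =>
    ((tgE X HE b).T' k, (tgE X HE b).T (k + 1)) with hin
  have hk : ∀ k : ℕ, (tgE X HE b).T' k ≤ (tgE X HE b).T (k + 1) ∧
      (tgE X HE b).T (k + 1) - (tgE X HE b).T' k ≤ 8 * e b.1 := by
    intro k
    rw [tgE_T, tgE_T', tgR_T, tgR_T']
    push_cast
    have h1 := hτ (G.tlo true b.1 b.1.ax + 30 * ω b.1 + ((k:ℝ) + 1) * δ b.1 + e b.1)
      (G.tlo true b.1 b.1.ax + 30 * ω b.1 + ((k:ℝ) + 1) * δ b.1 - e b.1)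
    have h2 : |G.tlo true b.1 b.1.ax + 30 * ω b.1 + ((k:ℝ) + 1) * δ b.1 + e b.1 -
        (G.tlo true b.1 b.1.ax + 30 * ω b.1 + ((k:ℝ) + 1) * δ b.1 - e b.1)| = 2 * e b.1 := by
      rw [show ∀ x y : ℝ, x + y - (x - y) = 2 * y by intro x y; ring]
      exact abs_of_pos (by linarith)
    rw [h2] at h1
    have hm : X.τ b (G.tlo true b.1 b.1.ax + 30 * ω b.1 + ((k:ℝ) + 1) * δ b.1 - e b.1) ≤
        X.τ b (G.tlo true b.1 b.1.ax + 30 * ω b.1 + ((k:ℝ) + 1) * δ b.1 + e b.1) :=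
      (X.fix b).mono.monotone (by linarith)
    refine ⟨hEN.mono.monotone hm, ?_⟩
    have h3 := HE.abs_sub_le b.1
      (X.τ b (G.tlo true b.1 b.1.ax + 30 * ω b.1 + ((k:ℝ) + 1) * δ b.1 + e b.1))
      (X.τ b (G.tlo true b.1 b.1.ax + 30 * ω b.1 + ((k:ℝ) + 1) * δ b.1 - e b.1))
    have h4 := (le_abs_self _).trans h3
    linarith
  have hT0 : (tgE X HE b).T 0 ≤ G.tlo true b.1 b.1.ax + ηe b.1 := by
    rw [tgE_T]
    refine hEN.kE_le ?_
    rw [tgR_T, e0]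
    linarith
  have hTN : G.thi true b.1 b.1.ax - ηe b.1 ≤ (tgE X HE b).T' (L.N b.1 - 1) := by
    rw [tgE_T']
    refine hEN.le_kE ?_
    rw [tgR_T', hcast]
    linarith
  have hT00 := hT 0 hN
  have hTN0 := hT' (L.N b.1 - 1) (by omega)
  refine ⟨max (G.tlo true b.1 b.1.ax - c b.1) (G.tlo true b.1 b.1.ax - σ b), (tgE X HE b).T 0,
    (tgE X HE b).T' (L.N b.1 - 1), min (G.thi true b.1 b.1.ax + c b.1)
    (G.thi true b.1 b.1.ax + σ b), inner, le_max_right _ _, max_lt (by linarith) (by linarith),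
    hT00, by linarith, by linarith, hTN0, lt_min (by linarith) (by linarith), min_le_right _ _,
    ?_, ?_, ?_, ?_, ?_⟩
  · refine mem_trimS.2 ⟨_, (TG.mem_sl _).2 (Or.inl rfl), ?_⟩
    refine Prod.ext rfl ?_
    show min ((tgE X HE b).T 0) (G.thi true b.1 b.1.ax + σ b) = (tgE X HE b).T 0
    refine min_eq_left ?_
    have := hEN.R0
    have h3 := HE.ηω b.1
    have h4 : 32768 * ω b.1 = 32768 * ω b.1 := rfl
    linarith
  · refine mem_trimS.2 ⟨_, (TG.mem_sl _).2 (Or.inr (Or.inl rfl)), ?_⟩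
    refine Prod.ext ?_ rfl
    show max ((tgE X HE b).T' (L.N b.1 - 1)) (G.tlo true b.1 b.1.ax - σ b) =
      (tgE X HE b).T' (L.N b.1 - 1)
    refine max_eq_left ?_
    have h3 := HE.ηω b.1
    linarith
  · intro p hp
    obtain ⟨q, hq, rfl⟩ := mem_trimS.1 hp
    rcases (TG.mem_sl _).1 hq with h | h | ⟨k, hk', h⟩
    · subst h
      refine Or.inl (Prod.ext rfl ?_)
      show min ((tgE X HE b).T 0) (G.thi true b.1 b.1.ax + σ b) = (tgE X HE b).T 0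
      have h3 := HE.ηω b.1
      exact min_eq_left (by linarith)
    · subst h
      refine Or.inr (Or.inl (Prod.ext ?_ rfl))
      show max ((tgE X HE b).T' (L.N b.1 - 1)) (G.tlo true b.1 b.1.ax - σ b) =
        (tgE X HE b).T' (L.N b.1 - 1)
      have h3 := HE.ηω b.1
      exact max_eq_left (by linarith)
    · subst h
      have hk2 : k + 1 < L.N b.1 := hk'
      refine Or.inr (Or.inr ?_)
      have h3 : G.tlo true b.1 b.1.ax - σ b ≤ (tgE X HE b).T' k := by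
        have h4 := hT k (by omega)
        have h5 := (tgE X HE b).T_lt (k := k)
          (show k < (Bsm G (fun b : G₀ => L.bxQ c hc0 hc b.1) b).N from by
            show k < L.N b.1
            omega)
        linarith
      have h6 : (tgE X HE b).T (k + 1) ≤ G.thi true b.1 b.1.ax + σ b := by
        have h4 := hT' (k + 1) hk2
        have h5 := (tgE X HE b).T_lt (k := k + 1)
          (show k + 1 < (Bsm G (fun b : G₀ => L.bxQ c hc0 hc b.1) b).N from hk2)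
        linarith
      rw [max_eq_left h3, min_eq_left h6, hin, Finset.mem_image]
      exact ⟨k, Finset.mem_range.2 (by omega), rfl⟩
  · intro p hp
    rw [hin, Finset.mem_image] at hp
    obtain ⟨k, -, rfl⟩ := hp
    exact (hk k).1
  · rw [hin]
    refine (Finset.sum_image_le_of_nonneg fun p hp => ?_).trans ?_
    · obtain ⟨k, -, rfl⟩ := Finset.mem_image.1 hp
      have := (hk k).1
      show 0 ≤ (tgE X HE b).T (k + 1) - (tgE X HE b).T' k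
      linarith
    · refine (Finset.sum_le_sum fun k _ => (hk k).2).trans ?_
      rw [Finset.sum_const, Finset.card_range, nsmul_eq_mul]
      have h5 : ((L.N b.1 - 1 : ℕ) : ℝ) ≤ L.N b.1 := by linarith
      nlinarith

/-- **EXISTENCE OF THE STAIRCASES of ROUND T with the squeeze**: `e ≤ e₁`; the squeeze number
`ηe ≤ σ` is chosen after `S` -/
theorem exists_rtE (hΛ : IsOpen Λ) (L : TLv G E h ω T η A C εE δ) (hc0 : ∀ b, 0 < c b)
    (hc : ∀ b, c b ≤ δ b / 8) {g : G₀ → ℝ} (H : FixN L V₀ g)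
    (hω : ∀ b : G₀, 8 * dsp (T b.1) (δ b.1) ≤ ω b.1) {e₁ : TBx K → ℝ} (he₁ : ∀ b, 0 < e₁ b)
    {σ : G₀ → ℝ} (hσ : ∀ b, 0 < σ b) :
    ∃ (e : TBx K → ℝ) (he : ∀ b, 0 < e b) (he2 : ∀ b, 2 * e b < δ b) (Hα H₁ Tf : ConHomeo Λ Λ),
      (∀ b, e b ≤ e₁ b) ∧ RTS L hc0 hc he he2 (fixD L hc0 hc he he2 H) Hα H₁ Tf ∧
      SNum (fixD L hc0 hc he he2 H) ∧
      ∀ (ηe : TBx K → ℝ) (HE : EHyp G ω ηe), (∀ b : G₀, ηe b.1 ≤ σ b) → ∀ b : G₀,
        SlIn5 G b.1 (σ b) (slE (fixD L hc0 hc he he2 H) HE σ b) ∧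
        (slE (fixD L hc0 hc he he2 H) HE σ b).card ≤ L.N b.1 + 1 := by
  classical
  set σ' : TBx K → ℝ := fun b => if hb : b ∈ G₀ then σ ⟨b, hb⟩ else 1 with hσ'
  have hσ0 : ∀ b, 0 < σ' b := fun b => by
    rw [hσ']; dsimp only
    split_ifs with hb
    · exact hσ _
    · exact one_pos
  have hσe : ∀ b : G₀, σ' b.1 = σ b := fun b => by
    rw [hσ']; dsimp only
    rw [dif_pos b.2]
  set e : TBx K → ℝ := fun b => min (min (e₁ b) (δ b / 8)) (σ' b / (8 * (L.N b + 1))) with hedef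
  have he : ∀ b, 0 < e b := fun b => by
    have h1 := L.δ0 b
    have h2 := he₁ b
    have h3 := hσ0 b
    exact lt_min (lt_min h2 (by positivity)) (by positivity)
  have he8 : ∀ b, e b ≤ δ b / 8 := fun b => (min_le_left _ _).trans (min_le_right _ _)
  have he2 : ∀ b, 2 * e b < δ b := fun b => by linarith [he8 b, L.δ0 b]
  obtain ⟨Hα, H₁, Tf, HR⟩ := exists_rts L hc0 hc he he2 hΛ (fixD L hc0 hc he he2 H)
  have heps : ∀ b, 4 * (fixD L hc0 hc he he2 H).d b / (fixD L hc0 hc he he2 H).g b ≤ 1 := by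
    intro b
    have h1 := H.g0 b
    have h2 := H.dg b
    show 4 * dsp (T b.1) (δ b.1) / g b ≤ 1
    rw [div_le_one h1]
    exact h2
  refine ⟨e, he, he2, Hα, H₁, Tf, fun b => (min_le_left _ _).trans (min_le_left _ _), HR,
    ⟨he8, fun b => ?_, heps⟩, fun ηe HE hη b => ⟨?_, card_slE _ HE σ b⟩⟩
  · have h1 := hω b
    have h2 := delta_le_dsp L b.1
    have h3 := L.ω0 b.1
    have h4 := L.δ0 b.1
    linarith
  · refine slIn_E _ HE b (heps b) le_rfl (hω b) (hσ b) (hη b) ?_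
    rw [← hσe b]
    have h1 : e b.1 ≤ σ' b.1 / (8 * (L.N b.1 + 1)) := min_le_right _ _
    rw [le_div_iff₀ (by positivity)] at h1
    have h2 := he b.1
    nlinarith

end P073.H236

namespace Vale.Agent.P073.H238.K3

open _root_.P073 _root_.P073.Net _root_.P073.PA691 _root_.P073.H236
open _root_.P073.H579 hiding clm
open Vale.Agent.P073.St (V)
open Vale.Agent.P073.H471 Vale.Agent.P073.H267 Vale.Agent.P073.H267.Geo
open Vale.Agent.P073.H73 (Mesh)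
open Vale.Agent.P073.H193 (Edges Cyc)
open Vale.Agent.P073.H304 (Nb In Zmax)
open Vale.Agent.P073.H926
open Vale.Agent.P073.H579 (TStageW)
open Vale.Agent.P073.H669 (TLv)
open Vale.Agent.P073.H669.TLv (OutW offT lfE)
open _root_.P073.H345 (IsQ)
open _root_.P073.H155 (Giv)
open _root_.P073.H142 (FStar)
open _root_.P073.H196 (FixD)

variable {c₀ n δ : ℝ} {j : ℕ} {Ω Λ : Set V} {v w : V} {ρ : V → ℝ} {M : Mesh Ω} {h : ConHomeo Ω Λ}
  {J₀ J : Set (ℕ × (Fin 3 → ℤ))} {P Z : Set M.ι} {K : BoxCx Λ w}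

/-- the numbers of the end zones, for the data of `K3C` -/
theorem eHyp (D : KIn3 c₀ n j δ v w ρ M h J₀ J P Z) (C : Cells ρ w K) {ηe : TBx K → ℝ}
    (h0 : ∀ b, 0 < ηe b) (h1 : ∀ b, ηe b ≤ ω3T δ C b) : EHyp (D.G C) (ω3T δ C) ηe where
  ω0 := D.ω3T_pos C
  o24 := D.ω3T_oT C
  η0 := h0
  ηω := h1

/-- **STAGE 3 of ROUND T of `K3C`, with the squeeze**: `T3OutG` for `S⁺ = Ψ ∘ S` -/
theorem rt3E (D : KIn3 c₀ n j δ v w ρ M h J₀ J P Z) (C : Cells ρ w K) {E : Edges M}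
    (T : ∀ k, FStar E k) {C₀ C₁ C₅ : ℝ} (hC₁ : 0 ≤ C₁) (hC₅ : 0 ≤ C₅)
    (hC₀ : 1248 * (3 * (7 + C₁)) + 1 ≤ C₀) {ε : E.ε → ℝ} (hε : ∀ e, 0 < ε e)
    {Tt : TBx K → Finset (ℝ × ℝ)} {η : ℝ} {τ : Type*} {A : τ → Set V}
    {Cs : Set ℝ} {δ' : TBx K → ℝ}
    {L : TLv (D.G C) E h (ω3T δ C) Tt η A Cs (εN E h.toFun ε C₅) δ'} (hη : η ≤ 1 / 32) {μ' : ℝ}
    (hμ' : μ' ≤ 1 / 4)
    (hb : ∀ b ∈ pB C J₀, 60 * ω3T δ C b + dsp (Tt b) (δ' b) ≤
      μ' * ((D.G C).thi true b b.ax - (D.G C).tlo true b b.ax))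
    {c : TBx K → ℝ} {hc0 : ∀ b, 0 < c b} {hc : ∀ b, c b ≤ δ' b / 8}
    (hcω : ∀ b ∈ pB C J₀, c b ≤ ω3T δ C b) {h' : ConHomeo Ω Λ} {κ : V → V} {g : ConHomeo Ω Λ}
    (D2 : St2W L hc0 hc P (P ∪ Wc D C) (Act D C) (pB C J₀) h' κ g)
    (hg : OutW L hc0 hc (Act D C) (pB C J₀) (L.weN (P ∪ Wc D C) C₁ (pB C J₀) h')
      (fun k => (T k).O) (fun k => (T k).rho) (fun k => (T k).R) h' κ g)
    (hmiss : ∀ k ∈ offT (D.G C) M h (pB C J₀), EqOn g.toFun h'.toFun (M.F k)) :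
    ∃ Lam1 : M.κ → ℝ, (∀ k, 0 ≤ Lam1 k) ∧
      (∀ k, ∀ x ∈ M.F k, ∀ y ∈ M.F k, ‖g.toFun x - g.toFun y‖ ≤ Lam1 k * ‖x - y‖) ∧
      ∃ e₀ : pB C J₀ → ℝ, (∀ b, 0 < e₀ b) ∧
        ∀ (e : TBx K → ℝ) (he : ∀ b, 0 < e b) (he2 : ∀ b, 2 * e b < δ' b)
          (V₀ : pB C J₀ → Finset ℝ)
          (X : FixD (F1 L hc0 hc he he2 (pB C J₀)) V₀) (Hα H₁ Tf : ConHomeo Λ Λ),
          RTS L hc0 hc he he2 X Hα H₁ Tf → SNum X → (∀ b : pB C J₀, e b.1 ≤ e₀ b) →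
          ∀ (ηe : TBx K → ℝ) (HE : EHyp (D.G C) (ω3T δ C) ηe) (Ψ : ConHomeo Λ Λ),
          (FE HE (pB C J₀)).IsH Ψ → ∀ σ : pB C J₀ → ℝ, (∀ b, 0 < σ b) →
          T3OutG (D.G C) M E h (g.trans (((Hα.trans H₁).trans Tf).trans Ψ)) (ω3T δ C) 64
            (pB C J₀) (Act D C) (fun k => (T k).O) (LaN E C₀ (bN E h.toFun ε (Wc D C)))
            (LfN T C₀ (bN E h.toFun ε (Wc D C))) Lam1 (slE X HE σ) := by
  have hΩ : IsOpen Ω := D.bΩ.1
  have hb0 : ∀ e, 0 < bN E h.toFun ε (Wc D C) e := bN_pos hΩ E h hε _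
  obtain ⟨-, -, hLa, hLf⟩ := rt_num D C (T := T) hC₁ hC₅ hC₀ hε L hη hμ' D2.O hb
  obtain ⟨Lam1, hL0, hL, H⟩ := Vale.Agent.P073.H669.TLv.stage3G D2 (O := fun k => (T k).O)
    (r0 := fun k => (T k).rho) (R := fun k => (T k).R) (fun k => (T k).mem)
    (fun k => (T k).star.rho0) (fun k => (T k).R0) (L.weN_nonneg hC₁) hg hmiss
    (Ks := fun b => (D.G C).TB false b.1)
    (fun b => by rw [bxQ_K]; exact rtK_sub L (by norm_num))
    (fun b => Subset.rfl) hcω (m := 64) (by norm_num)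
  obtain ⟨io₀, hio0, H2⟩ := H (εkN T (bN E h.toFun ε (Wc D C)))
    (εeN E (bN E h.toFun ε (Wc D C))) εkN_pos (εeN_pos hb0)
  refine ⟨Lam1, hL0, hL, fun b => io₀ b * c b.1 / 3, fun b => by
    have := hio0 b
    have := hc0 b.1
    positivity, fun e he he2 V₀ X Hα H₁ Tf HR N hle ηe HE Ψ hΨ σ hσ => ?_⟩
  have hω0 : ∀ b : TBx K, 0 < ω3T δ C b := L.ω0
  have hio : ∀ b : pB C J₀, 16 / 15 * (2 * (e b.1 / c b.1)) ≤ io₀ b := by
    intro b
    have h1 := hle b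
    have h2 := hc0 b.1
    have h4 := hio0 b
    have h3 : e b.1 / c b.1 ≤ io₀ b / 3 := by
      rw [div_le_iff₀ h2]
      linarith
    linarith
  have hwt : ∀ b : pB C J₀, (tgE X HE b).Wt (16 / 15 * (2 * 1))
      (16 / 15 * (2 * (e b.1 / c b.1))) (L.a b.1 0 - c b.1) (L.a b.1 (L.N b.1 - 1) + c b.1) :=
    fun b => tgE_wt X N.eps HE b
  have hlo : ∀ b : pB C J₀, L.a b.1 0 - c b.1 ≤
      (D.G C).tlo true b.1 b.1.ax + (64 - 13) * ω3T δ C b.1 := by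
    intro b
    have h1 := L.first_le b.1
    have h2 := N.hω b
    have h3 := hω0 b.1
    have h4 := L.δ0 b.1
    have h5 := hc0 b.1
    linarith
  have hhi : ∀ b : pB C J₀, (D.G C).thi true b.1 b.1.ax - (64 - 13) * ω3T δ C b.1 ≤
      L.a b.1 (L.N b.1 - 1) + c b.1 := by
    intro b
    have h1 := L.le_last b.1
    have h2 := N.hω b
    have h3 := hω0 b.1
    have h4 := L.δ0 b.1
    have h5 := hc0 b.1
    have h6 := L.dsp_ge b.1
    linarith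
  have hr : ∀ b : pB C J₀, 12 * ω3T δ C b.1 ≤ 2069 * ω3T δ C b.1 := fun b => by
    have := hω0 b.1
    linarith
  have hr2 : ∀ b : pB C J₀, 2069 * ω3T δ C b.1 ≤ 262144 * ω3T δ C b.1 := fun b => by
    have := hω0 b.1
    linarith
  have key := H2 (16 / 15 * (2 * 1)) (fun b => 16 / 15 * (2 * (e b.1 / c b.1)))
    (fun b => L.a b.1 0 - c b.1)
    (fun b => L.a b.1 (L.N b.1 - 1) + c b.1) (fun b => 2069 * ω3T δ C b.1)
    (fun b => tgE X HE b) (((Hα.trans H₁).trans Tf).trans Ψ) (by norm_num)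
    hio hwt hlo hhi (isFE HR hΨ) (mvE HR N hΨ) hr (D.rt_omr C hr2) (D.rt_cmpG C)
  exact (key.mono (fun e => hLa _ (by norm_num) (by norm_num) e)
    fun k e he => hLf _ (by norm_num) (by norm_num) k e he).trim hσ
    (fun b => tgE_sl_win X HE b) fun b => (tlo_lt_thi L b.1).le

end Vale.Agent.P073.H238.K3
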