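import Vale.Agent.P073.H236.Stage3T

/-!
# P073, H236, STAGE 3 (E): the parameter `e` is chosen last

`PreS`: the boxes (final thickness), and the bound `D` of the displacement, valid for all small `e`.
-/

open Set Metric Topology Filter

namespace P073.H236

open P073

/-- boxes for the staircases, before the choice of the gaps -/
structure PreS (n : ℕ) (ι : Type*) (Λ : Set (Fin n → ℝ)) where
  B : ι → BX n
  D : ι → ℝ
  e₀ : ι → ℝ
  he₀ : ∀ b, 0 < e₀ b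
  heo : ∀ b, 2 * e₀ b < stp (B b).N (B b).al (B b).be
  hD : ∀ b e, 0 < e → e ≤ e₀ b → ∀ t, |sm (B b).N (B b).a (B b).c (B b).al (B b).be (B b).al
    (stp (B b).N (B b).al (B b).be) e t - t| ≤ D b
  sub : ∀ b, (B b).K ⊆ Λ
  lf : ∀ z ∈ Λ, ∃ U ∈ 𝓝 z, {b | ((B b).K ∩ U).Nonempty}.Finite
  dis : ∀ b b', b ≠ b' → Disjoint (interior (B b).K) (B b').K

/-- choice of the gaps -/
def PreS.fam {n : ℕ} {ι : Type*} {Λ : Set (Fin n → ℝ)} (P : PreS n ι Λ) (e : ι → ℝ)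
    (h0 : ∀ b, 0 < e b) (h1 : ∀ b, e b ≤ P.e₀ b) : BFam n ι Λ where
  B := P.B
  e := e
  D := P.D
  he := h0
  heo := fun b => by have := P.heo b; have := h1 b; linarith
  hD := fun b => P.hD b (e b) (h0 b) (h1 b)
  sub := P.sub
  lf := P.lf
  dis := P.dis

/-- small numbers below locally finitely many bounds -/
theorem exists_small {ι κ : Type*} {R : ι → κ → Prop} (hfin : ∀ b, {k | R b k}.Finite)
    {q : ι → κ → ℝ} (hq : ∀ b k, 0 < q b k) {e₀ : ι → ℝ} (he₀ : ∀ b, 0 < e₀ b) :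
    ∃ e : ι → ℝ, (∀ b, 0 < e b) ∧ (∀ b, e b ≤ e₀ b) ∧ ∀ b k, R b k → e b ≤ q b k := by
  have key : ∀ b, ∃ t : ℝ, 0 < t ∧ t ≤ e₀ b ∧ ∀ k, R b k → t ≤ q b k := by
    intro b
    rcases (hfin b).toFinset.eq_empty_or_nonempty with h | h
    · refine ⟨e₀ b, he₀ b, le_rfl, fun k hk => ?_⟩
      have : k ∈ (hfin b).toFinset := (hfin b).mem_toFinset.2 hk
      rw [h] at this
      exact absurd this (Finset.notMem_empty k)
    · refine ⟨min (e₀ b) ((hfin b).toFinset.inf' h (q b)), lt_min (he₀ b) ?_, min_le_left _ _,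
        fun k hk => (min_le_right _ _).trans (Finset.inf'_le _ ((hfin b).mem_toFinset.2 hk))⟩
      rw [Finset.lt_inf'_iff]
      exact fun k _ => hq b k
  choose e h1 h2 h3 using key
  exact ⟨e, h1, h2, h3⟩

/-- the slivers of a box -/
noncomputable def BFam.sl {n : ℕ} {ι : Type*} {Λ : Set (Fin n → ℝ)} (F : BFam n ι Λ) (b : ι) :
    Finset (ℝ × ℝ) :=
  (Finset.range ((F.B b).N + 1)).image fun k : ℕ =>
    ((F.B b).al + (k : ℝ) * F.om b - F.e b, (F.B b).al + (k : ℝ) * F.om b + F.e b)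

theorem BFam.mem_sl {n : ℕ} {ι : Type*} {Λ : Set (Fin n → ℝ)} {F : BFam n ι Λ} {b : ι}
    {p : ℝ × ℝ} : p ∈ F.sl b ↔ ∃ k : ℕ, k ≤ (F.B b).N ∧
      p = ((F.B b).al + (k : ℝ) * F.om b - F.e b, (F.B b).al + (k : ℝ) * F.om b + F.e b) := by
  classical
  unfold BFam.sl
  simp only [Finset.mem_image, Finset.mem_range, Nat.lt_succ_iff]
  constructor
  · rintro ⟨k, hk, h⟩; exact ⟨k, hk, h.symm⟩
  · rintro ⟨k, hk, h⟩; exact ⟨k, hk, h.symm⟩

theorem BFam.sl_le {n : ℕ} {ι : Type*} {Λ : Set (Fin n → ℝ)} (F : BFam n ι Λ) (b : ι) :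
    ∀ p ∈ F.sl b, p.1 ≤ p.2 := by
  intro p hp
  obtain ⟨k, -, rfl⟩ := BFam.mem_sl.1 hp
  have := F.he b
  show _ - _ ≤ _ + _
  linarith

/-- the total length of the slivers -/
theorem BFam.sum_sl {n : ℕ} {ι : Type*} {Λ : Set (Fin n → ℝ)} (F : BFam n ι Λ) (b : ι) :
    ∑ p ∈ F.sl b, (p.2 - p.1) ≤ 2 * ((F.B b).N + 1) * F.e b := by
  classical
  have he := F.he b
  have h1 : ∀ p ∈ F.sl b, p.2 - p.1 = 2 * F.e b := by
    intro p hp
    obtain ⟨k, -, rfl⟩ := BFam.mem_sl.1 hp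
    show _ + F.e b - (_ - F.e b) = _
    ring
  rw [Finset.sum_congr rfl h1, Finset.sum_const, nsmul_eq_mul]
  have h2 : ((F.sl b).card : ℝ) ≤ (F.B b).N + 1 := by
    have h3 : (F.sl b).card ≤ (F.B b).N + 1 := by
      have := Finset.card_image_le (s := Finset.range ((F.B b).N + 1)) (f := fun k : ℕ =>
        ((F.B b).al + (k : ℝ) * F.om b - F.e b, (F.B b).al + (k : ℝ) * F.om b + F.e b))
      rw [Finset.card_range] at this
      exact this
    exact_mod_cast h3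
  nlinarith

variable {ι : Type*} {Λ : Set (Fin 3 → ℝ)} {F : BFam 3 ι Λ} {b : ι} {t : ℝ}

/-- a point of the window which is not in a sliver is in a band -/
theorem BFam.bd_of_sl (ht : t ∈ Icc (F.B b).al (F.B b).be) (h : ∀ p ∈ F.sl b, t ∉ Ioo p.1 p.2) :
    ∃ k < (F.B b).N, t ∈ F.bd b k := by
  rcases bnd_or_gap (e := F.e b) (F.B b).lvs.pos (F.B b).al_lt_be ht.1 ht.2 with h2 | ⟨k, hk, h3⟩
  · exact h2
  · exfalso
    refine h _ (BFam.mem_sl.2 ⟨k, hk, rfl⟩) ?_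
    have h4 : |t - ((F.B b).al + k * F.om b)| < F.e b := h3
    rw [abs_lt] at h4
    constructor
    · show _ - _ < t
      linarith [h4.1]
    · show t < _ + _
      linarith [h4.2]

variable {E : Type*} [NormedAddCommGroup E] [NormedSpace ℝ E]
  {Ω : Set E} {κ : (Fin 3 → ℝ) → Fin 3 → ℝ}
  {h g : ConHomeo Ω Λ} {S : ConHomeo Λ Λ} {X : Set E} {y : Fin 3 → ℝ}

/-- **[VI]** with slivers -/
theorem image_update_of_sl (hκ : FlatK F κ) (hS : F.IsS S)
    (hX : g.toFun '' X = H579.Pre κ Λ h X) (hXΩ : X ⊆ Ω)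
    (hy : F.FullK b y) (ht : t ∈ Icc (F.B b).al (F.B b).be)
    (hgap : ∀ r ∈ uIcc (y (F.B b).j) t, ∀ p ∈ F.sl b, r ∉ Ioo p.1 p.2)
    (hm : y ∈ (g.trans S).toFun '' X) :
    Function.update y (F.B b).j t ∈ (g.trans S).toFun '' X := by
  refine image_update_of_gap hκ hS hX hXΩ hy ht (fun i hi r hr => ?_) hm
  by_contra hcon
  push Not at hcon
  refine hgap r hr _ (BFam.mem_sl.2 ⟨i, hi, rfl⟩) ?_
  rw [abs_lt] at hcon
  constructor
  · show _ - _ < r
    linarith [hcon.1]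
  · show r < _ + _
    linarith [hcon.2]

end P073.H236
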