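import Vale.Agent.P073.H236.Stage3Q

/-!
# P073, H236, STAGE 3 (T): faces which meet no level
-/

open Set Metric Topology Filter

namespace P073.H236

open P073

variable {E : Type*} [NormedAddCommGroup E] [NormedSpace ℝ E] {ι : Type*}
  {Ω : Set E} {Λ : Set (Fin 3 → ℝ)} {F : BFam 3 ι Λ} {κ : (Fin 3 → ℝ) → Fin 3 → ℝ}
  {h g : ConHomeo Ω Λ} {S : ConHomeo Λ Λ} {b : ι} {k : ℕ} {X C : Set E} {x y : E}

/-- the image of a set without level points misses the flats -/
theorem off_flat (hκ : FlatK F κ) (hX : g.toFun '' X = H579.Pre κ Λ h X)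
    (hlev : ∀ x ∈ X, ∀ k < (F.B b).N, h.toFun x (F.B b).j ≠ (F.B b).a k) (hx : x ∈ X)
    (hf : F.FullK b (g.toFun x)) (hk : k < (F.B b).N) :
    (F.B b).c < |g.toFun x (F.B b).j - (F.B b).a k| := by
  by_contra hcon
  push Not at hcon
  have h1 := hκ b _ hf k hk hcon
  have h2 : g.toFun x ∈ H579.Pre κ Λ h X := by rw [← hX]; exact mem_image_of_mem _ hx
  obtain ⟨x', hx', hxx⟩ := h2.2
  have h3 : h.toFun x' = κ (g.toFun x) := hxx
  refine hlev x' hx' k hk ?_
  rw [h3, h1, Function.update_self]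

/-- **(T6) for faces which meet no level** -/
theorem sum_fl_eq_zero (hκ : FlatK F κ) (hX : g.toFun '' X = H579.Pre κ Λ h X) (hXΩ : X ⊆ Ω)
    (hlev : ∀ x ∈ X, ∀ k < (F.B b).N, h.toFun x (F.B b).j ≠ (F.B b).a k)
    (hC : IsPreconnected C) (hCX : C ⊆ X) (hf : ∀ x ∈ C, F.FullK b (g.toFun x))
    (hx : x ∈ C) (hy : y ∈ C) :
    ∑ k ∈ Finset.range (F.B b).N, |fl (F.B b).c ((F.B b).a k) (g.toFun x (F.B b).j) -
      fl (F.B b).c ((F.B b).a k) (g.toFun y (F.B b).j)| = 0 := by
  refine Finset.sum_eq_zero fun k hk => ?_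
  rw [Finset.mem_range] at hk
  have hc := (F.B b).lvs.c0
  have hoff : ∀ z ∈ C, (F.B b).c < |g.toFun z (F.B b).j - (F.B b).a k| := fun z hz =>
    off_flat hκ hX hlev (hCX hz) (hf z hz) hk
  have hcont : ContinuousOn (fun z => g.toFun z (F.B b).j) C :=
    (continuous_apply (F.B b).j).comp_continuousOn (g.cont.mono (hCX.trans hXΩ))
  have himg := (hC.image _ hcont).ordConnected
  rw [abs_eq_zero, sub_eq_zero]
  -- both values are on the same side
  have hx' := lt_abs.1 (hoff x hx)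
  have hy' := lt_abs.1 (hoff y hy)
  have hmid : ∀ p q, p ∈ C → q ∈ C → g.toFun p (F.B b).j < (F.B b).a k →
      (F.B b).a k < g.toFun q (F.B b).j → False := by
    intro p q hp hq h1 h2
    obtain ⟨z, hz, hza⟩ := himg.out (mem_image_of_mem _ hp) (mem_image_of_mem _ hq) ⟨h1.le, h2.le⟩
    have h3 := hoff z hz
    have h4 : g.toFun z (F.B b).j = (F.B b).a k := hza
    rw [h4, sub_self, abs_zero] at h3
    linarith
  rcases hx' with hx' | hx' <;> rcases hy' with hy' | hy'
  · rw [fl_of_ge hc.le (by linarith), fl_of_ge hc.le (by linarith)]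
  · exact (hmid y x hy hx (by linarith) (by linarith)).elim
  · exact (hmid x y hx hy (by linarith) (by linarith)).elim
  · rw [fl_of_le (by linarith), fl_of_le (by linarith)]

/-- the estimate for faces which meet no level: only the gap part -/
theorem BFam.IsS.lip_no_level (hS : F.IsS S) (hκ : FlatK F κ)
    (hX : g.toFun '' X = H579.Pre κ Λ h X) (hXΩ : X ⊆ Ω)
    (hlev : ∀ x ∈ X, ∀ k < (F.B b).N, h.toFun x (F.B b).j ≠ (F.B b).a k)
    (hC : IsPreconnected C) (hCX : C ⊆ X) (hf : ∀ x ∈ C, F.FullK b (g.toFun x))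
    (hx : x ∈ C) (hy : y ∈ C) :
    |(g.trans S).toFun x (F.B b).j - (g.trans S).toFun y (F.B b).j| ≤
      F.e b / (F.B b).c * |g.toFun x (F.B b).j - g.toFun y (F.B b).j| := by
  have h1 := hS.sub_le (hf x hx) (hf y hy)
  rw [sum_fl_eq_zero hκ hX hXΩ hlev hC hCX hf hx hy, mul_zero, zero_add] at h1
  exact h1

/-- `S` keeps the level structure: where `g x` is in the full zone, `h1 x` is in the band `k` iff
`κ (g x)` is at the level `a k` -/
theorem BFam.IsS.mem_bd_iff (hS : F.IsS S) (hκ : H345.IsQ F.B κ) (hx : F.FullK b (g.toFun x))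
    (hk : k < (F.B b).N) : (g.trans S).toFun x (F.B b).j ∈ F.bd b k ↔
      κ (g.toFun x) (F.B b).j = (F.B b).a k := by
  have h1 : (g.trans S).toFun x = Function.update (g.toFun x) (F.B b).j
    (F.σ b (g.toFun x (F.B b).j)) := hS.full hx
  rw [h1, Function.update_self, F.σ_mem_bd b hk, hκ.on b _ hx.mem, (F.B b).Q_full hx.2,
    Function.update_self,
    qm_eq_iff (F.B b).lvs.c0 (F.B b).lvs.sepd ((F.B b).lvs.mem_L.2 ⟨k, hk, rfl⟩), mem_Icc, abs_le]
  constructor <;> rintro ⟨h2, h3⟩ <;> constructor <;> linarith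

end P073.H236
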