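import Vale.Agent.P073.H236.Stage3b

/-!
# P073, H236, STAGE 3 (c): what `S ∘ g` does on an edge, over a crossing point
-/

open Set Metric Topology Filter

namespace P073.H236

open P073

variable {E : Type*} [NormedAddCommGroup E] [NormedSpace ℝ E] {ι : Type*}
  {Ω : Set E} {Λ : Set (Fin 3 → ℝ)}

/-- the fibre of the insertion map over a level point of a full zone is its flat -/
def FibK (F : BFam 3 ι Λ) (κ : (Fin 3 → ℝ) → Fin 3 → ℝ) : Prop :=
  ∀ b y, F.FullK b y → ∀ k < (F.B b).N, y (F.B b).j = (F.B b).a k → ∀ z ∈ Λ, κ z = y →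
    z = Function.update y (F.B b).j (z (F.B b).j) ∧ |z (F.B b).j - (F.B b).a k| ≤ (F.B b).c

variable {F : BFam 3 ι Λ} {κ : (Fin 3 → ℝ) → Fin 3 → ℝ} {h g : ConHomeo Ω Λ} {S : ConHomeo Λ Λ}
  {b : ι} {k : ℕ} {X : Set E} {y : Fin 3 → ℝ} {x : E} {t : ℝ}

theorem BFam.FullK.at_level (hy : F.FullK b y) (hk : k < (F.B b).N) :
    F.FullK b (Function.update y (F.B b).j ((F.B b).a k)) :=
  hy.update ((F.B b).flat_win hk (by rw [sub_self, abs_zero]; exact (F.B b).lvs.c0.le))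

/-- `S` on the fibre over a level point -/
theorem BFam.IsS.on_fib (hS : F.IsS S) (hf : FibK F κ) (hy : F.FullK b y) (hk : k < (F.B b).N)
    (hyk : y (F.B b).j = (F.B b).a k) {z : Fin 3 → ℝ} (hz : z ∈ Λ) (hκz : κ z = y) :
    F.FullK b z ∧ S.toFun z = Function.update y (F.B b).j (F.σ b (z (F.B b).j)) ∧
      F.σ b (z (F.B b).j) ∈ F.bd b k := by
  obtain ⟨h1, h2⟩ := hf b y hy k hk hyk z hz hκz
  have h3 : F.FullK b z := by rw [h1]; exact hy.update ((F.B b).flat_win hk h2)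
  refine ⟨h3, ?_, (F.σ_mem_bd b hk).2 h2⟩
  rw [hS.full h3]
  nth_rw 1 [h1]
  rw [Function.update_idem]

/-- **(T9)**: over a crossing point the edge is vertical, and covers the band; `[s2, s3]` is the
fibre of the crossing point -/
theorem exists_vertical (hκ : FlatK F κ) (hf : FibK F κ) (hS : F.IsS S) {γ : ℝ → E}
    {e : Set E} (heΩ : e ⊆ Ω) (hγ : MapsTo γ (Icc 0 1) e) (hγs : e ⊆ γ '' Icc 0 1)
    (hX : g.toFun '' e = H579.Pre κ Λ h e) {s2 s3 : E → ℝ}
    (hfib : ∀ x ∈ e, h.toFun x (F.B b).j = (F.B b).a k → F.FullK b (h.toFun x) →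
      ∀ s ∈ Icc (0:ℝ) 1, (κ (g.toFun (γ s)) = h.toFun x ↔ s2 x ≤ s ∧ s ≤ s3 x))
    (hk : k < (F.B b).N) {s : ℝ} (hs : s ∈ Icc (0:ℝ) 1)
    (hfull : F.FullK b ((g.trans S).toFun (γ s)))
    (hbd : (g.trans S).toFun (γ s) (F.B b).j ∈ F.bd b k) :
    ∃ x ∈ e, h.toFun x (F.B b).j = (F.B b).a k ∧ F.FullK b (h.toFun x) ∧ s2 x ≤ s ∧ s ≤ s3 x ∧
      (∀ s' ∈ Icc (0:ℝ) 1, s2 x ≤ s' → s' ≤ s3 x → F.FullK b (g.toFun (γ s')) ∧
        |g.toFun (γ s') (F.B b).j - (F.B b).a k| ≤ (F.B b).c ∧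
        (g.trans S).toFun (γ s') = Function.update (h.toFun x) (F.B b).j
          (F.σ b (g.toFun (γ s') (F.B b).j)) ∧
        (g.trans S).toFun (γ s') (F.B b).j ∈ F.bd b k) ∧
      ∀ t ∈ F.bd b k, ∃ s' ∈ Icc (0:ℝ) 1, s2 x ≤ s' ∧ s' ≤ s3 x ∧
        (g.trans S).toFun (γ s') = Function.update (h.toFun x) (F.B b).j t := by
  have hγΩ : γ s ∈ Ω := heΩ (hγ hs)
  have hgΛ : g.toFun (γ s) ∈ Λ := g.mapsTo hγΩ
  have hz : F.FullK b (g.toFun (γ s)) := (hS.fullK_iff hgΛ).1 hfull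
  have hzj : |g.toFun (γ s) (F.B b).j - (F.B b).a k| ≤ (F.B b).c := by
    rw [← F.σ_mem_bd b hk]
    have h1 : (g.trans S).toFun (γ s) = Function.update (g.toFun (γ s)) (F.B b).j
      (F.σ b (g.toFun (γ s) (F.B b).j)) := hS.full hz
    rw [h1, Function.update_self] at hbd
    exact hbd
  have hκz := hκ b _ hz k hk hzj
  have hmem : g.toFun (γ s) ∈ H579.Pre κ Λ h e := by
    rw [← hX]; exact mem_image_of_mem _ (hγ hs)
  obtain ⟨x, hxe, hx⟩ := hmem.2
  have hx' : h.toFun x = κ (g.toFun (γ s)) := hx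
  have hxj : h.toFun x (F.B b).j = (F.B b).a k := by
    rw [hx', hκz, Function.update_self]
  have hxF : F.FullK b (h.toFun x) := by rw [hx', hκz]; exact hz.at_level hk
  have hss := (hfib x hxe hxj hxF s hs).1 hx'.symm
  refine ⟨x, hxe, hxj, hxF, hss.1, hss.2, fun s' hs' h2 h3 => ?_, fun t ht => ?_⟩
  · have h4 : κ (g.toFun (γ s')) = h.toFun x := (hfib x hxe hxj hxF s' hs').2 ⟨h2, h3⟩
    have h5 := hf b _ hxF k hk hxj _ (g.mapsTo (heΩ (hγ hs'))) h4
    obtain ⟨h6, h7, h8⟩ := hS.on_fib hf hxF hk hxj (g.mapsTo (heΩ (hγ hs'))) h4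
    refine ⟨h6, h5.2, h7, ?_⟩
    show S.toFun (g.toFun (γ s')) (F.B b).j ∈ _
    rw [h7, Function.update_self]
    exact h8
  · -- the point `update (h x) j (σi t)` is in the preimage
    have hfl : |F.σi b t - (F.B b).a k| ≤ (F.B b).c := (F.abs_σi b hk).2 ht
    set z := Function.update (h.toFun x) (F.B b).j (F.σi b t) with hzd
    have hzF : F.FullK b z := hxF.update ((F.B b).flat_win hk hfl)
    have hκz' : κ z = h.toFun x := by
      rw [hκ b z hzF k hk (by rw [hzd, Function.update_self]; exact hfl), hzd,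
        Function.update_idem, ← hxj, Function.update_eq_self]
    have hzm : z ∈ g.toFun '' e := by
      rw [hX]
      exact ⟨F.sub b hzF.mem, by rw [mem_preimage, hκz']; exact mem_image_of_mem _ hxe⟩
    obtain ⟨x', hx'e, hx'z⟩ := hzm
    obtain ⟨s', hs', rfl⟩ := hγs hx'e
    have h4 := (hfib x hxe hxj hxF s' hs').1 (by rw [hx'z, hκz'])
    refine ⟨s', hs', h4.1, h4.2, ?_⟩
    show S.toFun (g.toFun (γ s')) = _
    rw [hx'z, hS.full hzF, hzd, Function.update_self, F.σ_σi, Function.update_idem]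

/-- the slope of `S ∘ g` over a crossing point, from the slope of `g` -/
theorem BFam.IsS.fib_lip (hS : F.IsS S) {z z' : Fin 3 → ℝ} (hk : k < (F.B b).N)
    (hz : F.FullK b z) (hz' : F.FullK b z') (h1 : |z (F.B b).j - (F.B b).a k| ≤ (F.B b).c)
    (h2 : |z' (F.B b).j - (F.B b).a k| ≤ (F.B b).c) {A : ℝ}
    (hA : F.om b * |z (F.B b).j - z' (F.B b).j| ≤ 2 * (F.B b).c * A) :
    |S.toFun z (F.B b).j - S.toFun z' (F.B b).j| ≤ A := by
  have hc := (F.B b).lvs.c0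
  have he := F.he b
  rw [hS.full hz, hS.full hz', Function.update_self, Function.update_self]
  unfold BFam.σ
  rw [sm_flat (F.B b).lvs hk h1, sm_flat (F.B b).lvs hk h2]
  have e1 : ∀ p q : ℝ, (F.B b).al + k * F.om b + F.e b +
      (F.om b - 2 * F.e b) / (2 * (F.B b).c) * (p - ((F.B b).a k - (F.B b).c)) -
      ((F.B b).al + k * F.om b + F.e b +
      (F.om b - 2 * F.e b) / (2 * (F.B b).c) * (q - ((F.B b).a k - (F.B b).c))) =
      (F.om b - 2 * F.e b) / (2 * (F.B b).c) * (p - q) := fun p q => by ring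
  rw [e1, abs_mul, abs_of_nonneg]
  · rw [div_mul_eq_mul_div, div_le_iff₀ (by linarith)]
    have h3 : (F.om b - 2 * F.e b) * |z (F.B b).j - z' (F.B b).j| ≤
        F.om b * |z (F.B b).j - z' (F.B b).j| :=
      mul_le_mul_of_nonneg_right (by linarith) (abs_nonneg _)
    linarith
  · have := (F.tgt b).eo
    apply div_nonneg <;> linarith

end P073.H236
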