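import Vale.Agent.P073.H236.StairBox

/-!
# P073, H236: the squeeze `T₀`

A finite family of boxes with disjoint neighbourhoods in `Λ`: a conical homeomorphism of `Λ` which
squeezes the coordinates in `J` by the factor `lam` in the cores, is the identity off the
neighbourhoods, keeps the other coordinates, and is `(1 + ε)`-Lipschitz.
-/

open Set Metric Topology Filter

namespace P073.H236

open P073

/-- breakpoints of the squeeze -/
def sx (c ρ q : ℝ) : ℕ → ℝ
  | 0 => c - (ρ + q)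
  | 1 => c - ρ
  | 2 => c + ρ
  | _ => c + (ρ + q)

/-- values of the squeeze -/
def sv (c ρ q lam : ℝ) : ℕ → ℝ
  | 0 => c - (ρ + q)
  | 1 => c - lam * ρ
  | 2 => c + lam * ρ
  | _ => c + (ρ + q)

/-- **the squeeze**: `c + lam (t - c)` for `|t - c| ≤ ρ`, `t` for `|t - c| ≥ ρ + q` -/
noncomputable def sqz (c ρ q lam : ℝ) : ℝ → ℝ := pl 3 (sx c ρ q) (sv c ρ q lam)

/-- its inverse -/
noncomputable def sqzi (c ρ q lam : ℝ) : ℝ → ℝ := pl 3 (sv c ρ q lam) (sx c ρ q)

section sqz
variable {c ρ q lam : ℝ}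

theorem inc_sx (hρ : 0 < ρ) (hq : 0 < q) : Inc 3 (sx c ρ q) := by
  intro j hj
  interval_cases j <;> simp only [sx] <;> linarith

theorem inc_sv (hρ : 0 < ρ) (hq : 0 < q) (hl : 0 < lam) (hl1 : lam ≤ 1) :
    Inc 3 (sv c ρ q lam) := by
  intro j hj
  have : 0 < lam * ρ := by positivity
  interval_cases j <;> simp only [sv] <;> nlinarith

theorem sqz_core (hρ : 0 < ρ) (hq : 0 < q) {t : ℝ} (ht : |t - c| ≤ ρ) :
    sqz c ρ q lam t = c + lam * (t - c) := by
  obtain ⟨h1, h2⟩ := abs_le.1 ht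
  unfold sqz
  rw [pl_piece (inc_sx hρ hq) (by norm_num : 1 < 3) (by simp only [sx]; linarith)
    (by simp only [sx]; linarith)]
  unfold slp
  simp only [sx, sv]
  have : c + ρ - (c - ρ) ≠ 0 := by linarith
  field_simp
  ring

theorem sqz_out (hρ : 0 < ρ) (hq : 0 < q) {t : ℝ} (ht : ρ + q ≤ |t - c|) :
    sqz c ρ q lam t = t := by
  unfold sqz
  rcases le_abs.1 ht with h | h
  · rw [pl_of_ge (inc_sx hρ hq) (by simp only [sx]; linarith)]
    simp only [sx, sv]; ring
  · rw [pl_of_le (inc_sx hρ hq) (by simp only [sx]; linarith)]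
    simp only [sx, sv]; ring

theorem sqzi_core (hρ : 0 < ρ) (hq : 0 < q) (hl : 0 < lam) (hl1 : lam ≤ 1) {t : ℝ}
    (ht : |t - c| ≤ lam * ρ) : sqzi c ρ q lam t = c + (t - c) / lam := by
  have h1 : |(t - c) / lam| ≤ ρ := by
    rw [abs_div, abs_of_pos hl, div_le_iff₀ hl]; linarith
  have h2 := sqz_core (lam := lam) (c := c) (t := c + (t - c) / lam) hρ hq
    (by rw [add_sub_cancel_left]; exact h1)
  rw [add_sub_cancel_left, mul_div_cancel₀ _ hl.ne'] at h2
  have h3 := pl_pl (inc_sx (c := c) hρ hq) (inc_sv (c := c) hρ hq hl hl1) (c + (t - c) / lam)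
  unfold sqzi
  unfold sqz at h2
  rw [h2] at h3
  rw [← h3]; congr 1; ring

theorem sqzi_out (hρ : 0 < ρ) (hq : 0 < q) (hl : 0 < lam) (hl1 : lam ≤ 1) {t : ℝ}
    (ht : ρ + q ≤ |t - c|) : sqzi c ρ q lam t = t := by
  have h2 := sqz_out (lam := lam) (c := c) hρ hq ht
  have h3 := pl_pl (inc_sx (c := c) hρ hq) (inc_sv (c := c) hρ hq hl hl1) t
  unfold sqzi
  unfold sqz at h2
  rw [h2] at h3
  exact h3

theorem abs_sqz_sub_self_le (hρ : 0 < ρ) (hq : 0 < q) (hl : 0 < lam) (hl1 : lam ≤ 1) (t : ℝ) :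
    |sqz c ρ q lam t - t| ≤ ρ := by
  refine abs_pl_sub_self_le (inc_sx hρ hq) (fun j hj => ?_) t
  have h0 : 0 < lam * ρ := by positivity
  have h1 : lam * ρ ≤ ρ := by nlinarith
  rw [abs_le]
  interval_cases j <;> simp only [sx, sv] <;> constructor <;> linarith

theorem abs_sqz_sub_le (hρ : 0 < ρ) (hq : 0 < q) (hl : 0 < lam) (hl1 : lam ≤ 1) (s t : ℝ) :
    |sqz c ρ q lam s - sqz c ρ q lam t| ≤ (1 + ρ / q) * |s - t| := by
  have h0 : 0 < lam * ρ := by positivity
  have h1 : lam * ρ ≤ ρ := by nlinarith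
  have h2 : 0 < ρ / q := by positivity
  refine abs_pl_sub_le (inc_sx hρ hq) (fun j hj => (inc_sv hρ hq hl hl1 j hj).le)
    (by linarith) (fun j hj => ?_) s t
  have e1 : (q + (ρ - lam * ρ)) / q ≤ 1 + ρ / q := by
    rw [add_div, div_self hq.ne']
    have : (ρ - lam * ρ) / q ≤ ρ / q := by gcongr; linarith
    linarith
  unfold slp
  interval_cases j
  · simp only [sx, sv]
    refine le_trans (le_of_eq ?_) e1
    congr 1 <;> ring
  · simp only [sx, sv]
    have : (c + lam * ρ - (c - lam * ρ)) / (c + ρ - (c - ρ)) = lam := by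
      have : c + ρ - (c - ρ) ≠ 0 := by linarith
      field_simp
      ring
    rw [this]; linarith
  · simp only [sx, sv]
    refine le_trans (le_of_eq ?_) e1
    congr 1 <;> ring

/-- the squeeze moves points towards the centre -/
theorem abs_sqz_sub_c_le (hρ : 0 < ρ) (hq : 0 < q) (hl : 0 < lam) (hl1 : lam ≤ 1) (t : ℝ) :
    sqz c ρ q lam t ∈ uIcc c t := by
  have h0 : 0 < lam * ρ := by positivity
  have h1 : lam * ρ ≤ ρ := by nlinarith
  have hc : sqz c ρ q lam c = c := by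
    rw [sqz_core hρ hq (by simpa using hρ.le)]; ring
  have hm : StrictMono (sqz c ρ q lam) := pl_strictMono (inc_sx hρ hq) (inc_sv hρ hq hl hl1)
  -- upper bound `sqz t ≤ t` for `t ≥ c`
  have hle : ∀ t, c ≤ t → sqz c ρ q lam t ≤ t := by
    intro t ht
    rcases le_total t (c + ρ) with h2 | h2
    · rw [sqz_core hρ hq (by rw [abs_le]; constructor <;> linarith)]
      nlinarith
    · rcases le_total t (c + (ρ + q)) with h3 | h3
      · unfold sqz
        rw [pl_piece (inc_sx hρ hq) (by norm_num : 2 < 3) (by simpa only [sx] using h2)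
          (by simpa only [sx] using h3)]
        unfold slp
        simp only [sx, sv]
        have e : (c + (ρ + q) - (c + lam * ρ)) / (c + (ρ + q) - (c + ρ)) =
            1 + (ρ - lam * ρ) / q := by
          have : c + (ρ + q) - (c + ρ) = q := by ring
          rw [this]; field_simp; ring
        rw [e]
        have h4 : (ρ - lam * ρ) / q * (t - (c + ρ)) ≤ (ρ - lam * ρ) := by
          rw [div_mul_eq_mul_div, div_le_iff₀ hq]
          exact mul_le_mul_of_nonneg_left (by linarith) (by linarith)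
        nlinarith
      · rw [sqz_out hρ hq (by rw [le_abs]; left; linarith)]
  have hge : ∀ t, t ≤ c → t ≤ sqz c ρ q lam t := by
    intro t ht
    rcases le_total (c - ρ) t with h2 | h2
    · rw [sqz_core hρ hq (by rw [abs_le]; constructor <;> linarith)]
      nlinarith
    · rcases le_total (c - (ρ + q)) t with h3 | h3
      · unfold sqz
        rw [pl_piece (inc_sx hρ hq) (by norm_num : 0 < 3) (by simpa only [sx] using h3)
          (by simpa only [sx] using h2)]
        unfold slp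
        simp only [sx, sv]
        have e : (c - lam * ρ - (c - (ρ + q))) / (c - ρ - (c - (ρ + q))) =
            1 + (ρ - lam * ρ) / q := by
          have : c - ρ - (c - (ρ + q)) = q := by ring
          rw [this]; field_simp; ring
        rw [e]
        have h4 : 0 ≤ (ρ - lam * ρ) / q * (t - (c - (ρ + q))) := by
          apply mul_nonneg (div_nonneg (by linarith) hq.le); linarith
        nlinarith
      · rw [sqz_out hρ hq (by rw [le_abs]; right; linarith)]
  rcases le_total c t with h | h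
  · rw [uIcc_of_le h]
    have := hm.monotone h
    rw [hc] at this
    exact ⟨this, hle t h⟩
  · rw [uIcc_of_ge h]
    have := hm.monotone h
    rw [hc] at this
    exact ⟨hge t h, this⟩

end sqz

/-! ### one box, one direction -/

section one
variable {n : ℕ}

/-- the core box and its neighbourhood -/
def cor (c a : Fin n → ℝ) : Set (Fin n → ℝ) := {y | ∀ i, |y i - c i| ≤ a i}

theorem cor_eq (c a : Fin n → ℝ) : cor c a = Icc (c - a) (c + a) := by
  ext y
  simp only [cor, mem_ofPred_eq, mem_Icc, Pi.le_def, ← forall_and]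
  refine forall_congr' fun i => ?_
  simp only [abs_le, Pi.sub_apply, Pi.add_apply]
  constructor <;> rintro ⟨h1, h2⟩ <;> constructor <;> linarith

theorem isCompact_cor (c a : Fin n → ℝ) : IsCompact (cor c a) := by
  rw [cor_eq]; exact isCompact_Icc

variable {j : Fin n} {c a : Fin n → ℝ} {ρ q lam : ℝ}

theorem vd1 (hρ : 0 < ρ) (hq : 0 < q) (hl : 0 < lam) (hl1 : lam ≤ 1) :
    VD j (sqz (c j) ρ q lam) (bmp j (c - a) (c + a) (fun _ => q) ρ) :=
  vd_bmp hρ.le (pl_continuous _ _ _) (pl_conicalOn _ _ _)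
    (pl_strictMono (inc_sx hρ hq) (inc_sv hρ hq hl hl1)).monotone

theorem vd1' (hρ : 0 < ρ) (hq : 0 < q) (hl : 0 < lam) (hl1 : lam ≤ 1) :
    VD j (sqzi (c j) ρ q lam) (bmp j (c - a) (c + a) (fun _ => q) ρ) :=
  vd_bmp hρ.le (pl_continuous _ _ _) (pl_conicalOn _ _ _)
    (pl_strictMono (inc_sv hρ hq hl hl1) (inc_sx hρ hq)).monotone

/-- one squeeze -/
noncomputable def sq1 (j : Fin n) (c a : Fin n → ℝ) (hρ : 0 < ρ) (hq : 0 < q) (hl : 0 < lam)
    (hl1 : lam ≤ 1) : ConHomeo (univ : Set (Fin n → ℝ)) (univ : Set (Fin n → ℝ)) :=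
  (vd1 (c := c) (a := a) (j := j) hρ hq hl hl1).homeo (vd1' hρ hq hl hl1)
    (pl_strictMono (inc_sx hρ hq) (inc_sv hρ hq hl hl1))
    (pl_strictMono (inc_sv hρ hq hl hl1) (inc_sx hρ hq))
    (pl_pl (inc_sx hρ hq) (inc_sv hρ hq hl hl1))
    (pl_pl (inc_sv hρ hq hl hl1) (inc_sx hρ hq)) isOpen_univ (fun _ _ _ _ => mem_univ _)

theorem sq1_toFun (hρ : 0 < ρ) (hq : 0 < q) (hl : 0 < lam) (hl1 : lam ≤ 1) :
    (sq1 j c a hρ hq hl hl1).toFun =
      vc j (sqz (c j) ρ q lam) (bmp j (c - a) (c + a) (fun _ => q) ρ) := rfl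

theorem sq1_invFun (hρ : 0 < ρ) (hq : 0 < q) (hl : 0 < lam) (hl1 : lam ≤ 1) :
    (sq1 j c a hρ hq hl hl1).invFun =
      vc j (sqzi (c j) ρ q lam) (bmp j (c - a) (c + a) (fun _ => q) ρ) := rfl

theorem supp_sq1 (hρ : 0 < ρ) (hq : 0 < q) (hl : 0 < lam) (hl1 : lam ≤ 1) (ha : a j = ρ) :
    Supp (sq1 j c a hρ hq hl hl1).toFun (cor c fun i => a i + q) := by
  have h1 := supp_vc (j := j) (lo := c - a) (hi := c + a) (r := fun _ => q) (C := ρ)
    (k := sqz (c j) ρ q lam) (al := c j - (ρ + q)) (be := c j + (ρ + q)) hρ.le (fun _ => hq)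
    (pl_continuous _ _ _) (pl_conicalOn _ _ _)
    (pl_strictMono (inc_sx hρ hq) (inc_sv hρ hq hl hl1)).monotone
    (fun t ht => sqz_out hρ hq (by
      rw [le_abs]
      rcases ht with h | h
      · right; linarith
      · left; linarith)) (by linarith)
  have h2 : kbox j (c j - (ρ + q)) (c j + (ρ + q)) (c - a) (c + a) (fun _ => q) =
      cor c fun i => a i + q := by
    ext y
    simp only [kbox, cor, mem_ofPred_eq]
    constructor
    · rintro ⟨⟨h3, h4⟩, h5⟩ i
      by_cases hi : i = j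
      · subst hi; rw [abs_le, ha]; constructor <;> linarith
      · obtain ⟨h6, h7⟩ := h5 i hi
        simp only [Pi.sub_apply, Pi.add_apply] at h6 h7
        rw [abs_le]; constructor <;> linarith
    · intro h
      refine ⟨?_, fun i _ => ?_⟩
      · have := abs_le.1 (h j)
        rw [ha] at this
        constructor <;> linarith [this.1, this.2]
      · have := abs_le.1 (h i)
        simp only [Pi.sub_apply, Pi.add_apply]
        constructor <;> linarith [this.1, this.2]
  rw [h2] at h1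
  exact h1

theorem sq1_core (hρ : 0 < ρ) (hq : 0 < q) (hl : 0 < lam) (hl1 : lam ≤ 1) (ha : a j = ρ)
    {y : Fin n → ℝ} (hy : y ∈ cor c a) :
    (sq1 j c a hρ hq hl hl1).toFun y = Function.update y j (c j + lam * (y j - c j)) := by
  rw [sq1_toFun, VD.eq_full, sqz_core hρ hq (by rw [← ha]; exact hy j)]
  rw [bmp_full (fun _ => hq)]
  · exact abs_sqz_sub_self_le hρ hq hl hl1 _
  · intro i _
    have := abs_le.1 (hy i)
    simp only [Pi.sub_apply, Pi.add_apply]
    constructor <;> linarith [this.1, this.2]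

theorem sq1_ne (hρ : 0 < ρ) (hq : 0 < q) (hl : 0 < lam) (hl1 : lam ≤ 1) {i : Fin n}
    (hi : i ≠ j) (y : Fin n → ℝ) : (sq1 j c a hρ hq hl hl1).toFun y i = y i := vc_ne hi y

theorem sq1_mem (hρ : 0 < ρ) (hq : 0 < q) (hl : 0 < lam) (hl1 : lam ≤ 1) (y : Fin n → ℝ) :
    (sq1 j c a hρ hq hl hl1).toFun y j ∈ uIcc (c j) (y j) := by
  rw [sq1_toFun, vc_same]
  have h1 := cl_mem_uIcc (k := sqz (c j) ρ q lam) (t := y j)
    (bmp_nonneg (j := j) (lo := c - a) (hi := c + a) (r := fun _ => q) hρ.le y)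
  have h2 := abs_sqz_sub_c_le (c := c j) hρ hq hl hl1 (y j)
  exact uIcc_subset_uIcc right_mem_uIcc h2 h1

theorem sq1_sub_le (hρ : 0 < ρ) (hq : 0 < q) (hl : 0 < lam) (hl1 : lam ≤ 1)
    (y : Fin n → ℝ) : |(sq1 j c a hρ hq hl hl1).toFun y j - y j| ≤ ρ :=
  ((vd1 hρ hq hl hl1).abs_sub_le y).trans (bmp_le hρ.le y)

theorem sq1_lip (hρ : 0 < ρ) (hq : 0 < q) (hl : 0 < lam) (hl1 : lam ≤ 1) (y y' : Fin n → ℝ)
    (i : Fin n) : |(sq1 j c a hρ hq hl hl1).toFun y i - (sq1 j c a hρ hq hl hl1).toFun y' i| ≤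
      |y i - y' i| + 2 * (ρ / q) * ‖y - y'‖ := by
  have h0 : 0 < ρ / q := by positivity
  have h1 : 0 ≤ 2 * (ρ / q) * ‖y - y'‖ := by positivity
  have hn : ∀ i, |y i - y' i| ≤ ‖y - y'‖ := fun i => norm_le_pi_norm (y - y') i
  by_cases hi : i = j
  · subst hi
    rw [sq1_toFun]
    refine (VD.abs_vc_sub_vc_le (L := 1 + ρ / q) (by linarith)
      (abs_sqz_sub_le hρ hq hl hl1 _ _)).trans ?_
    have h2 := abs_bmp_sub_le (j := i) (lo := c - a) (hi := c + a) (r := fun _ => q) (C := ρ)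
      hρ.le hq (fun _ => le_rfl) (y := y) (y' := y') (fun i _ => hn i) (norm_nonneg _)
    have h3 : ρ * (‖y - y'‖ / q) = ρ / q * ‖y - y'‖ := by ring
    have h4 : ρ / q * |y i - y' i| ≤ ρ / q * ‖y - y'‖ := by gcongr; exact hn i
    nlinarith
  · rw [sq1_ne hρ hq hl hl1 hi, sq1_ne hρ hq hl hl1 hi]; linarith

end one

end P073.H236
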