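import Vale.Agent.P073.H142.FaceJ
import Vale.Agent.P073.H236.TopG2

/-!
# P073, H236: **[TopG]**, `GivNum` of H142 from the slots
-/

open Set Metric Topology Filter

set_option linter.unusedSectionVars false

namespace Vale.Agent.P073.H236.Slot

open _root_.P073 _root_.P073.Net _root_.P073.PA691
open Vale.Agent.P073.St (V)
open Vale.Agent.P073.H471 Vale.Agent.P073.H267
open Vale.Agent.P073.H73 (Mesh)
open Vale.Agent.P073.H193 (Edges mesh_sub edges)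
open Vale.Agent.P073.H926
open Vale.Agent.P073.H238.K3
open Vale.Agent.P073.H267.K3
open Vale.Agent.P073.Top880

variable {c₀ n δ : ℝ} {j : ℕ} {Ω Λ : Set V} {v w : V} {ρ : V → ℝ} {M : Mesh Ω} {h : ConHomeo Ω Λ}
  {J₀ J : Set (ℕ × (Fin 3 → ℤ))} {P Z : Set M.ι} {K : BoxCx Λ w}
  {D : KIn3 c₀ n j δ v w ρ M h J₀ J P Z} {C : Cells ρ w K} {C₀ μT : ℝ} {X : S1 D C C₀ μT}
  {Y₂ : S2 X} {Ys : Set M.κ} {sc : Sharp} {Y₃ : S3 Y₂ Ys sc} {Y₄ : S4 Y₃}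

theorem Giv.num {Lam τ : M.κ → ℝ} {η : pG C J₀ → ℝ} (G : Giv Y₄ Lam τ η) :
    GivNum Y₄ Lam τ η where
  J := G.J
  mu := G.mu
  dP := G.dP
  q := G.q
  r := G.r
  η0 := G.η0
  ηm := G.ηm
  lam0 := G.lam0
  τ0 := G.τ0
  lip := fun k _ => G.lip k
  θ := G.θ
  ε := G.ε

/-- **`GivNum` from the slots** -/
theorem row_GivNum (D : KIn3 c₀ n j δ v w ρ M h J₀ J P Z) (C : Cells ρ w K)
    {τ : ((edges M).ε → ℝ) → M.κ → ℝ} (hτ : ∀ bn, (∀ e, 0 < bn e) → ∀ k, 0 < τ bn k) :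
    ∃ S : Slots D C C₀ μT Ys sc, ∀ {N : RTn M C J₀} {X : S1 D C C₀ μT} {Y₂ : S2 X}
      {Y₃ : S3 Y₂ Ys sc} {Y₄ : S4 Y₃}, Ok4 S N Y₄ → ∃ Lam, ∀ η : pG C J₀ → ℝ, (∀ b, 0 < η b) →
        (∀ (b : pG C J₀) s, K.edge b.1 ⊆ K.sq s → Y₂.muP s ≤ η b ∧ Y₂.dP s ≤ η b) →
        GivNum Y₄ Lam (τ X.bn) η := by
  obtain ⟨S, hS⟩ := row_givNum (C₀ := C₀) (μT := μT) (Ys := Ys) (sc := sc) D C hτ
  refine ⟨S, fun {N X Y₂ Y₃ Y₄} h4 => ?_⟩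
  obtain ⟨Lam, hL⟩ := hS h4
  exact ⟨Lam, fun η h0 h1 => (hL η h0 h1).num⟩

end Vale.Agent.P073.H236.Slot
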